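import Vale.Agent.P150.Beta1.Resolvent.Grid
import Vale.Agent.P150.Beta1.Words.Main

/-!
# Resolvent words: uniform free diagonals and small off-diagonal entries

Chaining over dyadic grids of the shift, the diagonal and the letters gives concentration around
the centres at the exact parameters; the centres are the free values, and off the diagonal they
vanish.
-/

namespace Vale.Agent.P150.Beta1

open MeasureTheory ProbabilityTheory Finset Filter Real Function Matrix RN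
open scoped ENNReal Topology

/-- A polynomial loses against any exponential. -/
lemma eventually_poly_exp (j : ℕ) {a : ℝ} (ha : 0 < a) {C : ℝ} (hC : 0 < C) :
    ∀ᶠ n : ℕ in atTop, (n : ℝ) ^ j * exp (-(a * n)) ≤ C := by
  have h : Tendsto (fun n : ℕ => ((a * (n : ℝ)) ^ j * exp (-(a * n))) * (a ^ j)⁻¹) atTop (𝓝 0) := by
    have h1 := ((Real.tendsto_pow_mul_exp_neg_atTop_nhds_zero j).comp
      (Tendsto.const_mul_atTop ha tendsto_natCast_atTop_atTop)).mul_const (a ^ j)⁻¹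
    simpa using h1
  filter_upwards [h.eventually (Iic_mem_nhds hC)] with n hn
  refine le_of_eq_of_le ?_ hn
  rw [mul_pow]
  field_simp

variable {n len : ℕ} {β κ κ₁ : ℝ}

/-- Valid parameters are the top of a region with all the module estimates. -/
def TopAll (β κ κ₁ : ℝ) (n : ℕ) : Prop :=
  ∀ (c ν : ℝ) (g : Fin n → ℝ), EdgeAt (β ^ 2) c κ g ν → |c| * κ ≤ 2 → Top β κ κ₁ c ν g

lemma box_ofFn {w : Fin (len + 1) → Fin n → ℝ} (hw : ∀ a i, |w a i| ≤ 1) :
    WordBox (w 0) (List.ofFn fun a : Fin len => w a.succ) := by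
  refine ⟨hw 0, fun e he i => ?_⟩
  obtain ⟨a, rfl⟩ := List.mem_ofFn.1 he
  exact hw a.succ i

/-- The constant of the chain. -/
noncomputable def chainC (β κ κ₁ : ℝ) (m R : ℕ) : ℝ :=
  tailC β * regC β κ κ₁ m * (147 + 2 * gridRate m R 0)
    + tailC β * regC β κ κ₁ m * (2 * (147 + 2 * gridRate m R 0) + 8 * ((m : ℝ) + 3))
    + 28 * regC β κ κ₁ m

/-- Threshold of one increment. -/
noncomputable def stepThr (β κ κ₁ : ℝ) (m R p : ℕ) : ℝ :=
  tailC β * (regC β κ κ₁ m * (1 / 2) ^ p) * (146 + 1 + 2 * √(gridRate m R (p + 1)))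

/-- Threshold of the coarsest level. -/
noncomputable def baseThr (β κ κ₁ : ℝ) (m R : ℕ) : ℝ :=
  tailC β * regC β κ κ₁ m * (146 + 1 + 2 * √(gridRate m R 0))

/-- Exceptional set of one increment ending at `θ`. -/
def stepBad (β κ κ₁ : ℝ) (m R p : ℕ) (θ : Par n len) : Set (Fin n × Fin n → ℝ) :=
  {x | θ.Valid β κ ∧ (θ.rnd p).c ≤ θ.c ∧ (∀ i, (θ.rnd p).g i ≤ θ.g i) ∧
    (θ.rnd p).Valid β κ ∧ x ∈ outer β κ₁ θ.c θ.g ∧
    stepThr β κ κ₁ m R p < nTot (θ.word (skCoupling β x) - (θ.rnd p).word (skCoupling β x)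
      - centreMat β κ₁ θ.c θ.g fun J => θ.word J - (θ.rnd p).word J)}

/-- Exceptional set of the coarsest level at `θ`. -/
def baseBad (β κ κ₁ : ℝ) (m R : ℕ) (θ : Par n len) : Set (Fin n × Fin n → ℝ) :=
  {x | θ.Valid β κ ∧ x ∈ outer β κ₁ θ.c θ.g ∧
    baseThr β κ κ₁ m R < nTot (θ.word (skCoupling β x) - centreMat β κ₁ θ.c θ.g θ.word)}

lemma reg_word_par {c₁ ν : ℝ} {g₁ : Fin n → ℝ} (T : Top β κ κ₁ c₁ ν g₁) {m : ℕ}
    (hlen : len ≤ m) {θ : Par n len} (hv : θ.Valid β κ) (hc : θ.c ≤ c₁)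
    (hg : ∀ i, θ.g i ≤ g₁ i) : OuterReg β κ κ₁ c₁ g₁ m θ.word := by
  obtain ⟨⟨ν', E⟩, hcκ, hw⟩ := hv
  exact T.reg_wordRes' (T.below hc ((le_div_iff₀ E.hκ).2 hcκ) E.hg hg) (box_ofFn hw)
    (by simpa using hlen)

lemma reg_word_par_sub {c₁ ν : ℝ} {g₁ : Fin n → ℝ} (T : Top β κ κ₁ c₁ ν g₁) {m : ℕ}
    (hlen : len ≤ m) {θ θ' : Par n len} (hv : θ.Valid β κ) (hv' : θ'.Valid β κ) (hc : θ.c ≤ c₁)
    (hg : ∀ i, θ.g i ≤ g₁ i) (hc' : θ'.c ≤ c₁) (hg' : ∀ i, θ'.g i ≤ g₁ i) {δ : ℝ}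
    (dc : |θ'.c - θ.c| ≤ δ) (dg : ∀ i, |θ'.g i - θ.g i| ≤ δ)
    (dw : ∀ a i, |θ'.w a i - θ.w a i| ≤ δ) :
    Reg (Region (lam β + 1) (κ₁ / 2) c₁ g₁) (regC β κ κ₁ m * δ)
      fun J => θ'.word J - θ.word J := by
  obtain ⟨⟨ν', E⟩, hcκ, hw⟩ := hv
  obtain ⟨⟨ν'', E'⟩, hcκ', hw'⟩ := hv'
  have hδ : 0 ≤ δ := (abs_nonneg _).trans dc
  refine (reg_wordRes_sub (m := m) (Top.lam_add_nonneg β)
    (T.below hc ((le_div_iff₀ E.hκ).2 hcκ) E.hg hg)
    (T.below hc' ((le_div_iff₀ E.hκ).2 hcκ') E'.hg hg') (box_ofFn hw) (box_ofFn hw')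
    (by simpa using hlen) dc dg ⟨dw 0, ?_⟩).mono (mul_le_mul_of_nonneg_right ?_ hδ)
  · rw [List.forall₂_iff_get]
    refine ⟨by simp, fun a h1 h2 i => ?_⟩
    simp only [List.get_ofFn]
    exact dw (⟨a, by simpa using h1⟩ : Fin len).succ i
  · obtain ⟨h1, h2, h3, h4⟩ := T.parts_nonneg (m := m)
    simp only [regC]
    linarith

lemma gridRate_nonneg (m R p : ℕ) : 0 ≤ gridRate m R p := by
  unfold gridRate
  positivity

lemma stepBad_le (H : TopAll β κ κ₁ n) {m : ℕ} (hlen : len ≤ m) (R p : ℕ) (θ : Par n len) :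
    (gauss (Fin n × Fin n)).real (stepBad β κ κ₁ m R p θ)
      ≤ 2 * exp (-(gridRate m R (p + 1) * n)) := by
  by_cases h : θ.Valid β κ ∧ (θ.rnd p).c ≤ θ.c ∧ (∀ i, (θ.rnd p).g i ≤ θ.g i)
      ∧ (θ.rnd p).Valid β κ
  · obtain ⟨hv, h1, h2, hv'⟩ := h
    obtain ⟨⟨ν, E⟩, hc, -⟩ := id hv
    have T := H _ ν _ E hc
    have hr := reg_word_par_sub T hlen hv' hv h1 h2 le_rfl (fun _ => le_rfl)
      (δ := (1 / 2) ^ p) (abs_sub_rnd p _) (fun i => abs_sub_rnd p _) fun a i => abs_sub_rnd p _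
    have ha : 0 < regC β κ κ₁ m * (1 / 2) ^ p := by
      have := T.one_le_regC (m := m)
      positivity
    refine le_trans (measureReal_mono ?_) (T.tot_tail ha hr (gridRate_nonneg m R (p + 1)))
    exact fun x hx => ⟨hx.2.2.2.2.2, hx.2.2.2.2.1⟩
  · have e : stepBad β κ κ₁ m R p θ = ∅ := Set.eq_empty_iff_forall_notMem.2 fun x hx =>
      h ⟨hx.1, hx.2.1, hx.2.2.1, hx.2.2.2.1⟩
    rw [e, measureReal_empty]
    positivity

lemma baseBad_le (H : TopAll β κ κ₁ n) {m : ℕ} (hlen : len ≤ m) (R : ℕ) (θ : Par n len) :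
    (gauss (Fin n × Fin n)).real (baseBad β κ κ₁ m R θ)
      ≤ 2 * exp (-(gridRate m R 0 * n)) := by
  by_cases hv : θ.Valid β κ
  · obtain ⟨⟨ν, E⟩, hc, -⟩ := id hv
    have T := H _ ν _ E hc
    refine le_trans (measureReal_mono ?_) (T.tot_tail
      (zero_lt_one.trans_le (T.one_le_regC (m := m)))
      (reg_word_par T hlen hv le_rfl fun _ => le_rfl) (gridRate_nonneg m R 0))
    exact fun x hx => ⟨hx.2.2, hx.2.1⟩
  · have e : baseBad β κ κ₁ m R θ = ∅ := Set.eq_empty_iff_forall_notMem.2 fun x hx => hv hx.1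
    rw [e, measureReal_empty]
    positivity

/-- Chaining: off the exceptional sets every admissible word is close to its centres. -/
theorem chain (H : TopAll β κ κ₁ n) {m R : ℕ} (hlen : len ≤ m) (hn : 2 ≤ n) (hκκ : κ₁ ≤ κ)
    (hκ₁ : 0 < κ₁) (hR : 2 / κ ≤ R) {x : Fin n × Fin n → ℝ} (hx : x ∈ Words.Ev β n)
    (hb : ∀ z : GridIdx n len (2 * R * 2 ^ 0 + 1), x ∉ baseBad β κ κ₁ m R (decode R 0 z))
    (hs : ∀ p < n, ∀ z : GridIdx n len (2 * R * 2 ^ (p + 1) + 1),
      x ∉ stepBad β κ κ₁ m R p (decode R (p + 1) z))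
    {θ : Par n len} (hv : θ.Valid β κ) (hc : |θ.c| * κ ≤ 1)
    (hop : OpBound θ.c κ (skCoupling β x) θ.g) :
    nTot (θ.word (skCoupling β x) - centreMat β κ₁ θ.c θ.g θ.word) ≤ chainC β κ κ₁ m R := by
  obtain ⟨⟨ν, E⟩, -, hw⟩ := id hv
  have hκ := E.hκ
  have hκ1 := E.kappa_le_one
  have hR1 : (1:ℝ) ≤ R := le_trans ((le_div_iff₀ hκ).2 (by linarith)) hR
  set θp : ℕ → Par n len := fun p => θ.rnd p
  have hvp : ∀ p, (θp p).Valid β κ := fun p => θ.valid_rnd p hv hc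
  have hJ : OpLe (lam β + 1) (Matrix.of (skCoupling β x)) :=
    (opLe_of_act (zero_le_one.trans (Words.one_le_radSq β)) hx).mono (le_add_of_nonneg_right zero_le_one)
  have hin : ∀ θ' : Par n len, θ'.c ≤ θ.c → (∀ i, θ'.g i ≤ θ.g i) →
      x ∈ outer β κ₁ θ'.c θ'.g := fun θ' h1 h2 => by
    refine ⟨skCoupling_symm β x, hJ, fun a => ?_⟩
    exact ((hop.mono hκ1 h2 h1) a).trans (mul_le_mul_of_nonneg_right (by linarith)
      (sum_nonneg fun i _ => sq_nonneg _))
  have hbox : ∀ p, (∀ a i, |(θp p).w a i| ≤ (R:ℝ)) ∧ |(θp p).c| ≤ (R:ℝ) ∧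
      ∀ i, |(θp p).g i| ≤ (R:ℝ) := fun p => by
    obtain ⟨⟨ν', E'⟩, hc', hw'⟩ := hvp p
    refine ⟨fun a i => (hw' a i).trans hR1, ((le_div_iff₀ hκ).2 hc').trans hR, fun i => ?_⟩
    rw [abs_of_nonneg (E'.hg i)]
    exact ((le_div_iff₀ hκ).2 ((E'.hgκ i).trans (by norm_num))).trans hR
  obtain ⟨νp, hT⟩ : ∃ νp : ℕ → ℝ, ∀ p, Top β κ κ₁ (θp p).c (νp p) (θp p).g := by
    choose νp hνp using fun p => (hvp p).1
    exact ⟨νp, fun p => H _ _ _ (hνp p) (hvp p).2.1⟩
  set A := regC β κ κ₁ m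
  set M := fun p => centreMat β κ₁ (θp p).c (θp p).g (θp p).word
  set Y := fun p => nTot ((θp p).word (skCoupling β x) - M p)
  have h0 : Y 0 ≤ baseThr β κ κ₁ m R := by
    obtain ⟨z, hz⟩ := exists_decode R 0 (θ := θp 0) (hbox 0).2.1 (hbox 0).2.2 (hbox 0).1
    have hz' : decode R 0 z = θp 0 := by
      rw [hz]
      simp only [θp, Par.rnd, rnd, pow_zero, mul_one, div_one, Int.floor_intCast]
    have h := hb z
    rw [hz'] at h
    by_contra hcon
    exact h ⟨hvp 0, hin _ (rnd_le 0 _) (fun i => rnd_le 0 _), not_le.1 hcon⟩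
  have herr : ∀ {c₁ ν₁ : ℝ} {g₁ : Fin n → ℝ} (_T₁ : Top β κ κ₁ c₁ ν₁ g₁) {q : ℕ},
      (θp q).c ≤ c₁ → (∀ i, (θp q).g i ≤ g₁ i) →
      nTot (centreMat β κ₁ (θp q).c (θp q).g (θp q).word - centreMat β κ₁ c₁ g₁ (θp q).word)
        ≤ 8 * A * ((n:ℝ) / (n:ℝ) ^ 6) := by
    intro c₁ ν₁ g₁ T₁ q hc₁ hg₁
    have hsub : outer β κ₁ c₁ g₁ ⊆ outer β κ₁ (θp q).c (θp q).g := fun y hy =>
      ⟨hy.1, hy.2.1, hy.2.2.mono (by linarith [T₁.hκ₁1]) hg₁ hc₁⟩
    have hr := reg_word_par (hT q) hlen (hvp q) le_rfl fun _ => le_rfl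
    have h1 : ∀ i j, |(centreMat β κ₁ (θp q).c (θp q).g (θp q).word
        - centreMat β κ₁ c₁ g₁ (θp q).word) i j| ≤ 4 * A * (1 / (n:ℝ) ^ 6) := fun i j => by
      simp only [Matrix.sub_apply, centreMat, Matrix.of_apply, centre]
      rw [abs_sub_comm]
      exact cmean_subset T₁.likely (hT q).likely hsub ((hT q).int_entry hr i j)
        (fun y hy => (hT q).abs_entry hr hy i j) T₁.rare'
    have hA0 : 0 ≤ A := hr.1
    have h2 := (nTot_le_frob _).trans (mul_le_mul_of_nonneg_left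
      (frob_le_of_entries (by positivity) h1) two_pos.le)
    refine h2.trans (le_of_eq ?_)
    ring
  have hA0 : 0 ≤ A := zero_le_one.trans (hT 0).one_le_regC
  have hstep : ∀ p < n, Y (p + 1) ≤ Y p + (stepThr β κ κ₁ m R p
      + 8 * A * ((n:ℝ) / (n:ℝ) ^ 6)) := by
    intro p hp
    obtain ⟨z, hz⟩ := exists_decode R (p + 1) (θ := θp (p + 1))
      (hbox _).2.1 (hbox _).2.2 (hbox _).1
    have hidem : ∀ u : ℝ, rnd (p + 1) (rnd (p + 1) u) = rnd (p + 1) u := fun u => by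
      simp only [rnd]
      rw [div_mul_cancel₀ _ (by positivity), Int.floor_intCast]
    have hz' : decode R (p + 1) z = θp (p + 1) := by
      rw [hz]
      simp only [θp, Par.rnd, hidem]
    have hrr : (θp (p + 1)).rnd p = θp p := θ.rnd_rnd p
    have hle : (θp p).c ≤ (θp (p + 1)).c ∧ ∀ i, (θp p).g i ≤ (θp (p + 1)).g i := by
      rw [← hrr]
      exact ⟨rnd_le p _, fun i => rnd_le p _⟩
    have h := hs p hp z
    rw [hz'] at h
    have hstepΔ : nTot ((θp (p + 1)).word (skCoupling β x) - (θp p).word (skCoupling β x)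
        - centreMat β κ₁ (θp (p + 1)).c (θp (p + 1)).g
          (fun J => (θp (p + 1)).word J - (θp p).word J)) ≤ stepThr β κ κ₁ m R p := by
      by_contra hcon
      refine h ⟨hvp _, by rw [hrr]; exact hle.1, by rw [hrr]; exact hle.2,
        by rw [hrr]; exact hvp p, hin _ (rnd_le _ _) (fun i => rnd_le _ _), ?_⟩
      rw [hrr]
      exact not_le.1 hcon
    have r1 := reg_word_par (hT (p + 1)) hlen (hvp (p + 1)) le_rfl fun _ => le_rfl
    have r0 := reg_word_par (hT (p + 1)) hlen (hvp p) hle.1 hle.2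
    have hlin : centreMat β κ₁ (θp (p + 1)).c (θp (p + 1)).g
          (fun J => (θp (p + 1)).word J - (θp p).word J)
        = M (p + 1) - centreMat β κ₁ (θp (p + 1)).c (θp (p + 1)).g (θp p).word := by
      ext i j
      simp only [M, centreMat, Matrix.sub_apply, Matrix.of_apply, centre, cmean]
      rw [integral_sub ((hT (p + 1)).int_entry r1 i j) ((hT (p + 1)).int_entry r0 i j), sub_div]
    simp only [Y]
    set S₁ := (θp (p + 1)).word (skCoupling β x)
    set S₀ := (θp p).word (skCoupling β x)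
    set Z := centreMat β κ₁ (θp (p + 1)).c (θp (p + 1)).g (θp p).word
    rw [show S₁ - M (p + 1) = (S₀ - M p) + ((S₁ - S₀ - (M (p + 1) - Z)) + (M p - Z)) by abel]
    refine (nTot_add_le _ _).trans (add_le_add le_rfl ((nTot_add_le _ _).trans
      (add_le_add ?_ (herr (hT (p + 1)) hle.1 hle.2))))
    rw [← hlin]
    exact hstepΔ
  have htel : ∀ P ≤ n, Y P ≤ Y 0 + ∑ p ∈ range P, (stepThr β κ κ₁ m R p
      + 8 * A * ((n:ℝ) / (n:ℝ) ^ 6)) := by
    intro P
    induction P with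
    | zero => simp
    | succ P ih =>
      intro hP
      rw [sum_range_succ, ← add_assoc]
      exact (hstep P hP).trans (add_le_add (ih (Nat.le_of_succ_le hP)) le_rfl)
  have T := H _ ν _ E hv.2.1
  have hr := reg_word_par_sub T hlen (hvp n) hv (rnd_le n _) (fun i => rnd_le n _) le_rfl
    (fun _ => le_rfl) (δ := (1 / 2) ^ n) (abs_sub_rnd n _) (fun i => abs_sub_rnd n _)
    fun a i => abs_sub_rnd n _
  have hn1 : (1:ℝ) ≤ n := by exact_mod_cast le_trans one_le_two hn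
  have hn2 : (n:ℝ) * (1 / 2) ^ n ≤ 1 := by
    rw [div_pow, one_pow, mul_one_div, div_le_one (by positivity)]
    exact_mod_cast n.lt_two_pow_self.le
  have hn6 : (n:ℝ) * ((n:ℝ) / (n:ℝ) ^ 6) ≤ 1 := by
    rw [← mul_div_assoc, div_le_one (by positivity), ← sq]
    exact pow_le_pow_right₀ hn1 (by norm_num)
  set Sθ := θ.word (skCoupling β x)
  set Sn := (θp n).word (skCoupling β x)
  set Mθ := centreMat β κ₁ θ.c θ.g θ.word
  set Zn := centreMat β κ₁ θ.c θ.g (θp n).word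
  have hxθ := hin θ le_rfl fun _ => le_rfl
  have e1 : nTot (Sθ - Sn) ≤ 2 * A := by
    refine (nTot_le_frob _).trans (mul_le_mul_of_nonneg_left ?_ two_pos.le)
    refine (frob_le_of_entries (by positivity) fun i j => (hr.2.1 _ hxθ).abs_apply_le i j).trans ?_
    calc (n:ℝ) * (A * (1 / 2) ^ n) = A * ((n:ℝ) * (1 / 2) ^ n) := by ring
      _ ≤ A * 1 := mul_le_mul_of_nonneg_left hn2 hA0
      _ = A := mul_one A
  have e2 : nTot (Zn - Mθ) ≤ 2 * A := by
    refine (nTot_le_frob _).trans (mul_le_mul_of_nonneg_left ?_ two_pos.le)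
    rw [← frob_neg, neg_sub]
    refine (frob_le_of_entries (a := A * (1 / 2) ^ n) (by positivity) fun i j => ?_).trans ?_
    · have rθ := reg_word_par T hlen hv le_rfl fun _ => le_rfl
      have rn := reg_word_par T hlen (hvp n) (rnd_le n _) fun i => rnd_le n _
      simp only [Mθ, Zn, Matrix.sub_apply, centreMat, Matrix.of_apply, centre, cmean]
      rw [← sub_div, ← integral_sub (T.int_entry rθ i j) (T.int_entry rn i j)]
      exact T.likely.abs_cmean_le ((T.int_entry rθ i j).sub (T.int_entry rn i j)) fun y hy =>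
        (hr.2.1 _ hy).abs_apply_le i j
    · calc (n:ℝ) * (A * (1 / 2) ^ n) = A * ((n:ℝ) * (1 / 2) ^ n) := by ring
        _ ≤ A * 1 := mul_le_mul_of_nonneg_left hn2 hA0
        _ = A := mul_one A
  have e3 := herr T (q := n) (rnd_le n _) fun i => rnd_le n _
  rw [show Sθ - Mθ = (Sn - M n) + ((Sθ - Sn) + ((M n - Zn) + (Zn - Mθ))) by abel]
  refine (nTot_add_le _ _).trans ((add_le_add (htel n le_rfl) ((nTot_add_le _ _).trans
    (add_le_add e1 ((nTot_add_le _ _).trans (add_le_add e3 e2))))).trans ?_)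
  rw [sum_add_distrib, sum_const, card_range, nsmul_eq_mul]
  have hb1 : baseThr β κ κ₁ m R ≤ tailC β * A * (147 + 2 * gridRate m R 0) := by
    refine mul_le_mul_of_nonneg_left ?_ (mul_nonneg (by unfold tailC; positivity) hA0)
    have hg : (1:ℝ) ≤ gridRate m R 0 := by
      unfold gridRate
      have : 0 ≤ ((m:ℝ) + 3) * (3 * R + (0:ℕ) + 1) := by positivity
      linarith
    linarith [sqrt_le_iff.2 ⟨zero_le_one.trans hg, le_self_pow₀ hg two_ne_zero⟩]
  have hsum : ∑ p ∈ range n, stepThr β κ κ₁ m R p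
      ≤ tailC β * A * (2 * (147 + 2 * gridRate m R 0 + 2 * ((m:ℝ) + 3))
        + 2 * (2 * ((m:ℝ) + 3))) := by
    refine le_trans ?_ (mul_le_mul_of_nonneg_left
      (sum_geom_linear (K := 147 + 2 * gridRate m R 0 + 2 * ((m:ℝ) + 3)) (q := 2 * ((m:ℝ) + 3))
        (by have := gridRate_nonneg m R 0; positivity) (by positivity) n)
      (mul_nonneg (by unfold tailC; positivity) hA0))
    rw [mul_sum]
    refine sum_le_sum fun p _ => ?_
    have hg : (1:ℝ) ≤ gridRate m R (p + 1) := by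
      unfold gridRate
      have : 0 ≤ ((m:ℝ) + 3) * (3 * R + (p + 1 : ℕ) + 1) := by positivity
      linarith
    have hlin : gridRate m R (p + 1) = gridRate m R 0 + ((m:ℝ) + 3) * (p + 1) := by
      unfold gridRate
      push_cast
      ring
    rw [stepThr, show tailC β * (A * (1 / 2) ^ p) * (146 + 1 + 2 * √(gridRate m R (p + 1)))
      = tailC β * A * ((1 / 2) ^ p * (146 + 1 + 2 * √(gridRate m R (p + 1)))) by ring]
    refine mul_le_mul_of_nonneg_left (mul_le_mul_of_nonneg_left ?_ (by positivity))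
      (mul_nonneg (by unfold tailC; positivity) hA0)
    linarith [sqrt_le_iff.2 ⟨zero_le_one.trans hg, le_self_pow₀ hg two_ne_zero⟩]
  have hC : chainC β κ κ₁ m R = tailC β * A * (147 + 2 * gridRate m R 0)
      + tailC β * A * (2 * (147 + 2 * gridRate m R 0) + 8 * ((m:ℝ) + 3)) + 28 * A := rfl
  have h8 : (n:ℝ) * (8 * A * ((n:ℝ) / (n:ℝ) ^ 6)) ≤ 8 * A := by
    calc (n:ℝ) * (8 * A * ((n:ℝ) / (n:ℝ) ^ 6)) = 8 * A * ((n:ℝ) * ((n:ℝ) / (n:ℝ) ^ 6)) := by ring
      _ ≤ 8 * A * 1 := mul_le_mul_of_nonneg_left hn6 (by positivity)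
      _ = 8 * A := mul_one _
  have h9 : 8 * A * ((n:ℝ) / (n:ℝ) ^ 6) ≤ 8 * A := by
    refine mul_le_of_le_one_right (by positivity) ((div_le_one (by positivity)).2 ?_)
    exact le_self_pow₀ hn1 (by norm_num)
  rw [hC]
  linarith

/-- The module theorem: uniform resolvent words. -/
theorem resolventStatement {β : ℝ} (hβ : 0 < β) : ResolventStatement β := by
  intro κ hκ m
  obtain ⟨κ₀, hκ₀, hκ₀1, a, ha, hedge⟩ := edge_compl_le hβ hκ
  set κ₁ := min κ₀ κ
  obtain ⟨Cw, hCw⟩ := wordsStatement β m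
  set R := ⌈2 / κ⌉₊
  have hR : 2 / κ ≤ R := Nat.le_ceil _
  choose Cl hCl0 Nl hCl using fun f : Fin (m + 1) =>
    centre_resVal β κ κ₁ Cw m f.1 (Nat.lt_succ_iff.1 f.2)
  set Cs := ∑ f, Cl f
  set C₀ := chainC β κ κ₁ m R
  refine ⟨max (2 * C₀ ^ 2 + 2 * Cs ^ 2) (C₀ ^ 4), ?_⟩
  have hev1 := eventually_poly_exp 7 ha (show (0:ℝ) < 1 / 4 by norm_num)
  have hev2 : ∀ᶠ n : ℕ in atTop,
      √2 * β * (1 / (n : ℝ) ^ 2) * (1 + 2 / κ) ≤ min 1 (κ₁ / 2) := by
    have h : Tendsto (fun n : ℕ => √2 * β * (1 / (n : ℝ) ^ 2) * (1 + 2 / κ)) atTop (𝓝 0) := by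
      have h1 : Tendsto (fun n : ℕ => 1 / (n : ℝ) ^ 2) atTop (𝓝 0) :=
        tendsto_const_nhds.div_atTop ((tendsto_pow_atTop two_ne_zero).comp tendsto_natCast_atTop_atTop)
      simpa using (h1.const_mul (√2 * β)).mul_const (1 + 2 / κ)
    have hpos : 0 < min 1 (κ₁ / 2) := by positivity
    exact h.eventually (Iic_mem_nhds hpos)
  filter_upwards [eventually_ge_atTop (max (∑ f, Nl f) (max 4 (4 * (m + 2)))), hev1, hev2, hCw]
    with n hnN h7 hstep hwn
  have hn4 : 4 ≤ n := le_trans (le_max_left _ _) (le_trans (le_max_right _ _) hnN)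
  have hnm : 4 * (m + 2) ≤ n := le_trans (le_max_right _ _) (le_trans (le_max_right _ _) hnN)
  have hn2 : 2 ≤ n := le_trans (by norm_num) hn4
  have hn0 : 0 < n := lt_of_lt_of_le two_pos hn2
  set μ := gauss (Fin n × Fin n)
  have hn1 : (1:ℝ) ≤ n := by exact_mod_cast hn0
  have hκ₁ : 0 < κ₁ := lt_min hκ₀ hκ
  have hκ₁κ : κ₁ ≤ κ := min_le_right _ _
  have H : TopAll β κ κ₁ n := fun c ν g E hc => by
    have hst0 : 0 ≤ √2 * β * (1 / (n:ℝ) ^ 2) := by positivity
    have hst1 : √2 * β * (1 / (n:ℝ) ^ 2) * (2 / κ) ≤ κ₁ / 2 := by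
      have := (le_trans hstep (min_le_right _ _))
      linarith
    refine ⟨hβ, hκ₁, (min_le_left _ _).trans hκ₀1, E, hc, hn2, ?_, ?_, by linarith⟩
    · refine (measureReal_mono (Set.compl_subset_compl.2
        (dom_mono le_rfl (min_le_left κ₀ κ)))).trans ((hedge n hn0 c ν g E hc).trans ?_)
      rw [le_div_iff₀ (by positivity)]
      have h1 : (2 * (n:ℝ) + 2) ≤ 4 * n := by linarith
      calc (2 * (n:ℝ) + 2) * exp (-(a * n)) * (n:ℝ) ^ 6
          ≤ 4 * (n:ℝ) * exp (-(a * n)) * (n:ℝ) ^ 6 := by gcongr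
        _ = 4 * ((n:ℝ) ^ 7 * exp (-(a * n))) := by ring
        _ ≤ _ := by linarith
    · have h1 : √2 * β * (1 / (n:ℝ) ^ 2) * 1 ≤ √2 * β * (1 / (n:ℝ) ^ 2) * (1 + 2 / κ) :=
        mul_le_mul_of_nonneg_left (le_add_of_nonneg_right (by positivity)) hst0
      linarith [le_trans hstep (min_le_left _ _)]
  have hwgood : μ.real {x | ¬GoodWords β m Cw (skCoupling β x)} ≤ 1 / 8 := by
    refine (ENNReal.toReal_le_of_le_ofReal (exp_pos _).le hwn).trans ?_
    refine (exp_le_exp.2 (show -(n:ℝ) ≤ -4 by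
      linarith [show (4:ℝ) ≤ n by exact_mod_cast hn4])).trans ?_
    rw [Real.exp_neg, inv_le_comm₀ (exp_pos _) (by norm_num)]
    linarith [quadratic_le_exp_of_nonneg (show (0:ℝ) ≤ 4 by norm_num)]
  set bad0 := fun f : Fin (m + 1) =>
    ⋃ z : GridIdx n f.1 (2 * R * 2 ^ 0 + 1), baseBad β κ κ₁ m R (decode R 0 z)
  set bad1 := fun f : Fin (m + 1) => ⋃ p : Fin n,
    ⋃ z : GridIdx n f.1 (2 * R * 2 ^ (p.1 + 1) + 1),
      stepBad β κ κ₁ m R p.1 (decode R (p.1 + 1) z)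
  have hsub : {x | ¬GoodResolvent β κ m (max (2 * C₀ ^ 2 + 2 * Cs ^ 2) (C₀ ^ 4)) (skCoupling β x)}
      ⊆ (Words.Ev β n)ᶜ ∪ ⋃ f, (bad0 f ∪ bad1 f) := by
    intro x hx
    by_contra hcon
    simp only [Set.mem_union, Set.mem_compl_iff, Set.mem_iUnion, not_or, not_not, not_exists,
      bad0, bad1] at hcon
    obtain ⟨hxE, hno⟩ := hcon
    refine hx fun c g d l hc hg hgκ hF hop hl hd hl' => ?_
    obtain ⟨ν, E⟩ := hF.edgeAt (sq_nonneg β) hκ hc hg hgκ
    set f : Fin (m + 1) := ⟨l.length, Nat.lt_succ_iff.2 hl⟩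
    set θ : Par n l.length := ⟨c, g, Fin.cons d fun a => l[a.1]⟩
    have hθl : (List.ofFn fun a : Fin l.length => θ.w a.succ) = l := by
      simp [θ, List.ofFn_getElem]
    have hθw : θ.word (skCoupling β x) = wordMat (skCoupling β x) d l * res c (skCoupling β x) g := by
      rw [Par.word, hθl]
      rfl
    have hθf : θ.word = fun J => wordMat J d l * res c J g := funext fun J => by
      rw [Par.word, hθl]
      rfl
    have hv : θ.Valid β κ := by
      refine ⟨⟨ν, E⟩, by linarith, Fin.cases hd fun a i => ?_⟩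
      simp only [θ, Fin.cons_succ]
      exact hl' _ (List.getElem_mem _) i
    have hch := chain H hl hn2 hκ₁κ hκ₁ hR hxE (fun z => (hno f).1 z)
      (fun p hp z => (hno f).2 ⟨p, hp⟩ z) hv hc hop
    rw [hθw, hθf] at hch
    set W := wordMat (skCoupling β x) d l * res c (skCoupling β x) g
    set M := centreMat β κ₁ c g fun J => wordMat J d l * res c J g
    have hD : nDiag (W - M) ≤ C₀ := le_trans (le_add_of_nonneg_right (nOff_nonneg _)) hch
    have hO : nOff (W - M) ≤ C₀ := le_trans (le_add_of_nonneg_left (nDiag_nonneg _)) hch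
    have T := H c ν g E (by linarith)
    constructor
    · refine le_trans ?_ (le_max_left _ _)
      set V := resVal β (freeG (β ^ 2) c g) l.length d l
      have h1 := pow_le_pow_left₀ (nDiag_nonneg _) hD 2
      rw [nDiag_sq] at h1
      have hCs : Cl f ≤ Cs := single_le_sum (fun g _ => hCl0 g) (mem_univ f)
      have h2 : ∀ i, (M i i - V i) ^ 2 ≤ Cs ^ 2 / n := fun i => by
        have hNf : Nl f ≤ n := le_trans (single_le_sum (fun _ _ => Nat.zero_le _) (mem_univ f))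
          (le_trans (le_max_left _ _) hnN)
        have h := (hCl f n hNf c ν g T hwgood d l ⟨hd, hl'⟩ le_rfl i).trans
          (div_le_div_of_nonneg_right hCs (sqrt_nonneg _))
        have h' := pow_le_pow_left₀ (abs_nonneg _) h 2
        rw [sq_abs, div_pow, sq_sqrt (Nat.cast_nonneg n)] at h'
        simpa only [M, V, centreMat, Matrix.of_apply] using h'
      have h3 : ∑ i, (M i i - V i) ^ 2 ≤ Cs ^ 2 := by
        refine (sum_le_sum fun i _ => h2 i).trans (le_of_eq ?_)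
        rw [sum_const, card_univ, Fintype.card_fin, nsmul_eq_mul]
        field_simp
      refine (sum_le_sum fun i _ => show (W i i - V i) ^ 2
        ≤ 2 * (W - M) i i ^ 2 + 2 * (M i i - V i) ^ 2 by
          have := add_sq_le (a := (W - M) i i) (b := M i i - V i)
          rw [Matrix.sub_apply, sub_add_sub_cancel] at this
          rw [Matrix.sub_apply]
          linarith).trans ?_
      rw [sum_add_distrib, ← mul_sum, ← mul_sum]
      linarith
    · refine le_trans ?_ (le_max_right _ _)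
      have h1 := pow_le_pow_left₀ (nOff_nonneg _) hO 4
      rw [nOff_pow] at h1
      refine le_trans (le_of_eq (sum_congr rfl fun i _ => sum_congr rfl fun j _ => ?_)) h1
      split_ifs with hij
      · rfl
      · simp only [M, Matrix.sub_apply, centreMat, Matrix.of_apply]
        rw [centre_offdiag hκ₁ hg d l hij, sub_zero]
  have hfam : ∀ f : Fin (m + 1), μ.real (bad0 f ∪ bad1 f)
      ≤ 2 * (n + 1) * exp (-(3 * (n:ℝ))) := by
    intro f
    have hlen := Nat.lt_succ_iff.1 f.2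
    have h0 : μ.real (bad0 f) ≤ 2 * exp (-(3 * (n:ℝ))) :=
      (measureReal_iUnion_fintype_le _).trans ((sum_le_sum fun z _ =>
        baseBad_le H hlen R (decode R 0 z)).trans (by
          rw [sum_const, card_univ, nsmul_eq_mul]
          exact grid_union_le hlen (le_trans one_le_two hn2)))
    have h1 : μ.real (bad1 f) ≤ n * (2 * exp (-(3 * (n:ℝ)))) := by
      refine (measureReal_iUnion_fintype_le _).trans ((sum_le_sum (g := fun _ =>
        2 * exp (-(3 * (n:ℝ)))) fun p _ => ?_).trans (le_of_eq ?_))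
      · refine (measureReal_iUnion_fintype_le _).trans ((sum_le_sum fun z _ =>
          stepBad_le H hlen R p.1 (decode R (p.1 + 1) z)).trans ?_)
        rw [sum_const, card_univ, nsmul_eq_mul]
        exact grid_union_le hlen (le_trans one_le_two hn2)
      · simp
    exact (measureReal_union_le _ _).trans ((add_le_add h0 h1).trans (le_of_eq (by ring)))
  have htot : μ.real {x | ¬GoodResolvent β κ m (max (2 * C₀ ^ 2 + 2 * Cs ^ 2) (C₀ ^ 4))
      (skCoupling β x)} ≤ exp (-(n:ℝ)) := by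
    refine (measureReal_mono hsub).trans ((measureReal_union_le _ _).trans ?_)
    have h1 := (measureReal_iUnion_fintype_le (μ := μ) fun f => bad0 f ∪ bad1 f).trans
      (sum_le_sum fun f _ => hfam f)
    rw [sum_const, card_univ, Fintype.card_fin, nsmul_eq_mul] at h1
    push_cast at h1
    refine (add_le_add (Words.gauss_ev_compl β hn0) h1).trans ?_
    have hA : exp (-(2 * (n:ℝ))) ≤ 1 / 2 * exp (-(n:ℝ)) := by
      rw [show -(2 * (n:ℝ)) = -(n:ℝ) + -(n:ℝ) by ring, Real.exp_add]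
      refine mul_le_mul_of_nonneg_right ?_ (exp_pos _).le
      rw [Real.exp_neg, inv_le_comm₀ (exp_pos _) (by norm_num)]
      linarith [add_one_le_exp (n:ℝ)]
    have hB : ((m:ℝ) + 1) * (2 * ((n:ℝ) + 1) * exp (-(3 * (n:ℝ)))) ≤ 1 / 2 * exp (-(n:ℝ)) := by
      rw [show -(3 * (n:ℝ)) = -(n:ℝ) + -(2 * (n:ℝ)) by ring, Real.exp_add,
        show ((m:ℝ) + 1) * (2 * ((n:ℝ) + 1) * (exp (-(n:ℝ)) * exp (-(2 * (n:ℝ)))))
          = 2 * ((m:ℝ) + 1) * ((n:ℝ) + 1) * exp (-(2 * (n:ℝ))) * exp (-(n:ℝ)) by ring]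
      refine mul_le_mul_of_nonneg_right ?_ (exp_pos _).le
      rw [Real.exp_neg, ← div_eq_mul_inv, div_le_iff₀ (exp_pos _)]
      have hm4 : 4 * ((m:ℝ) + 2) ≤ n := by exact_mod_cast hnm
      have hm : 2 * ((m:ℝ) + 1) * ((n:ℝ) + 1) ≤ (n:ℝ) * n := by
        calc 2 * ((m:ℝ) + 1) * ((n:ℝ) + 1) ≤ (n:ℝ) / 2 * ((n:ℝ) + 1) :=
              mul_le_mul_of_nonneg_right (by linarith) (by positivity)
          _ ≤ (n:ℝ) / 2 * (2 * n) := mul_le_mul_of_nonneg_left (by linarith) (by positivity)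
          _ = _ := by ring
      have hq := quadratic_le_exp_of_nonneg (show (0:ℝ) ≤ 2 * n by positivity)
      linarith
    linarith
  change μ _ ≤ _
  rw [← ofReal_measureReal (measure_ne_top μ _)]
  exact ENNReal.ofReal_le_ofReal htot

end Vale.Agent.P150.Beta1
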