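import Mathlib

/-!
# Matrix norms for the resolvent words

Operator bounds as predicates, the Frobenius norm, the `ℓ²` norm of the diagonal and the `ℓ⁴`
norm of the off-diagonal part.
-/

namespace Vale.Agent.P150.Beta1.RN

open Finset Matrix Real
open scoped ENNReal

variable {ι : Type*} [Fintype ι]

local instance factFour : Fact ((1:ℝ≥0∞) ≤ 4) := ⟨by norm_num⟩

/-- Operator norm at most `r`. -/
def OpLe (r : ℝ) (M : Matrix ι ι ℝ) : Prop :=
  0 ≤ r ∧ ∀ x : ι → ℝ, ∑ i, (M *ᵥ x) i ^ 2 ≤ r ^ 2 * ∑ i, x i ^ 2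

/-- The entries of a matrix as a Euclidean vector. -/
noncomputable def vec (M : Matrix ι ι ℝ) : EuclideanSpace ℝ (ι × ι) :=
  WithLp.toLp 2 fun p => M p.1 p.2

/-- Frobenius norm. -/
noncomputable def frob (M : Matrix ι ι ℝ) : ℝ := ‖vec M‖

/-- `ℓ²` norm of the diagonal. -/
noncomputable def nDiag (M : Matrix ι ι ℝ) : ℝ :=
  ‖(WithLp.toLp 2 fun i => M i i : EuclideanSpace ℝ ι)‖

variable [DecidableEq ι]

/-- `ℓ⁴` norm of the off-diagonal part. -/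
noncomputable def nOff (M : Matrix ι ι ℝ) : ℝ :=
  ‖(WithLp.toLp 4 fun p : ι × ι => if p.1 = p.2 then 0 else M p.1 p.2 :
    PiLp 4 fun _ : ι × ι => ℝ)‖

omit [DecidableEq ι] in
lemma frob_nonneg (M : Matrix ι ι ℝ) : 0 ≤ frob M := norm_nonneg _

omit [DecidableEq ι] in
lemma frob_sq (M : Matrix ι ι ℝ) : frob M ^ 2 = ∑ i, ∑ j, M i j ^ 2 := by
  rw [frob, EuclideanSpace.norm_eq, sq_sqrt (sum_nonneg fun p _ => sq_nonneg _),
    Fintype.sum_prod_type]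
  simp [vec]

omit [DecidableEq ι] in
lemma frob_le_iff {M : Matrix ι ι ℝ} {r : ℝ} (hr : 0 ≤ r) :
    frob M ≤ r ↔ ∑ i, ∑ j, M i j ^ 2 ≤ r ^ 2 := by
  rw [← frob_sq, pow_le_pow_iff_left₀ (frob_nonneg M) hr two_ne_zero]

omit [DecidableEq ι] in
lemma frob_add_le (M N : Matrix ι ι ℝ) : frob (M + N) ≤ frob M + frob N :=
  norm_add_le (vec M) (vec N)

omit [DecidableEq ι] in
lemma frob_sub_le (M N : Matrix ι ι ℝ) : frob (M - N) ≤ frob M + frob N :=
  norm_sub_le (vec M) (vec N)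

omit [DecidableEq ι] in
@[simp] lemma frob_zero : frob (0 : Matrix ι ι ℝ) = 0 := by
  simp [frob, vec, show (fun p : ι × ι => (0 : ℝ)) = 0 from rfl]

omit [DecidableEq ι] in
lemma frob_neg (M : Matrix ι ι ℝ) : frob (-M) = frob M := norm_neg (vec M)

omit [DecidableEq ι] in
lemma frob_transpose (M : Matrix ι ι ℝ) : frob Mᵀ = frob M := by
  rw [← sq_eq_sq₀ (frob_nonneg _) (frob_nonneg _), frob_sq, frob_sq, sum_comm]
  rfl

omit [DecidableEq ι] in
lemma frob_smul (a : ℝ) (M : Matrix ι ι ℝ) : frob (a • M) = |a| * frob M := by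
  rw [← sq_eq_sq₀ (frob_nonneg _) (mul_nonneg (abs_nonneg a) (frob_nonneg _)), frob_sq,
    mul_pow, frob_sq, sq_abs, mul_sum]
  simp only [Matrix.smul_apply, smul_eq_mul, mul_pow, mul_sum]

omit [DecidableEq ι] in
lemma abs_apply_le_frob (M : Matrix ι ι ℝ) (i j : ι) : |M i j| ≤ frob M :=
  PiLp.norm_apply_le (vec M) (i, j)

namespace OpLe

variable {r s : ℝ} {M N : Matrix ι ι ℝ}

omit [DecidableEq ι] in
lemma mono (h : OpLe r M) (hrs : r ≤ s) : OpLe s M :=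
  ⟨h.1.trans hrs, fun x => (h.2 x).trans (mul_le_mul_of_nonneg_right
    (pow_le_pow_left₀ h.1 hrs 2) (sum_nonneg fun i _ => sq_nonneg _))⟩

omit [DecidableEq ι] in
lemma sqrt_le (h : OpLe r M) (x : ι → ℝ) :
    √(∑ i, (M *ᵥ x) i ^ 2) ≤ r * √(∑ i, x i ^ 2) := by
  have := sqrt_le_sqrt (h.2 x)
  rwa [sqrt_mul (sq_nonneg r), sqrt_sq h.1] at this

omit [DecidableEq ι] in
lemma mul (h : OpLe r M) (h' : OpLe s N) : OpLe (r * s) (M * N) := by
  refine ⟨mul_nonneg h.1 h'.1, fun x => ?_⟩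
  rw [← Matrix.mulVec_mulVec, mul_pow]
  refine (h.2 _).trans ?_
  rw [mul_assoc]
  exact mul_le_mul_of_nonneg_left (h'.2 x) (sq_nonneg r)

omit [DecidableEq ι] in
lemma add (h : OpLe r M) (h' : OpLe s N) : OpLe (r + s) (M + N) := by
  refine ⟨add_nonneg h.1 h'.1, fun x => ?_⟩
  have h0 : 0 ≤ ∑ i, x i ^ 2 := sum_nonneg fun i _ => sq_nonneg _
  have t := norm_add_le (WithLp.toLp 2 (M *ᵥ x) : EuclideanSpace ℝ ι) (WithLp.toLp 2 (N *ᵥ x))
  simp only [EuclideanSpace.norm_eq, norm_eq_abs, sq_abs, WithLp.ofLp_add, Pi.add_apply] at t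
  have t' : √(∑ i, ((M + N) *ᵥ x) i ^ 2) ≤ (r + s) * √(∑ i, x i ^ 2) := by
    rw [Matrix.add_mulVec, add_mul]
    exact t.trans (add_le_add (h.sqrt_le x) (h'.sqrt_le x))
  have := pow_le_pow_left₀ (sqrt_nonneg _) t' 2
  rwa [sq_sqrt (sum_nonneg fun i _ => sq_nonneg _), mul_pow, sq_sqrt h0] at this

omit [DecidableEq ι] in
lemma neg (h : OpLe r M) : OpLe r (-M) :=
  ⟨h.1, fun x => by simpa [Matrix.neg_mulVec] using h.2 x⟩

lemma diag {e : ι → ℝ} (hr : 0 ≤ r) (he : ∀ i, |e i| ≤ r) : OpLe r (diagonal e) := by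
  refine ⟨hr, fun x => ?_⟩
  rw [mul_sum]
  refine sum_le_sum fun i _ => ?_
  rw [Matrix.mulVec_diagonal, mul_pow]
  refine mul_le_mul_of_nonneg_right ?_ (sq_nonneg _)
  rw [← sq_abs]
  exact pow_le_pow_left₀ (abs_nonneg _) (he i) 2

lemma smul_one {a : ℝ} (ha : |a| ≤ r) : OpLe r (a • (1 : Matrix ι ι ℝ)) := by
  rw [smul_one_eq_diagonal]
  exact diag ((abs_nonneg a).trans ha) fun _ => ha

lemma one : OpLe 1 (1 : Matrix ι ι ℝ) := by
  simpa using smul_one (ι := ι) (a := 1) (r := 1) (by simp)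

omit [DecidableEq ι] in
lemma transpose (h : OpLe r M) : OpLe r Mᵀ := by
  refine ⟨h.1, fun x => ?_⟩
  set y := Mᵀ *ᵥ x with hy
  have h1 : ∑ i, y i ^ 2 = ∑ i, x i * (M *ᵥ y) i := by
    have : y ⬝ᵥ y = x ⬝ᵥ (M *ᵥ y) := by
      rw [Matrix.dotProduct_mulVec x M y, ← Matrix.mulVec_transpose, ← hy]
    simpa [dotProduct, sq] using this
  have h2 := sum_mul_le_sqrt_mul_sqrt univ x (M *ᵥ y)
  have h3 := mul_le_mul_of_nonneg_left (h.sqrt_le y) (sqrt_nonneg (∑ i, x i ^ 2))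
  have h4 : √(∑ i, y i ^ 2) * √(∑ i, y i ^ 2) = ∑ i, y i ^ 2 :=
    mul_self_sqrt (sum_nonneg fun i _ => sq_nonneg _)
  have h5 : √(∑ i, y i ^ 2) ≤ r * √(∑ i, x i ^ 2) := by
    rcases (sqrt_nonneg (∑ i, y i ^ 2)).eq_or_lt with h0 | h0
    · rw [← h0]; exact mul_nonneg h.1 (sqrt_nonneg _)
    · refine le_of_mul_le_mul_right ?_ h0
      rw [h4]
      linarith
  have := pow_le_pow_left₀ (sqrt_nonneg _) h5 2
  rwa [sq_sqrt (sum_nonneg fun i _ => sq_nonneg _), mul_pow,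
    sq_sqrt (sum_nonneg fun i _ => sq_nonneg _)] at this

lemma col_le (h : OpLe r M) (j : ι) : ∑ i, M i j ^ 2 ≤ r ^ 2 := by
  simpa [Matrix.mulVec_single_one, Pi.single_apply, ite_pow] using h.2 (Pi.single j 1)

lemma abs_apply_le (h : OpLe r M) (i j : ι) : |M i j| ≤ r := by
  refine abs_le_of_sq_le_sq ?_ h.1
  exact (single_le_sum (f := fun i => M i j ^ 2) (fun i _ => sq_nonneg _) (mem_univ i)).trans
    (h.col_le j)

omit [DecidableEq ι] in
lemma frob_mul (h : OpLe r M) (N : Matrix ι ι ℝ) : frob (M * N) ≤ r * frob N := by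
  rw [frob_le_iff (mul_nonneg h.1 (frob_nonneg N)), mul_pow, frob_sq, sum_comm]
  calc ∑ j, ∑ i, (M * N) i j ^ 2 = ∑ j, ∑ i, (M *ᵥ fun k => N k j) i ^ 2 := rfl
    _ ≤ ∑ j, r ^ 2 * ∑ k, N k j ^ 2 := sum_le_sum fun j _ => h.2 _
    _ = r ^ 2 * ∑ i, ∑ j, N i j ^ 2 := by rw [← mul_sum, sum_comm]

omit [DecidableEq ι] in
lemma mul_frob (h : OpLe r N) (M : Matrix ι ι ℝ) : frob (M * N) ≤ frob M * r := by
  rw [← frob_transpose, Matrix.transpose_mul, mul_comm]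
  refine (h.transpose.frob_mul _).trans ?_
  rw [frob_transpose]

end OpLe

omit [DecidableEq ι] in
lemma nDiag_nonneg (M : Matrix ι ι ℝ) : 0 ≤ nDiag M := norm_nonneg _

omit [DecidableEq ι] in
lemma nDiag_sq (M : Matrix ι ι ℝ) : nDiag M ^ 2 = ∑ i, M i i ^ 2 := by
  rw [nDiag, EuclideanSpace.norm_eq, sq_sqrt (sum_nonneg fun p _ => sq_nonneg _)]
  simp

omit [DecidableEq ι] in
lemma nDiag_add_le (M N : Matrix ι ι ℝ) : nDiag (M + N) ≤ nDiag M + nDiag N :=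
  norm_add_le (WithLp.toLp 2 fun i => M i i : EuclideanSpace ℝ ι) (WithLp.toLp 2 fun i => N i i)

omit [DecidableEq ι] in
lemma nDiag_le_frob (M : Matrix ι ι ℝ) : nDiag M ≤ frob M := by
  rw [← pow_le_pow_iff_left₀ (nDiag_nonneg M) (frob_nonneg M) two_ne_zero, nDiag_sq, frob_sq]
  exact sum_le_sum fun i _ => single_le_sum (f := fun j => M i j ^ 2) (fun j _ => sq_nonneg _)
    (mem_univ i)

lemma nOff_nonneg (M : Matrix ι ι ℝ) : 0 ≤ nOff M := norm_nonneg _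

lemma nOff_pow (M : Matrix ι ι ℝ) :
    nOff M ^ 4 = ∑ i, ∑ j, (if i = j then 0 else M i j ^ 4) := by
  rw [nOff, PiLp.norm_eq_sum (by norm_num), ← rpow_natCast, ← rpow_mul
    (sum_nonneg fun p _ => rpow_nonneg (norm_nonneg _) _)]
  norm_num [Fintype.sum_prod_type]
  refine sum_congr rfl fun i _ => sum_congr rfl fun j _ => ?_
  split_ifs <;> norm_num [Even.pow_abs (show Even 4 by decide)]

lemma nOff_add_le (M N : Matrix ι ι ℝ) : nOff (M + N) ≤ nOff M + nOff N := by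
  unfold nOff
  refine le_trans (le_of_eq (congrArg norm ?_)) (norm_add_le _ _)
  ext p
  simp only [Matrix.add_apply, WithLp.ofLp_add, Pi.add_apply]
  split_ifs <;> simp

lemma nOff_le_frob (M : Matrix ι ι ℝ) : nOff M ≤ frob M := by
  rw [← pow_le_pow_iff_left₀ (nOff_nonneg M) (frob_nonneg M) (n := 4) (by norm_num), nOff_pow,
    show frob M ^ 4 = (frob M ^ 2) ^ 2 by ring, frob_sq, sq (∑ i, _), sum_mul]
  refine sum_le_sum fun i _ => ?_
  rw [sum_mul]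
  refine sum_le_sum fun j _ => ?_
  have h0 : M i j ^ 2 ≤ ∑ k, ∑ l, M k l ^ 2 :=
    (single_le_sum (f := fun l => M i l ^ 2) (fun l _ => sq_nonneg _) (mem_univ j)).trans
      (single_le_sum (f := fun k => ∑ l, M k l ^ 2)
        (fun k _ => sum_nonneg fun l _ => sq_nonneg _) (mem_univ i))
  split_ifs with h
  · positivity
  · calc M i j ^ 4 = M i j ^ 2 * M i j ^ 2 := by ring
      _ ≤ _ := mul_le_mul_of_nonneg_left h0 (sq_nonneg _)

end Vale.Agent.P150.Beta1.RN
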