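import Vale.Agent.P150.Beta1.Resolvent.Defs
import Vale.Agent.P150.Beta1.Resolvent.Norms

/-!
# Algebra of the resolvent

Defining equations, uniqueness, operator bound, symmetry, gauge covariance and the exact
difference formula.
-/

namespace Vale.Agent.P150.Beta1

open Finset Real Matrix RN

variable {ι : Type*} [Fintype ι] [DecidableEq ι]

/-- The shifted coupling matrix `J + c`. -/
def shiftMat (c : ℝ) (J : ι → ι → ℝ) : Matrix ι ι ℝ := Matrix.of J + c • 1

omit [Fintype ι] in
lemma shiftMat_transpose {c : ℝ} {J : ι → ι → ℝ} (hJ : ∀ i j, J i j = J j i) :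
    (shiftMat c J)ᵀ = shiftMat c J := by
  ext i j
  simp [shiftMat, Matrix.one_apply, hJ i j, eq_comm]

/-- Conditions under which the resolvent is defined. -/
structure Adm (c κ : ℝ) (J : ι → ι → ℝ) (g : ι → ℝ) : Prop where
  hκ : 0 < κ
  symm : ∀ i j, J i j = J j i
  hg : ∀ i, 0 ≤ g i
  op : OpBound c κ J g

/-- The symmetrised operator inverted by the resolvent. -/
noncomputable def gapMat (c : ℝ) (J : ι → ι → ℝ) (g : ι → ℝ) : Matrix ι ι ℝ :=
  1 - diagonal (fun i => √(g i)) * shiftMat c J * diagonal fun i => √(g i)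

lemma res_def (c : ℝ) (J : ι → ι → ℝ) (g : ι → ℝ) :
    res c J g = diagonal (fun i => √(g i)) * (gapMat c J g)⁻¹ * diagonal fun i => √(g i) := rfl

lemma gapMat_quad (c : ℝ) (J : ι → ι → ℝ) (g x : ι → ℝ) :
    ∑ i, x i * (gapMat c J g *ᵥ x) i
      = ∑ i, x i ^ 2 - shiftQ c J (fun i => √(g i) * x i) := by
  simp only [gapMat, Matrix.sub_mulVec, Matrix.one_mulVec, ← Matrix.mulVec_mulVec, Pi.sub_apply,
    Matrix.mulVec_diagonal, mul_sub, sum_sub_distrib, shiftQ, mul_sum, ← sum_add_distrib]
  congr 1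
  · exact sum_congr rfl fun i _ => (sq (x i)).symm
  refine sum_congr rfl fun i _ => ?_
  have e : (shiftMat c J *ᵥ fun i => √(g i) * x i) i
      = act J (fun i => √(g i) * x i) i + c * (√(g i) * x i) := by
    simp only [shiftMat, Matrix.add_mulVec, Matrix.smul_mulVec, Matrix.one_mulVec, Pi.add_apply,
      Pi.smul_apply, smul_eq_mul]
    rfl
  have e2 : (diagonal fun i => √(g i)) *ᵥ x = fun i => √(g i) * x i :=
    funext fun j => Matrix.mulVec_diagonal _ _ _
  rw [e2, e]
  ring

namespace Adm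

variable {c κ : ℝ} {J : ι → ι → ℝ} {g : ι → ℝ} (H : Adm c κ J g)

include H

lemma coercive (x : ι → ℝ) : κ * ∑ i, x i ^ 2 ≤ ∑ i, x i * (gapMat c J g *ᵥ x) i := by
  rw [gapMat_quad]
  linarith [H.op x]

lemma sqrt_bound (x : ι → ℝ) :
    κ * √(∑ i, x i ^ 2) ≤ √(∑ i, (gapMat c J g *ᵥ x) i ^ 2) := by
  have h1 := (H.coercive x).trans (sum_mul_le_sqrt_mul_sqrt univ x (gapMat c J g *ᵥ x))
  rcases (sqrt_nonneg (∑ i, x i ^ 2)).eq_or_lt with h0 | h0
  · rw [← h0, mul_zero]; exact sqrt_nonneg _
  refine le_of_mul_le_mul_left ?_ h0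
  have h2 := mul_self_sqrt (sum_nonneg fun i (_ : i ∈ univ) => sq_nonneg (x i))
  calc √(∑ i, x i ^ 2) * (κ * √(∑ i, x i ^ 2))
      = κ * (√(∑ i, x i ^ 2) * √(∑ i, x i ^ 2)) := by ring
    _ ≤ _ := by rw [h2]; exact h1

lemma isUnit_gap : IsUnit (gapMat c J g).det := by
  rw [← Matrix.isUnit_iff_isUnit_det, ← Matrix.mulVec_injective_iff_isUnit]
  intro x y hxy
  have h := H.coercive (x - y)
  rw [Matrix.mulVec_sub, sub_eq_zero.2 hxy] at h
  simp only [Pi.zero_apply, mul_zero, sum_const_zero] at h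
  have h1 : ∑ i, (x - y) i ^ 2 = 0 :=
    le_antisymm (by nlinarith [H.hκ]) (sum_nonneg fun i _ => sq_nonneg _)
  funext i
  have h2 := (sum_eq_zero_iff_of_nonneg fun i _ => sq_nonneg _).1 h1 i (mem_univ i)
  simpa [sub_eq_zero] using h2

lemma inv_opLe : OpLe (1 / κ) (gapMat c J g)⁻¹ := by
  refine ⟨one_div_nonneg.2 H.hκ.le, fun x => ?_⟩
  set y := (gapMat c J g)⁻¹ *ᵥ x
  have e : gapMat c J g *ᵥ y = x := by
    rw [Matrix.mulVec_mulVec, Matrix.mul_nonsing_inv _ H.isUnit_gap, Matrix.one_mulVec]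
  have h := H.sqrt_bound y
  rw [e, mul_comm, ← le_div_iff₀ H.hκ] at h
  have h2 := pow_le_pow_left₀ (sqrt_nonneg _) h 2
  rw [sq_sqrt (sum_nonneg fun i _ => sq_nonneg _), div_pow,
    sq_sqrt (sum_nonneg fun i _ => sq_nonneg _)] at h2
  exact h2.trans (le_of_eq (by ring))

lemma diag_sqrt_sq :
    diagonal (fun i => √(g i)) * diagonal (fun i => √(g i)) = diagonal g := by
  rw [Matrix.diagonal_mul_diagonal]
  congr 1
  funext i
  exact mul_self_sqrt (H.hg i)

/-- Left defining equation. -/
theorem res_eq : res c J g = diagonal g + diagonal g * shiftMat c J * res c J g := by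
  set D := diagonal fun i => √(g i)
  set N := (gapMat c J g)⁻¹
  have h : gapMat c J g * N = 1 := Matrix.mul_nonsing_inv _ H.isUnit_gap
  have h' : N = 1 + D * shiftMat c J * D * N := by
    rw [gapMat, sub_mul, one_mul] at h
    conv_lhs => rw [← sub_add_cancel N (D * shiftMat c J * D * N), h]
  calc res c J g = D * (1 + D * shiftMat c J * D * N) * D := by rw [← h']; exact res_def c J g
    _ = D * D + D * D * shiftMat c J * (D * N * D) := by noncomm_ring
    _ = _ := by rw [H.diag_sqrt_sq, res_def]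

theorem res_transpose : (res c J g)ᵀ = res c J g := by
  have hM : (gapMat c J g)ᵀ = gapMat c J g := by
    simp only [gapMat, Matrix.transpose_sub, Matrix.transpose_one, Matrix.transpose_mul,
      Matrix.diagonal_transpose, shiftMat_transpose H.symm, Matrix.mul_assoc]
  rw [res_def, Matrix.transpose_mul, Matrix.transpose_mul, Matrix.diagonal_transpose,
    Matrix.transpose_nonsing_inv, hM, Matrix.mul_assoc]

/-- Right defining equation. -/
theorem res_eq' : res c J g = diagonal g + res c J g * shiftMat c J * diagonal g := by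
  have h := congrArg Matrix.transpose H.res_eq
  rw [Matrix.transpose_add, Matrix.transpose_mul, Matrix.transpose_mul, Matrix.diagonal_transpose,
    H.res_transpose, shiftMat_transpose H.symm, ← Matrix.mul_assoc] at h
  exact h

/-- The left equation has one solution. -/
theorem res_unique {X : Matrix ι ι ℝ}
    (hX : X = diagonal g + diagonal g * shiftMat c J * X) : X = res c J g := by
  set S := res c J g
  set A := shiftMat c J
  have h : (1 + S * A) * diagonal g = S := by
    rw [add_mul, one_mul]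
    exact H.res_eq'.symm
  have t : X - diagonal g * A * X = diagonal g := sub_eq_iff_eq_add.2 hX
  calc X = X + S * A * X - S * (A * X) := by noncomm_ring
    _ = X + S * A * X - (1 + S * A) * diagonal g * (A * X) := by rw [h]
    _ = (1 + S * A) * (X - diagonal g * A * X) := by noncomm_ring
    _ = S := by rw [t, h]

lemma res_opLe {Γ : ℝ} (hΓ : 0 ≤ Γ) (hgΓ : ∀ i, g i ≤ Γ) : OpLe (Γ / κ) (res c J g) := by
  have hD : OpLe √Γ (diagonal fun i => √(g i)) :=
    OpLe.diag (sqrt_nonneg _) fun i => by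
      rw [abs_of_nonneg (sqrt_nonneg _)]
      exact sqrt_le_sqrt (hgΓ i)
  refine ((hD.mul H.inv_opLe).mul hD).mono ?_
  rw [mul_comm √Γ, mul_assoc, mul_self_sqrt hΓ, one_div, inv_mul_eq_div]

/-- The resolvent inverts `1/g - c - J` where `g` is positive. -/
theorem res_inv (hpos : ∀ i, 0 < g i) :
    (diagonal (fun i => (g i)⁻¹) - shiftMat c J) * res c J g = 1 := by
  have e : diagonal (fun i => (g i)⁻¹) * diagonal g = 1 := by
    rw [Matrix.diagonal_mul_diagonal, ← Matrix.diagonal_one]
    congr 1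
    funext i
    exact inv_mul_cancel₀ (hpos i).ne'
  have h : diagonal (fun i => (g i)⁻¹) * res c J g = 1 + shiftMat c J * res c J g := by
    conv_lhs => rw [H.res_eq]
    rw [Matrix.mul_add, e, ← Matrix.mul_assoc, ← Matrix.mul_assoc, e, Matrix.one_mul]
  rw [sub_mul, h, add_sub_cancel_right]

end Adm

/-- Exact difference of two resolvents. -/
theorem res_sub {c c' κ κ' : ℝ} {J J' : ι → ι → ℝ} {g g' : ι → ℝ} (H : Adm c κ J g)
    (H' : Adm c' κ' J' g') :
    res c' J' g' - res c J g
      = (1 + res c J g * shiftMat c J) * (diagonal g' - diagonal g)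
          * (1 + shiftMat c' J' * res c' J' g')
        + res c J g * (shiftMat c' J' - shiftMat c J) * res c' J' g' := by
  set S := res c J g
  set S' := res c' J' g'
  set A := shiftMat c J
  set A' := shiftMat c' J'
  have h : (1 + S * A) * diagonal g = S := by
    rw [add_mul, one_mul]
    exact H.res_eq'.symm
  have h' : diagonal g' * (1 + A' * S') = S' := by
    rw [Matrix.mul_add, Matrix.mul_one, ← Matrix.mul_assoc]
    exact H'.res_eq.symm
  calc S' - S = (1 + S * A) * S' - S * (1 + A' * S') + S * (A' - A) * S' := by noncomm_ring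
    _ = (1 + S * A) * (diagonal g' * (1 + A' * S')) - ((1 + S * A) * diagonal g) * (1 + A' * S')
          + S * (A' - A) * S' := by rw [h, h']
    _ = _ := by noncomm_ring

/-- Flipping the signs `s` of the coupling matrix. -/
def gaugeJ (s : ι → ℝ) (J : ι → ι → ℝ) : ι → ι → ℝ := fun i j => s i * J i j * s j

omit [Fintype ι] in
lemma gauge_diag_sq {s : ι → ℝ} (hs : ∀ i, s i * s i = 1) [Fintype ι] :
    diagonal s * diagonal s = 1 := by
  rw [Matrix.diagonal_mul_diagonal, ← Matrix.diagonal_one]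
  exact congrArg diagonal (funext hs)

lemma gauge_mat (s : ι → ℝ) (J : ι → ι → ℝ) :
    Matrix.of (gaugeJ s J) = diagonal s * Matrix.of J * diagonal s := by
  ext i j
  simp [gaugeJ, Matrix.diagonal_mul, Matrix.mul_diagonal]

lemma gauge_shift {s : ι → ℝ} (hs : ∀ i, s i * s i = 1) (c : ℝ) (J : ι → ι → ℝ) :
    shiftMat c (gaugeJ s J) = diagonal s * shiftMat c J * diagonal s := by
  rw [shiftMat, shiftMat, gauge_mat, Matrix.mul_add, add_mul, Matrix.mul_smul, Matrix.smul_mul,
    Matrix.mul_one, gauge_diag_sq hs]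

lemma gauge_res {c κ : ℝ} {J : ι → ι → ℝ} {g s : ι → ℝ} (hs : ∀ i, s i * s i = 1)
    (H : Adm c κ J g) (H' : Adm c κ (gaugeJ s J) g) :
    res c (gaugeJ s J) g = diagonal s * res c J g * diagonal s := by
  refine (H'.res_unique ?_).symm
  have hc : diagonal g = diagonal s * diagonal g * diagonal s := by
    rw [Matrix.diagonal_mul_diagonal, Matrix.diagonal_mul_diagonal]
    congr 1
    funext i
    rw [mul_comm (s i) (g i), mul_assoc, hs i, mul_one]
  rw [gauge_shift hs]
  conv_rhs => rw [hc]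
  have h2 : ∀ X : Matrix ι ι ℝ, diagonal s * (diagonal s * X) = X := fun X => by
    rw [← Matrix.mul_assoc, gauge_diag_sq hs, Matrix.one_mul]
  nth_rewrite 1 [H.res_eq]
  simp only [Matrix.mul_add, add_mul, Matrix.mul_assoc, h2]

lemma wordMat_foldl (J : ι → ι → ℝ) (A B : Matrix ι ι ℝ) (l : List (ι → ℝ)) :
    l.foldl (fun M e => M * (Matrix.of J * diagonal e)) (A * B)
      = A * l.foldl (fun M e => M * (Matrix.of J * diagonal e)) B := by
  induction l generalizing B with
  | nil => rfl
  | cons e r ih => rw [List.foldl_cons, List.foldl_cons, Matrix.mul_assoc, ih]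

lemma wordMat_nil (J : ι → ι → ℝ) (d : ι → ℝ) : wordMat J d [] = diagonal d := rfl

/-- Peeling the first coupling of a word. -/
lemma wordMat_peel (J : ι → ι → ℝ) (d e : ι → ℝ) (r : List (ι → ℝ)) :
    wordMat J d (e :: r) = diagonal d * Matrix.of J * wordMat J e r := by
  rw [wordMat, List.foldl_cons, ← Matrix.mul_assoc, wordMat_foldl]
  rfl

lemma gauge_word {s : ι → ℝ} (hs : ∀ i, s i * s i = 1) (J : ι → ι → ℝ) (l : List (ι → ℝ))
    (d : ι → ℝ) :
    wordMat (gaugeJ s J) d l = diagonal s * wordMat J d l * diagonal s := by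
  have hd : ∀ e : ι → ℝ, diagonal e = diagonal s * diagonal e * diagonal s := fun e => by
    rw [Matrix.diagonal_mul_diagonal, Matrix.diagonal_mul_diagonal]
    congr 1
    funext i
    rw [mul_comm (s i) (e i), mul_assoc, hs i, mul_one]
  induction l generalizing d with
  | nil => exact hd d
  | cons e r ih =>
    rw [wordMat_peel, wordMat_peel, ih e, gauge_mat]
    conv_lhs => rw [hd d]
    have h2 : ∀ X : Matrix ι ι ℝ, diagonal s * (diagonal s * X) = X := fun X => by
      rw [← Matrix.mul_assoc, gauge_diag_sq hs, Matrix.one_mul]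
    simp only [Matrix.mul_assoc, h2]

end Vale.Agent.P150.Beta1
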