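import Vale.Agent.P150.Beta1.Resolvent.Fixed
import Vale.Agent.P150.Beta1.Resolvent.Basic

/-!
# Facts on the resolvent and its free diagonal for the stability argument
-/

namespace Vale.Agent.P150.Beta1

open Finset Real Matrix RN

variable {ι : Type*} [Fintype ι] {τ c κ : ℝ} {g : ι → ℝ}

/-- An edge point from the free edge condition. -/
theorem FreeEdge.edgeAt (h : FreeEdge τ c κ g) (hτ : 0 ≤ τ) (hκ : 0 < κ) (hc : |c| * κ ≤ 1)
    (hg : ∀ i, 0 ≤ g i) (hgκ : ∀ i, g i * κ ≤ 1) : ∃ ν, EdgeAt τ c κ g ν := by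
  obtain ⟨ν, _, h1, h2, h3⟩ := h
  refine ⟨ν, hτ, hκ, hg, hgκ, ?_, h1, h2, h3⟩
  have := mul_le_mul_of_nonneg_right (le_abs_self c) hκ.le
  linarith

/-- The fixed point lies below every nonnegative super-solution. -/
theorem freeSigma_le {s : ℝ} (h0 : 0 ≤ s) (hd : ∀ i, (c + s) * g i < 1)
    (hs : selfEnergy τ c g s ≤ s) : freeSigma τ c g ≤ s :=
  csInf_le ⟨0, fun _ h => h.1⟩ ⟨h0, hd, hs⟩

variable [DecidableEq ι] {J : ι → ι → ℝ}

/-- `diag (1/g) S = 1 + (J + c) S` at positive `g`. -/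
theorem Adm.inv_mul_res (H : Adm c κ J g) (hpos : ∀ i, 0 < g i) :
    diagonal (fun i => (g i)⁻¹) * res c J g = 1 + shiftMat c J * res c J g := by
  have h := H.res_inv hpos
  rw [sub_mul, sub_eq_iff_eq_add] at h
  exact h

/-- Operator bound for `1 + (J + c) S`. -/
theorem Adm.one_add_shift_res_opLe (H : Adm c κ J g) {Λ Γ : ℝ} (hJ : OpLe Λ (Matrix.of J))
    (hΓ : 0 ≤ Γ) (hgΓ : ∀ i, g i ≤ Γ) :
    OpLe (1 + (Λ + |c|) * (Γ / κ)) (1 + shiftMat c J * res c J g) :=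
  OpLe.one.add ((hJ.add (OpLe.smul_one le_rfl)).mul (H.res_opLe hΓ hgΓ))

omit [DecidableEq ι] in
/-- Bridge from the operator bound used in `GoodWords`. -/
theorem opLe_of_act {C : ℝ} (hC : 0 ≤ C)
    (h : ∀ a : ι → ℝ, ∑ i, act J a i ^ 2 ≤ C * ∑ i, a i ^ 2) : OpLe √C (Matrix.of J) :=
  ⟨sqrt_nonneg C, fun x => by rw [sq_sqrt hC]; exact h x⟩

end Vale.Agent.P150.Beta1
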