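import Vale.Agent.P150.Beta1.Words.Moments
import Vale.Agent.P150.GaussIBP

/-!
# Centres of functions that are Lipschitz on a likely set

The centre is the conditional mean. It is linear, it is close to the mean of any Lipschitz
extension, and Gaussian integration by parts holds for it with finite differences.
-/

namespace Vale.Agent.P150.Beta1

open MeasureTheory ProbabilityTheory Finset Real Function
open Words

variable {ι : Type*} [Fintype ι]

/-- Mean of `X` conditioned on `K`. -/
noncomputable def cmean (K : Set (ι → ℝ)) (X : (ι → ℝ) → ℝ) : ℝ :=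
  (∫ x in K, X x ∂gauss ι) / (gauss ι).real K

/-- A measurable set of probability at least one half. -/
structure Likely (K : Set (ι → ℝ)) : Prop where
  meas : MeasurableSet K
  half : 1 / 2 ≤ (gauss ι).real K

namespace Likely

variable {K : Set (ι → ℝ)} (hK : Likely K)

include hK

lemma pos : 0 < (gauss ι).real K := by linarith [hK.half]

lemma nonempty : K.Nonempty := by
  rcases K.eq_empty_or_nonempty with rfl | h
  · have := hK.pos
    simp at this
  · exact h

lemma extension {X : (ι → ℝ) → ℝ} {L : ℝ} (hL : 0 ≤ L) (hX : LipOn X L K) :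
    ∃ F : (ι → ℝ) → ℝ, Continuous F ∧ (∀ x y, |F x - F y| ≤ L * dist2 x y) ∧
      (∀ x ∈ K, F x = X x) ∧ Integrable F (gauss ι) := by
  obtain ⟨x₀, h0⟩ := hK.nonempty
  obtain ⟨F, h1, h2, h3⟩ := exists_extension hL h0 hX
  exact ⟨F, h1, h2, h3, (lipschitz_mgf h1 hL h2 0).1⟩

lemma integrableOn {X : (ι → ℝ) → ℝ} {L : ℝ} (hL : 0 ≤ L) (hX : LipOn X L K) :
    IntegrableOn X K (gauss ι) := by
  obtain ⟨F, -, -, hFe, hFi⟩ := hK.extension hL hX
  exact hFi.integrableOn.congr_fun hFe hK.meas

lemma cmean_const (c : ℝ) : cmean K (fun _ => c) = c := by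
  rw [cmean, setIntegral_const, smul_eq_mul, mul_div_cancel_left₀ _ hK.pos.ne']

omit hK in
lemma cmean_congr {X Y : (ι → ℝ) → ℝ} (hm : MeasurableSet K) (h : ∀ x ∈ K, X x = Y x) :
    cmean K X = cmean K Y := by
  rw [cmean, cmean, setIntegral_congr_fun hm h]

lemma cmean_add {X Y : (ι → ℝ) → ℝ} (hX : IntegrableOn X K (gauss ι))
    (hY : IntegrableOn Y K (gauss ι)) :
    cmean K (fun x => X x + Y x) = cmean K X + cmean K Y := by
  rw [cmean, cmean, cmean, integral_add hX hY, add_div]

omit hK in
lemma cmean_mul (c : ℝ) (X : (ι → ℝ) → ℝ) : cmean K (fun x => c * X x) = c * cmean K X := by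
  rw [cmean, cmean, integral_const_mul, mul_div_assoc]

lemma cmean_sum {κ : Type*} {s : Finset κ} {X : κ → (ι → ℝ) → ℝ}
    (h : ∀ a ∈ s, IntegrableOn (X a) K (gauss ι)) :
    cmean K (fun x => ∑ a ∈ s, X a x) = ∑ a ∈ s, cmean K (X a) := by
  simp only [cmean]
  rw [integral_finsetSum s h, sum_div]

lemma cmean_mono {X Y : (ι → ℝ) → ℝ} (hX : IntegrableOn X K (gauss ι))
    (hY : IntegrableOn Y K (gauss ι)) (h : ∀ x ∈ K, X x ≤ Y x) : cmean K X ≤ cmean K Y :=
  div_le_div_of_nonneg_right (setIntegral_mono_on hX hY hK.meas h) hK.pos.le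

lemma abs_cmean_le {X : (ι → ℝ) → ℝ} {B : ℝ} (hX : IntegrableOn X K (gauss ι))
    (h : ∀ x ∈ K, |X x| ≤ B) : |cmean K X| ≤ B := by
  rw [abs_le]
  constructor
  · rw [← hK.cmean_const (-B)]
    exact hK.cmean_mono integrableOn_const hX fun x hx => (abs_le.1 (h x hx)).1
  · rw [← hK.cmean_const B]
    exact hK.cmean_mono hX integrableOn_const fun x hx => (abs_le.1 (h x hx)).2

/-- A nonnegative moment on the set is at most twice the unconditioned one. -/
lemma cmean_le_two {X Y : (ι → ℝ) → ℝ} (hX : IntegrableOn X K (gauss ι))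
    (hY : Integrable Y (gauss ι)) (hY0 : ∀ x, 0 ≤ Y x) (h : ∀ x ∈ K, X x ≤ Y x) :
    cmean K X ≤ 2 * ∫ x, Y x ∂gauss ι := by
  refine (hK.cmean_mono hX hY.integrableOn h).trans ?_
  rw [cmean, div_le_iff₀ hK.pos]
  have h1 : ∫ x in K, Y x ∂gauss ι ≤ ∫ x, Y x ∂gauss ι :=
    setIntegral_le_integral hY (ae_of_all _ hY0)
  have h2 := mul_le_mul_of_nonneg_left hK.half
    (show 0 ≤ 2 * ∫ x, Y x ∂gauss ι by linarith [integral_nonneg (μ := gauss ι) (f := Y) hY0])
  linarith

/-- The conditional mean against the mean of an extension. -/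
lemma cmean_near {X : (ι → ℝ) → ℝ} {L : ℝ} (hL : 0 < L) (hX : LipOn X L K) :
    ∃ F : (ι → ℝ) → ℝ, Continuous F ∧ (∀ x y, |F x - F y| ≤ L * dist2 x y) ∧
      (∀ x ∈ K, F x = X x) ∧ |cmean K X - ∫ y, F y ∂gauss ι| ≤ 146 * L := by
  obtain ⟨F, hFc, hFl, hFe, hFi⟩ := hK.extension hL.le hX
  refine ⟨F, hFc, hFl, hFe, ?_⟩
  obtain ⟨h4i, h4⟩ := lipschitz_fourth hFc hL hFl
  set m := ∫ y, F y ∂gauss ι
  obtain ⟨h2i, h2⟩ := second_of_fourth (h := fun x => F x - m)
    (hFc.sub continuous_const).aestronglyMeasurable h4i (C := 144) (x := L ^ 2) (by positivity)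
    (h4.trans_eq (by ring))
  have habs : ∫ x, |F x - m| ∂gauss ι ≤ 73 * L := by
    have hle : ∀ x, |F x - m| ≤ (F x - m) ^ 2 / (2 * L) + L / 2 := fun x => by
      rw [div_add_div _ _ (by positivity) (by norm_num), le_div_iff₀ (by positivity),
        ← sq_abs (F x - m)]
      linarith [two_mul_le_add_sq |F x - m| L, sq L]
    refine (integral_mono (hFi.sub (integrable_const m)).abs
      ((h2i.div_const _).add (integrable_const _)) hle).trans ?_
    simp only [Pi.add_apply]
    rw [integral_add (h2i.div_const _) (integrable_const _), integral_div, integral_const,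
      probReal_univ, one_smul]
    have : (∫ x, (F x - m) ^ 2 ∂gauss ι) / (2 * L) ≤ 145 / 2 * L := by
      rw [div_le_iff₀ (by positivity)]
      linarith
    linarith
  have e : cmean K X - m = cmean K fun x => F x - m := by
    rw [show (fun x => F x - m) = fun x => F x + (-1) * m from funext fun x => by ring,
      hK.cmean_add hFi.integrableOn integrableOn_const, hK.cmean_const,
      cmean_congr hK.meas hFe]
    ring
  rw [e, abs_le]
  constructor
  · have := hK.cmean_le_two (X := fun x => -(F x - m)) (Y := fun x => |F x - m|)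
      (hFi.sub (integrable_const m)).neg.integrableOn (hFi.sub (integrable_const m)).abs
      (fun x => abs_nonneg _) fun x _ => neg_le_abs _
    rw [show (fun x => -(F x - m)) = fun x => (-1) * (F x - m) from funext fun x => by ring,
      cmean_mul] at this
    linarith
  · have := hK.cmean_le_two (X := fun x => F x - m) (Y := fun x => |F x - m|)
      (hFi.sub (integrable_const m)).integrableOn (hFi.sub (integrable_const m)).abs
      (fun x => abs_nonneg _) fun x _ => le_abs_self _
    linarith

/-- Concentration around the conditional mean. -/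
theorem cmean_tail {X : (ι → ℝ) → ℝ} {L : ℝ} (hL : 0 < L) (hX : LipOn X L K) {s : ℝ}
    (hs : 0 ≤ s) :
    (gauss ι).real ({x | s + 146 * L ≤ |X x - cmean K X|} ∩ K)
      ≤ 2 * exp (-(s ^ 2 / (4 * L ^ 2))) := by
  obtain ⟨F, hFc, hFl, hFe, hm⟩ := hK.cmean_near hL hX
  set m := ∫ y, F y ∂gauss ι
  have hsub : ({x | s + 146 * L ≤ |X x - cmean K X|} ∩ K)
      ⊆ {x | m + s ≤ F x} ∪ {x | (∫ y, -F y ∂gauss ι) + s ≤ -F x} := by
    rintro x ⟨hx, hxK⟩
    simp only [Set.mem_union, Set.mem_ofPred_eq, integral_neg] at hx ⊢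
    rw [← hFe x hxK] at hx
    have h1 : s ≤ |F x - m| := by
      have := abs_sub_le (F x) m (cmean K X)
      rw [abs_sub_comm] at hm
      linarith
    rcases le_abs.1 h1 with h | h
    · left; linarith
    · right; linarith
  refine ((measureReal_mono hsub).trans (measureReal_union_le _ _)).trans ?_
  have h3 := lipschitz_tail (f := fun x => -F x) hFc.neg hL (fun x y => by
    rw [show -F x - -F y = -(F x - F y) by ring, abs_neg]
    exact hFl x y) hs
  have h4 := lipschitz_tail hFc hL hFl hs
  linarith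

/-- Fourth moment around the conditional mean. -/
theorem cmean_fourth {X : (ι → ℝ) → ℝ} {L : ℝ} (hL : 0 < L) (hX : LipOn X L K) :
    IntegrableOn (fun x => (X x - cmean K X) ^ 4) K (gauss ι) ∧
      cmean K (fun x => (X x - cmean K X) ^ 4) ≤ (16 * (144 + 146 ^ 4)) * L ^ 4 := by
  obtain ⟨F, hFc, hFl, hFe, hm⟩ := hK.cmean_near hL hX
  obtain ⟨h4i, h4⟩ := lipschitz_fourth hFc hL hFl
  set m := ∫ y, F y ∂gauss ι
  set c := cmean K X
  set Y := fun x => 8 * ((F x - m) ^ 4 + (146 * L) ^ 4)
  have hYi : Integrable Y (gauss ι) := (h4i.add (integrable_const _)).const_mul 8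
  have hmc : (m - c) ^ 4 ≤ (146 * L) ^ 4 := by
    have := pow_le_pow_left₀ (abs_nonneg _) hm 4
    rw [Even.pow_abs ⟨2, rfl⟩] at this
    calc (m - c) ^ 4 = (c - m) ^ 4 := by ring
      _ ≤ _ := this
  have hle : ∀ x, (F x - c) ^ 4 ≤ Y x := fun x => by
    have h := add_pow_le (abs_nonneg (F x - m)) (abs_nonneg (m - c)) 4
    rw [Even.pow_abs ⟨2, rfl⟩, Even.pow_abs ⟨2, rfl⟩] at h
    norm_num at h
    have h' := pow_le_pow_left₀ (abs_nonneg _) (abs_add_le (F x - m) (m - c)) 4
    rw [Even.pow_abs (show Even 4 by decide), sub_add_sub_cancel] at h'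
    simp only [Y]
    linarith
  have hi : Integrable (fun x => (F x - c) ^ 4) (gauss ι) :=
    hYi.mono' ((hFc.sub continuous_const).pow 4).aestronglyMeasurable
      (ae_of_all _ fun x => by rw [norm_eq_abs, abs_of_nonneg (by positivity)]; exact hle x)
  have he : ∀ x ∈ K, (F x - c) ^ 4 = (X x - c) ^ 4 := fun x hx => by rw [hFe x hx]
  refine ⟨hi.integrableOn.congr_fun he hK.meas, ?_⟩
  rw [← cmean_congr hK.meas he]
  refine (hK.cmean_le_two hi.integrableOn hYi (fun x => by positivity) fun x _ => hle x).trans ?_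
  rw [integral_const_mul, integral_add h4i (integrable_const _), integral_const, probReal_univ,
    one_smul]
  linarith

/-- Second moment around the conditional mean. -/
theorem cmean_second {X : (ι → ℝ) → ℝ} {L : ℝ} (hL : 0 < L) (hX : LipOn X L K) :
    IntegrableOn (fun x => (X x - cmean K X) ^ 2) K (gauss ι) ∧
      cmean K (fun x => (X x - cmean K X) ^ 2) ≤ (1 + 16 * (144 + 146 ^ 4)) * L ^ 2 := by
  obtain ⟨h4i, h4⟩ := hK.cmean_fourth hL hX
  obtain ⟨F, hFc, -, hFe, hFi⟩ := hK.extension hL.le hX
  set c := cmean K X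
  have hle : ∀ x, (X x - c) ^ 2 ≤ 1 / L ^ 2 * (X x - c) ^ 4 + L ^ 2 := fun x => by
    rw [div_mul_eq_mul_div, one_mul, div_add' _ _ _ (by positivity), le_div_iff₀ (by positivity)]
    have h := two_mul_le_add_sq ((X x - c) ^ 2) (L ^ 2)
    have := mul_nonneg (sq_nonneg (X x - c)) (sq_nonneg L)
    linarith [show ((X x - c) ^ 2) ^ 2 = (X x - c) ^ 4 by ring,
      show (L ^ 2) ^ 2 = L ^ 2 * L ^ 2 by ring]
  have hi : IntegrableOn (fun x => 1 / L ^ 2 * (X x - c) ^ 4 + L ^ 2) K (gauss ι) :=
    (h4i.const_mul _).add integrableOn_const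
  have h2 : IntegrableOn (fun x => (X x - c) ^ 2) K (gauss ι) := by
    refine Integrable.mono' hi ?_ (ae_of_all _ fun x => ?_)
    · exact ((hK.integrableOn hL.le hX).sub integrableOn_const).aestronglyMeasurable.pow 2
    · rw [norm_eq_abs, abs_of_nonneg (sq_nonneg _)]
      exact hle x
  refine ⟨h2, (hK.cmean_mono h2 hi fun x _ => hle x).trans ?_⟩
  rw [hK.cmean_add (h4i.const_mul _) integrableOn_const, cmean_mul, hK.cmean_const]
  have := mul_le_mul_of_nonneg_left h4 (show 0 ≤ 1 / L ^ 2 by positivity)
  rw [show 1 / L ^ 2 * ((16 * (144 + 146 ^ 4)) * L ^ 4) = (16 * (144 + 146 ^ 4)) * L ^ 2 by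
    field_simp] at this
  linarith

/-- The conditional mean of a product. -/
theorem cmean_product {X Y : (ι → ℝ) → ℝ} {L L' : ℝ} (hL : 0 < L) (hL' : 0 < L')
    (hX : LipOn X L K) (hY : LipOn Y L' K)
    (hXY : IntegrableOn (fun x => X x * Y x) K (gauss ι)) :
    |cmean K (fun x => X x * Y x) - cmean K X * cmean K Y|
      ≤ (1 + 16 * (144 + 146 ^ 4)) * (L * L') := by
  obtain ⟨x2, hx2⟩ := hK.cmean_second hL hX
  obtain ⟨y2, hy2⟩ := hK.cmean_second hL' hY
  set a := cmean K X
  set b := cmean K Y
  set C : ℝ := 1 + 16 * (144 + 146 ^ 4)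
  set Z := fun x => (X x - a) * (Y x - b)
  have iX := hK.integrableOn hL.le hX
  have iY := hK.integrableOn hL'.le hY
  have i1 : IntegrableOn (fun x => -b * X x + -a * Y x) K (gauss ι) :=
    (iX.const_mul _).add (iY.const_mul _)
  have i2 : IntegrableOn (fun x => -b * X x + -a * Y x + a * b) K (gauss ι) :=
    i1.add integrableOn_const
  have hZ : cmean K Z = cmean K (fun x => X x * Y x) - a * b := by
    rw [show Z = fun x => X x * Y x + (-b * X x + -a * Y x + a * b) from
      funext fun x => by simp only [Z]; ring, hK.cmean_add hXY i2,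
      hK.cmean_add i1 integrableOn_const, hK.cmean_add (iX.const_mul _) (iY.const_mul _),
      cmean_mul, cmean_mul, hK.cmean_const]
    ring
  have hle : ∀ x, |Z x| ≤ L' / (2 * L) * (X x - a) ^ 2 + L / (2 * L') * (Y x - b) ^ 2 := by
    intro x
    have h := two_mul_le_add_sq (|X x - a| * L') (|Y x - b| * L)
    rw [mul_pow, mul_pow, sq_abs, sq_abs] at h
    simp only [Z, abs_mul]
    rw [div_mul_eq_mul_div, div_mul_eq_mul_div, div_add_div _ _ (by positivity) (by positivity),
      le_div_iff₀ (by positivity)]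
    linarith
  have iZ : IntegrableOn Z K (gauss ι) :=
    (hXY.add i2).congr_fun (fun x _ => by simp only [Z, Pi.add_apply]; ring) hK.meas
  rw [← hZ, abs_le]
  have iR : IntegrableOn
      (fun x => L' / (2 * L) * (X x - a) ^ 2 + L / (2 * L') * (Y x - b) ^ 2) K (gauss ι) :=
    (x2.const_mul _).add (y2.const_mul _)
  have hb : cmean K (fun x => L' / (2 * L) * (X x - a) ^ 2 + L / (2 * L') * (Y x - b) ^ 2)
      ≤ C * (L * L') := by
    rw [hK.cmean_add (x2.const_mul _) (y2.const_mul _), cmean_mul, cmean_mul]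
    refine (add_le_add (mul_le_mul_of_nonneg_left hx2 (by positivity))
      (mul_le_mul_of_nonneg_left hy2 (by positivity))).trans (le_of_eq ?_)
    field_simp
    ring
  constructor
  · have := hK.cmean_mono (iZ.const_mul (-1)) iR fun x _ => by
      linarith [neg_le_abs (Z x), hle x]
    rw [cmean_mul] at this
    linarith
  · exact (hK.cmean_mono iZ iR fun x _ => (le_abs_self _).trans (hle x)).trans hb

end Likely

variable [DecidableEq ι]

/-- Integration by parts with a finite difference along one coordinate. -/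
theorem ibp_fd {K K' : Set (ι → ℝ)} (hK : Likely K) (hK' : MeasurableSet K') (hsub : K' ⊆ K)
    (p : ι) {t : ℝ} (ht : 0 < t) (hshift : ∀ x ∈ K', update x p (x p + t) ∈ K)
    {X : (ι → ℝ) → ℝ} {L B ε : ℝ} (hL : 0 ≤ L) (hX : LipOn X L K) (hB : ∀ x ∈ K, |X x| ≤ B)
    (hε : 0 < ε) :
    |(∫ x in K, x p * X x ∂gauss ι) - ∫ x in K', (X (update x p (x p + t)) - X x) / t ∂gauss ι|
      ≤ L * t + B * (ε + (gauss ι).real Kᶜ / ε) + L * (gauss ι).real K'ᶜ := by
  set μ := gauss ι
  obtain ⟨x₀, hx₀⟩ := hK.nonempty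
  have hB0 : 0 ≤ B := (abs_nonneg _).trans (hB x₀ hx₀)
  obtain ⟨F₀, hc₀, hl₀, he₀, -⟩ := hK.extension hL hX
  set F : (ι → ℝ) → ℝ := fun x => max (-B) (min B (F₀ x))
  have hFc : Continuous F := continuous_const.max (continuous_const.min hc₀)
  have hFb : ∀ x, |F x| ≤ B := fun x =>
    abs_le.2 ⟨le_max_left _ _, max_le (by linarith) (min_le_left _ _)⟩
  have hFl : ∀ x y, |F x - F y| ≤ L * dist2 x y := fun x y => by
    refine (abs_max_sub_max_le_max _ _ _ _).trans ?_
    rw [sub_self, abs_zero, max_eq_right (abs_nonneg _)]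
    refine (abs_min_sub_min_le_max _ _ _ _).trans ?_
    rw [sub_self, abs_zero, max_eq_right (abs_nonneg _)]
    exact hl₀ x y
  have hFe : ∀ x ∈ K, F x = X x := fun x hx => by
    have := abs_le.1 (hB x hx)
    simp only [F, he₀ x hx, min_eq_right this.2, max_eq_right this.1]
  have hd : ∀ (x : ι → ℝ) (a b : ℝ), dist2 (update x p a) (update x p b) = |a - b| := fun x a b => by
    rw [dist2, sum_eq_single p (fun q _ hq => by simp [hq]) (by simp), update_self, update_self,
      sqrt_sq_eq_abs]
  set G : (ι → ℝ) → ℝ := fun x => (F (update x p (x p + t)) - F x) / t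
  have hGc : Continuous G := ((hFc.comp (continuous_id.update p
    ((continuous_apply p).add continuous_const))).sub hFc).div_const t
  have hGb : ∀ x, |G x| ≤ L := fun x => by
    rw [abs_div, abs_of_pos ht, div_le_iff₀ ht]
    refine (hFl _ _).trans (le_of_eq ?_)
    conv_lhs => rw [show dist2 (update x p (x p + t)) x
      = dist2 (update x p (x p + t)) (update x p (x p)) by rw [update_eq_self]]
    rw [hd, add_sub_cancel_left, abs_of_pos ht]
  set H : (ι → ℝ) → ℝ := fun x => ∫ u in (0:ℝ)..1, F (update x p (x p + u * t))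
  have hcu : Continuous (uncurry fun (x : ι → ℝ) (u : ℝ) => F (update x p (x p + u * t))) :=
    hFc.comp (continuous_fst.update p
      (((continuous_apply p).comp continuous_fst).add (continuous_snd.mul continuous_const)))
  have hHc : Continuous H :=
    intervalIntegral.continuous_parametric_intervalIntegral_of_continuous' hcu 0 1
  have hHb : ∀ x, |H x| ≤ B := fun x => by
    have := intervalIntegral.norm_integral_le_of_norm_le_const (a := (0:ℝ)) (b := 1) (C := B)
      (f := fun u => F (update x p (x p + u * t))) fun u _ => by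
        rw [norm_eq_abs]; exact hFb _
    simpa [H] using this
  have hHF : ∀ x, |H x - F x| ≤ L * t := fun x => by
    have hi : IntervalIntegrable (fun u => F (update x p (x p + u * t))) volume 0 1 :=
      (hcu.comp (Continuous.prodMk_right x)).intervalIntegrable 0 1
    have e : H x - F x = ∫ u in (0:ℝ)..1, (F (update x p (x p + u * t)) - F x) := by
      rw [intervalIntegral.integral_sub hi intervalIntegrable_const]
      simp [H]
    have := intervalIntegral.norm_integral_le_of_norm_le_const (a := (0:ℝ)) (b := 1) (C := L * t)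
      (f := fun u => F (update x p (x p + u * t)) - F x) fun u hu => by
        rw [norm_eq_abs]
        rw [Set.uIoc_of_le zero_le_one] at hu
        refine (hFl _ _).trans ?_
        conv_lhs => rw [show dist2 (update x p (x p + u * t)) x
          = dist2 (update x p (x p + u * t)) (update x p (x p)) by rw [update_eq_self]]
        rw [hd, add_sub_cancel_left, abs_mul, abs_of_pos ht, abs_of_pos hu.1]
        exact mul_le_mul_of_nonneg_left (mul_le_of_le_one_left ht.le hu.2) hL
    rw [e]
    simpa using this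
  have hder : ∀ x, HasDerivAt (fun s => H (update x p s)) (G x) (x p) := fun x => by
    set h : ℝ → ℝ := fun s => F (update x p s)
    have hc : Continuous h := hFc.comp (continuous_const.update p continuous_id)
    have e : (fun s => H (update x p s))
        = fun s => t⁻¹ * ((∫ u in (0:ℝ)..(s + t), h u) - ∫ u in (0:ℝ)..s, h u) := by
      funext s
      rw [intervalIntegral.integral_interval_sub_left (hc.intervalIntegrable _ _)
        (hc.intervalIntegrable _ _)]
      simp only [H, update_idem, update_self, h]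
      rw [show (∫ u in (0:ℝ)..1, F (update x p (s + u * t)))
          = ∫ u in (0:ℝ)..1, F (update x p (s + t * u)) by simp only [mul_comm],
        intervalIntegral.integral_comp_add_mul (fun u => F (update x p u)) ht.ne' s,
        smul_eq_mul, mul_one, mul_zero, add_zero]
    have h1 : HasDerivAt (fun s => (∫ u in (0:ℝ)..(s + t), h u) - ∫ u in (0:ℝ)..s, h u)
        (h (x p + t) - h (x p)) (x p) :=
      ((hc.integral_hasStrictDerivAt 0 (x p + t)).hasDerivAt.comp_add_const (x p) t).sub
        (hc.integral_hasStrictDerivAt 0 (x p)).hasDerivAt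
    rw [e]
    refine (h1.const_mul t⁻¹).congr_deriv ?_
    simp only [G, h, update_eq_self]
    ring
  have key := gauss_ibp p hHc hGc hder ⟨B, 0, fun x => by simpa using hHb x⟩
    ⟨L, 0, fun x => by simpa using hGb x⟩
  have hx1 : Integrable (fun x : ι → ℝ => x p) μ :=
    PolyGrowth.integrable ⟨1, 1, fun x => by
      rw [pow_one, one_mul]
      have := single_le_sum (f := fun q => |x q|) (fun q _ => abs_nonneg _) (mem_univ p)
      linarith⟩ (continuous_apply p)
  have hx2 : Integrable (fun x : ι → ℝ => x p ^ 2) μ :=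
    PolyGrowth.integrable ⟨1, 2, fun x => by
      rw [abs_pow, one_mul]
      refine pow_le_pow_left₀ (abs_nonneg _) ?_ 2
      have := single_le_sum (f := fun q => |x q|) (fun q _ => abs_nonneg _) (mem_univ p)
      linarith⟩ ((continuous_apply p).pow 2)
  have e2 : ∫ x, x p ^ 2 ∂μ = 1 := by
    have h := gauss_ibp (ι := ι) p (F := fun g => g p) (G := fun _ => 1) (continuous_apply p)
      continuous_const (fun g => by simp only [update_self]; exact hasDerivAt_id' (g p))
      ⟨1, 1, fun g => by
        have := single_le_sum (f := fun q => |g q|) (fun q _ => abs_nonneg _) (mem_univ p)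
        rw [pow_one, one_mul]; linarith⟩ ⟨1, 0, fun g => by simp⟩
    simpa [sq] using h
  have ixF : Integrable (fun x => x p * F x) μ :=
    hx1.mul_bdd hFc.aestronglyMeasurable (ae_of_all _ fun x => by rw [norm_eq_abs]; exact hFb x)
  have ixH : Integrable (fun x => x p * H x) μ :=
    hx1.mul_bdd hHc.aestronglyMeasurable (ae_of_all _ fun x => by rw [norm_eq_abs]; exact hHb x)
  have iG : Integrable G μ :=
    (integrable_const L).mono' hGc.aestronglyMeasurable
      (ae_of_all _ fun x => by rw [norm_eq_abs]; exact hGb x)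
  have a1 : |(∫ x, x p * F x ∂μ) - ∫ x, G x ∂μ| ≤ L * t := by
    rw [← key, ← integral_sub ixF ixH]
    refine abs_integral_le_integral_abs.trans ?_
    refine (integral_mono (ixF.sub ixH).abs (((hx2.add (integrable_const 1)).div_const 2).const_mul
      (L * t)) fun x => ?_).trans (le_of_eq ?_)
    · simp only [Pi.sub_apply]
      rw [← mul_sub, abs_mul, mul_comm, abs_sub_comm]
      refine mul_le_mul (hHF x) ?_ (abs_nonneg _) (mul_nonneg hL ht.le)
      simp only [Pi.add_apply]
      rw [← sq_abs]
      linarith [two_mul_le_add_sq |x p| 1]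
    · simp only [Pi.add_apply]
      rw [integral_const_mul, integral_div, integral_add hx2 (integrable_const 1), e2,
        integral_const, probReal_univ, one_smul]
      ring
  have a2 : |(∫ x, x p * F x ∂μ) - ∫ x in K, x p * X x ∂μ|
      ≤ B * (ε + μ.real Kᶜ / ε) := by
    rw [← setIntegral_congr_fun hK.meas (fun x hx => by simp only [hFe x hx] :
        Set.EqOn (fun x => x p * F x) (fun x => x p * X x) K),
      ← integral_add_compl hK.meas ixF, add_sub_cancel_left]
    refine abs_integral_le_integral_abs.trans ?_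
    have hb1 : ∀ x, |x p * F x| ≤ B * (ε * x p ^ 2 + 1 / ε) := fun x => by
      rw [abs_mul, mul_comm]
      refine mul_le_mul (hFb x) ?_ (abs_nonneg _) hB0
      rw [← sub_nonneg]
      have : ε * x p ^ 2 + 1 / ε - |x p| = ((ε * |x p| - 1) ^ 2 + ε * |x p|) / ε := by
        rw [← sq_abs (x p)]; field_simp; ring
      rw [this]
      positivity
    have hi1 : Integrable (fun x => B * (ε * x p ^ 2)) μ := (hx2.const_mul ε).const_mul B
    refine (setIntegral_mono_on ixF.abs.integrableOn
      (((hx2.const_mul ε).add (integrable_const (1 / ε))).const_mul B).integrableOn hK.meas.compl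
      fun x _ => hb1 x).trans ?_
    simp only [Pi.add_apply, mul_add]
    rw [integral_add hi1.integrableOn integrableOn_const, setIntegral_const, smul_eq_mul]
    have h2 : ∫ x in Kᶜ, B * (ε * x p ^ 2) ∂μ ≤ ∫ x, B * (ε * x p ^ 2) ∂μ :=
      setIntegral_le_integral hi1 (ae_of_all _ fun x => by positivity)
    refine add_le_add (h2.trans_eq ?_) (le_of_eq ?_)
    · rw [integral_const_mul, integral_const_mul, e2, mul_one]
    ring
  have a3 : |(∫ x, G x ∂μ) - ∫ x in K', (X (update x p (x p + t)) - X x) / t ∂μ|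
      ≤ L * μ.real K'ᶜ := by
    rw [setIntegral_congr_fun hK' (fun x hx => by
        simp only [G]; rw [hFe x (hsub hx), hFe _ (hshift x hx)] :
        Set.EqOn (fun x => (X (update x p (x p + t)) - X x) / t) G K'),
      ← integral_add_compl hK' iG, add_sub_cancel_left, ← norm_eq_abs]
    exact norm_setIntegral_le_of_norm_le_const (measure_lt_top μ _)
      fun x _ => by rw [norm_eq_abs]; exact hGb x
  rw [abs_le] at a1 a2 a3 ⊢
  constructor <;> linarith

end Vale.Agent.P150.Beta1
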