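import Vale.Agent.P150.Beta1.Statements

/-!
# The resolvent `S = (1/g - c - J)⁻¹` and its free values

`g` is a nonnegative diagonal and `c` a scalar shift. Nothing is assumed on the sign of `c`, and
`g` may vanish at some sites. All conditions are monotone: they pass to smaller `g` and `c`.
-/

namespace Vale.Agent.P150.Beta1

open MeasureTheory ProbabilityTheory Finset Filter Real Matrix
open scoped ENNReal Topology

variable {ι : Type*} [Fintype ι]

/-- The quadratic form of `J + c`. -/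
def shiftQ (c : ℝ) (J : ι → ι → ℝ) (a : ι → ℝ) : ℝ :=
  ∑ i, a i * act J a i + c * ∑ i, a i ^ 2

/-- `√g (J + c) √g ≤ 1 - κ`. -/
def OpBound (c κ : ℝ) (J : ι → ι → ℝ) (g : ι → ℝ) : Prop :=
  ∀ a : ι → ℝ, shiftQ c J (fun i => √(g i) * a i) ≤ (1 - κ) * ∑ i, a i ^ 2

/-- The free self-energy `τ avg (g / (1 - (c + s) g))`. -/
noncomputable def selfEnergy (τ c : ℝ) (g : ι → ℝ) (s : ℝ) : ℝ :=
  τ * avg fun i => g i / (1 - (c + s) * g i)

/-- The free edge of `√g (J + c) √g` lies below `1` with margin `κ`. -/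
def FreeEdge (τ c κ : ℝ) (g : ι → ℝ) : Prop :=
  ∃ ν : ℝ, 0 ≤ ν ∧ ν * κ ≤ 1 ∧ (∀ i, (c + ν) * g i < 1) ∧ selfEnergy τ c g ν ≤ ν - κ

/-- The least nonnegative super-solution of `s = selfEnergy s`; under `FreeEdge` it is the
fixed point. -/
noncomputable def freeSigma (τ c : ℝ) (g : ι → ℝ) : ℝ :=
  sInf {s : ℝ | 0 ≤ s ∧ (∀ i, (c + s) * g i < 1) ∧ selfEnergy τ c g s ≤ s}

/-- The free diagonal of the resolvent: `G (1/g - c - τ avg G) = 1`. -/
noncomputable def freeG (τ c : ℝ) (g : ι → ℝ) : ι → ℝ :=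
  fun i => g i / (1 - (c + freeSigma τ c g) * g i)

/-- Free value of the diagonal of a word followed by the resolvent with free diagonal `G`: the
first `J` pairs inside the word or with a `J` inside the resolvent. -/
noncomputable def resVal (β : ℝ) (G : ι → ℝ) : ℕ → (ι → ℝ) → List (ι → ℝ) → ι → ℝ
  | _, d, [] => fun i => d i * G i
  | 0, _, _ :: _ => 0
  | fuel + 1, d, e :: r => fun i => d i *
      ((∑ j ∈ range r.length, β ^ 2 * avg (freeVal β fuel e (r.take j))
          * resVal β G fuel (r.getD j 0) (r.drop (j + 1)) i)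
        + β ^ 2 * avg (resVal β G fuel e r) * G i)

variable [DecidableEq ι]

/-- The matrix `√g (1 - √g (J + c) √g)⁻¹ √g`, which equals `(1/g - c - J)⁻¹` for positive `g`. -/
noncomputable def res (c : ℝ) (J : ι → ι → ℝ) (g : ι → ℝ) : Matrix ι ι ℝ :=
  diagonal (fun i => √(g i))
    * (1 - diagonal (fun i => √(g i)) * (Matrix.of J + c • 1) * diagonal fun i => √(g i))⁻¹
    * diagonal fun i => √(g i)

/-- Uniform words with the resolvent: free diagonals and small off-diagonal entries for every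
shift, diagonal and short word allowed by the edge conditions. -/
def GoodResolvent (β κ : ℝ) (m : ℕ) (C : ℝ) (J : ι → ι → ℝ) : Prop :=
  ∀ (c : ℝ) (g d : ι → ℝ) (l : List (ι → ℝ)), |c| * κ ≤ 1 → (∀ i, 0 ≤ g i) →
    (∀ i, g i * κ ≤ 1) → FreeEdge (β ^ 2) c κ g → OpBound c κ J g → l.length ≤ m →
    (∀ i, |d i| ≤ 1) → (∀ e ∈ l, ∀ i, |e i| ≤ 1) →
      (∑ i, ((wordMat J d l * res c J g) i i
          - resVal β (freeG (β ^ 2) c g) l.length d l i) ^ 2 ≤ C) ∧
      ∑ i, ∑ j, (if i = j then 0 else (wordMat J d l * res c J g) i j ^ 4) ≤ C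

/-- Resolvent words: exceptional probability `exp (-n)`, uniformly in all parameters. -/
def ResolventStatement (β : ℝ) : Prop :=
  ∀ κ > 0, ∀ m : ℕ, ∃ C, ∀ᶠ n : ℕ in atTop,
    Measure.pi (fun _ : Fin n × Fin n => gaussianReal 0 1)
      {g | ¬GoodResolvent β κ m C (skCoupling β g)} ≤ ENNReal.ofReal (exp (-(n : ℝ)))

omit [DecidableEq ι] in
/-- The edge condition passes to smaller shifts and diagonals. -/
theorem OpBound.mono {c c' κ : ℝ} {J : ι → ι → ℝ} {g g' : ι → ℝ} (h : OpBound c κ J g)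
    (hκ : κ ≤ 1) (hle : ∀ i, g' i ≤ g i) (hc : c' ≤ c) :
    OpBound c' κ J g' := by
  intro a
  set b : ι → ℝ := fun i => √(g' i) / √(g i) * a i
  have hb : (fun i => √(g i) * b i) = fun i => √(g' i) * a i := by
    funext i
    rcases eq_or_ne (√(g i)) 0 with hz | hz
    · have : √(g' i) = 0 := le_antisymm ((sqrt_le_sqrt (hle i)).trans hz.le) (sqrt_nonneg _)
      simp [b, hz, this]
    · simp only [b]
      field_simp
  have hab : ∑ i, b i ^ 2 ≤ ∑ i, a i ^ 2 := by
    refine sum_le_sum fun i _ => ?_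
    have h0 : 0 ≤ √(g' i) / √(g i) := by positivity
    have h1 : √(g' i) / √(g i) ≤ 1 := div_le_one_of_le₀ (sqrt_le_sqrt (hle i)) (sqrt_nonneg _)
    simp only [b, mul_pow]
    exact mul_le_of_le_one_left (sq_nonneg _) (pow_le_one₀ h0 h1)
  have h1 := h b
  rw [hb] at h1
  have h2 : shiftQ c' J (fun i => √(g' i) * a i) ≤ shiftQ c J (fun i => √(g' i) * a i) := by
    simp only [shiftQ]
    gcongr
  exact h2.trans (h1.trans (mul_le_mul_of_nonneg_left hab (by linarith)))

omit [DecidableEq ι] in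
/-- The free edge passes to smaller shifts and diagonals. -/
theorem FreeEdge.mono {τ c c' κ : ℝ} {g g' : ι → ℝ} (h : FreeEdge τ c κ g) (hτ : 0 ≤ τ)
    (hg : ∀ i, 0 ≤ g' i) (hle : ∀ i, g' i ≤ g i) (hc : c' ≤ c) : FreeEdge τ c' κ g' := by
  obtain ⟨ν, h0, h1, h2, h3⟩ := h
  have hlt : ∀ i, (c' + ν) * g' i < 1 := fun i => by
    rcases le_or_gt (c' + ν) 0 with hs | hs
    · exact lt_of_le_of_lt (mul_nonpos_of_nonpos_of_nonneg hs (hg i)) one_pos
    · calc (c' + ν) * g' i ≤ (c + ν) * g i := by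
            refine mul_le_mul ?_ (hle i) (hg i) ?_ <;> linarith
        _ < 1 := h2 i
  refine ⟨ν, h0, h1, hlt, le_trans ?_ h3⟩
  refine mul_le_mul_of_nonneg_left ?_ hτ
  unfold avg
  gcongr with i
  have d1 : 0 < 1 - (c' + ν) * g' i := by linarith [hlt i]
  have d2 : 0 < 1 - (c + ν) * g i := by linarith [h2 i]
  rw [div_le_div_iff₀ d1 d2]
  have h4 : 0 ≤ (c - c') * (g' i * g i) :=
    mul_nonneg (by linarith) (mul_nonneg (hg i) ((hg i).trans (hle i)))
  linarith [hle i]

end Vale.Agent.P150.Beta1
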