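import Vale.Agent.P150.Beta1.Resolvent.Basic

/-!
# Lipschitz dependence of resolvent words on the disorder and on the parameters

A matrix function of the couplings is regular with constant `a` on a region if its operator norm
is at most `a` and it is `a`-Lipschitz in Frobenius norm there. The class is closed under sums and
products, and differences of words at nearby parameters are regular with a small constant.
-/

namespace Vale.Agent.P150.Beta1

open Finset Real Matrix RN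

variable {ι : Type*} [Fintype ι] [DecidableEq ι]

/-- The region of couplings attached to the top parameters `c₁`, `g₁`. -/
def Region (Λ κ c₁ : ℝ) (g₁ : ι → ℝ) : Set (ι → ι → ℝ) :=
  {J | (∀ i j, J i j = J j i) ∧ OpLe Λ (Matrix.of J) ∧ OpBound c₁ κ J g₁}

/-- Operator bound and Lipschitz constant `a` on `K`. -/
def Reg (K : Set (ι → ι → ℝ)) (a : ℝ) (F : (ι → ι → ℝ) → Matrix ι ι ℝ) : Prop :=
  0 ≤ a ∧ (∀ J ∈ K, OpLe a (F J)) ∧
    ∀ J ∈ K, ∀ J' ∈ K, frob (F J' - F J) ≤ a * frob (Matrix.of J' - Matrix.of J)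

namespace Reg

variable {K : Set (ι → ι → ℝ)} {a b : ℝ} {F G : (ι → ι → ℝ) → Matrix ι ι ℝ}

omit [DecidableEq ι] in
lemma mono (h : Reg K a F) (hab : a ≤ b) : Reg K b F :=
  ⟨h.1.trans hab, fun J hJ => (h.2.1 J hJ).mono hab, fun J hJ J' hJ' =>
    (h.2.2 J hJ J' hJ').trans (mul_le_mul_of_nonneg_right hab (frob_nonneg _))⟩

omit [DecidableEq ι] in
lemma const {M : Matrix ι ι ℝ} (h : OpLe a M) : Reg K a fun _ => M :=
  ⟨h.1, fun _ _ => h, fun _ _ _ _ => by
    rw [sub_self, frob_zero]; exact mul_nonneg h.1 (frob_nonneg _)⟩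

omit [DecidableEq ι] in
lemma mul (h : Reg K a F) (h' : Reg K b G) : Reg K (2 * (a * b)) fun J => F J * G J := by
  have hab : 0 ≤ a * b := mul_nonneg h.1 h'.1
  refine ⟨by linarith, fun J hJ => ((h.2.1 J hJ).mul (h'.2.1 J hJ)).mono (by linarith),
    fun J hJ J' hJ' => ?_⟩
  rw [show F J' * G J' - F J * G J = (F J' - F J) * G J' + F J * (G J' - G J) by noncomm_ring]
  refine (frob_add_le _ _).trans ?_
  have h1 := ((h'.2.1 J' hJ').mul_frob (F J' - F J)).trans
    (mul_le_mul_of_nonneg_right (h.2.2 J hJ J' hJ') h'.1)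
  have h2 := ((h.2.1 J hJ).frob_mul (G J' - G J)).trans
    (mul_le_mul_of_nonneg_left (h'.2.2 J hJ J' hJ') h.1)
  linarith

omit [DecidableEq ι] in
lemma add (h : Reg K a F) (h' : Reg K b G) : Reg K (a + b) fun J => F J + G J := by
  refine ⟨add_nonneg h.1 h'.1, fun J hJ => (h.2.1 J hJ).add (h'.2.1 J hJ),
    fun J hJ J' hJ' => ?_⟩
  rw [show F J' + G J' - (F J + G J) = (F J' - F J) + (G J' - G J) by abel, add_mul]
  exact (frob_add_le _ _).trans (add_le_add (h.2.2 J hJ J' hJ') (h'.2.2 J hJ J' hJ'))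

omit [DecidableEq ι] in
lemma congr (h : Reg K a F) (e : ∀ J ∈ K, G J = F J) : Reg K a G :=
  ⟨h.1, fun J hJ => e J hJ ▸ h.2.1 J hJ, fun J hJ J' hJ' => by
    rw [e J hJ, e J' hJ']; exact h.2.2 J hJ J' hJ'⟩

omit [DecidableEq ι] in
/-- The diagonal and the off-diagonal norm are Lipschitz along a regular function. -/
lemma apply_sub_le (h : Reg K a F) {J J' : ι → ι → ℝ} (hJ : J ∈ K) (hJ' : J' ∈ K) (i j : ι) :
    |F J' i j - F J i j| ≤ a * frob (Matrix.of J' - Matrix.of J) :=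
  (abs_apply_le_frob (F J' - F J) i j).trans (h.2.2 J hJ J' hJ')

end Reg

/-- Parameter range: top `(c₁, g₁)` and a smaller `(c, g)`. -/
structure Below (Γ κ c₁ : ℝ) (g₁ : ι → ℝ) (c : ℝ) (g : ι → ℝ) : Prop where
  hκ : 0 < κ
  hκ1 : κ ≤ 1
  hΓ : 1 ≤ Γ
  hc : c ≤ c₁
  hcΓ : |c| ≤ Γ
  hg : ∀ i, 0 ≤ g i
  hle : ∀ i, g i ≤ g₁ i
  hgΓ : ∀ i, g i ≤ Γ

/-- The regularity constant of the resolvent. -/
noncomputable def resC (Γ κ : ℝ) : ℝ := (1 + Γ / κ) ^ 2

/-- The regularity constant of a short word. -/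
noncomputable def wordC (Λ : ℝ) (l : ℕ) : ℝ := (8 * (Λ + 1)) ^ l

/-- The regularity constant of a resolvent difference. -/
noncomputable def resDC (Λ Γ κ : ℝ) : ℝ :=
  4 * (1 + 2 * (resC Γ κ * (Λ + 1 + Γ))) ^ 2 + 4 * resC Γ κ ^ 2

/-- The regularity constant of a resolvent word and of its parameter differences. -/
noncomputable def wordResC (Λ Γ κ : ℝ) (m : ℕ) : ℝ :=
  2 * (wordC Λ m * (resC Γ κ + resDC Λ Γ κ))

variable {Λ Γ κ c₁ : ℝ} {g₁ : ι → ℝ} {c c' : ℝ} {g g' : ι → ℝ}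

lemma Below.adm (B : Below Γ κ c₁ g₁ c g) {J : ι → ι → ℝ} (hJ : J ∈ Region Λ κ c₁ g₁) :
    Adm c κ J g :=
  ⟨B.hκ, hJ.1, B.hg, hJ.2.2.mono B.hκ1 B.hle B.hc⟩

lemma one_le_resC (B : Below Γ κ c₁ g₁ c g) : 1 ≤ resC Γ κ := by
  have := div_nonneg (zero_le_one.trans B.hΓ) B.hκ.le
  exact one_le_pow₀ (by linarith)

lemma reg_res (B : Below Γ κ c₁ g₁ c g) :
    Reg (Region Λ κ c₁ g₁) (resC Γ κ) fun J => res c J g := by
  have h0 : 0 ≤ Γ / κ := div_nonneg (zero_le_one.trans B.hΓ) B.hκ.le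
  have h1 : Γ / κ ≤ resC Γ κ := by
    unfold resC
    nlinarith
  have h2 : (Γ / κ) * (Γ / κ) ≤ resC Γ κ := by
    unfold resC
    nlinarith
  have hop : ∀ J ∈ Region Λ κ c₁ g₁, OpLe (Γ / κ) (res c J g) := fun J hJ =>
    (B.adm hJ).res_opLe (zero_le_one.trans B.hΓ) B.hgΓ
  refine ⟨h0.trans h1, fun J hJ => (hop J hJ).mono h1, fun J hJ J' hJ' => ?_⟩
  rw [res_sub (B.adm hJ) (B.adm hJ'), sub_self, Matrix.mul_zero, Matrix.zero_mul, zero_add,
    shiftMat, shiftMat, add_sub_add_right_eq_sub]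
  refine ((hop J' hJ').mul_frob _).trans ?_
  refine le_trans (mul_le_mul_of_nonneg_right ((hop J hJ).frob_mul _) h0) ?_
  have := mul_le_mul_of_nonneg_right h2 (frob_nonneg (Matrix.of J' - Matrix.of J))
  linarith

lemma reg_coupling (hΛ : 0 ≤ Λ) : Reg (Region Λ κ c₁ g₁) (Λ + 1) Matrix.of := by
  refine ⟨by linarith, fun J hJ => hJ.2.1.mono (by linarith), fun J _ J' _ => ?_⟩
  exact le_mul_of_one_le_left (frob_nonneg _) (by linarith)

lemma reg_shift (hΛ : 0 ≤ Λ) (hc : |c| ≤ Γ) :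
    Reg (Region Λ κ c₁ g₁) (Λ + 1 + Γ) (shiftMat c) :=
  (reg_coupling hΛ).add (Reg.const (OpLe.smul_one hc))

lemma reg_res_sub (hΛ : 0 ≤ Λ) (B : Below Γ κ c₁ g₁ c g) (B' : Below Γ κ c₁ g₁ c' g') {δ : ℝ}
    (hcd : |c' - c| ≤ δ) (hgd : ∀ i, |g' i - g i| ≤ δ) :
    Reg (Region Λ κ c₁ g₁) (resDC Λ Γ κ * δ) fun J => res c' J g' - res c J g := by
  have hδ : 0 ≤ δ := (abs_nonneg _).trans hcd
  set R := resC Γ κ
  set A := Λ + 1 + Γ
  set P := 1 + 2 * (R * A) with hP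
  have h1 : Reg (Region Λ κ c₁ g₁) P fun J => 1 + res c J g * shiftMat c J :=
    (Reg.const OpLe.one).add ((reg_res B).mul (reg_shift hΛ B.hcΓ))
  have h2 : Reg (Region Λ κ c₁ g₁) P fun J => 1 + shiftMat c' J * res c' J g' :=
    ((Reg.const OpLe.one).add ((reg_shift hΛ B'.hcΓ).mul (reg_res B'))).mono
      (le_of_eq (by rw [hP]; ring))
  have h3 : Reg (Region Λ κ c₁ g₁) δ fun _ => diagonal g' - diagonal g :=
    Reg.const (by rw [Matrix.diagonal_sub]; exact OpLe.diag hδ hgd)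
  have h4 : Reg (Region Λ κ c₁ g₁) δ fun J => shiftMat c' J - shiftMat c J :=
    (Reg.const (OpLe.smul_one hcd)).congr fun J _ => by
      simp only [shiftMat, add_sub_add_left_eq_sub, sub_smul]
  refine ((((h1.mul h3).mul h2).add (((reg_res B).mul h4).mul (reg_res B'))).mono
    (le_of_eq ?_)).congr fun J hJ => res_sub (B.adm hJ) (B'.adm hJ)
  simp only [resDC]
  ring

/-- The parameters of a word are in the unit box. -/
def WordBox (d : ι → ℝ) (l : List (ι → ℝ)) : Prop := (∀ i, |d i| ≤ 1) ∧ ∀ e ∈ l, ∀ i, |e i| ≤ 1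

omit [Fintype ι] [DecidableEq ι] in
lemma WordBox.tail {d e : ι → ℝ} {r : List (ι → ℝ)} (h : WordBox d (e :: r)) : WordBox e r :=
  ⟨h.2 e (List.mem_cons_self ..), fun f hf => h.2 f (List.mem_cons_of_mem e hf)⟩

/-- Uniform closeness of two words. -/
def WordNear (δ : ℝ) (d d' : ι → ℝ) (l l' : List (ι → ℝ)) : Prop :=
  (∀ i, |d' i - d i| ≤ δ) ∧ List.Forall₂ (fun e e' => ∀ i, |e' i - e i| ≤ δ) l l'

lemma wordC_mono {l m : ℕ} (hΛ : 0 ≤ Λ) (h : l ≤ m) : wordC Λ l ≤ wordC Λ m :=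
  pow_le_pow_right₀ (by linarith) h

lemma wordC_succ (l : ℕ) : wordC Λ (l + 1) = 8 * (Λ + 1) * wordC Λ l := by
  rw [wordC, wordC, pow_succ, mul_comm]

lemma reg_word (hΛ : 0 ≤ Λ) (l : List (ι → ℝ)) (d : ι → ℝ) (hb : WordBox d l) :
    Reg (Region Λ κ c₁ g₁) (wordC Λ l.length) fun J => wordMat J d l := by
  induction l generalizing d with
  | nil =>
    refine (Reg.const (M := diagonal d) ?_).congr fun J _ => wordMat_nil J d
    exact (OpLe.diag zero_le_one hb.1).mono (by simp [wordC])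
  | cons e r ih =>
    refine (((Reg.const (OpLe.diag zero_le_one hb.1)).mul (reg_coupling hΛ)).mul
      (ih e hb.tail)).congr (fun J _ => wordMat_peel J d e r) |>.mono ?_
    rw [List.length_cons, wordC_succ]
    nlinarith [(ih e hb.tail).1]

lemma reg_word_sub (hΛ : 0 ≤ Λ) {δ : ℝ} (hδ : 0 ≤ δ) (l l' : List (ι → ℝ)) (d d' : ι → ℝ)
    (hb : WordBox d l) (hb' : WordBox d' l') (h : WordNear δ d d' l l') :
    Reg (Region Λ κ c₁ g₁) (wordC Λ l.length * δ) fun J => wordMat J d' l' - wordMat J d l := by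
  induction l generalizing d d' l' with
  | nil =>
    obtain rfl := List.forall₂_nil_left_iff.1 h.2
    refine (Reg.const (M := diagonal d' - diagonal d) ?_).congr fun J _ => by
      rw [wordMat_nil, wordMat_nil]
    rw [Matrix.diagonal_sub]
    exact OpLe.diag (by simpa [wordC] using hδ) fun i => by simpa [wordC] using h.1 i
  | cons e r ih =>
    obtain ⟨e', r', he, hr, rfl⟩ := List.forall₂_cons_left_iff.1 h.2
    have hlen : r'.length = r.length := hr.length_eq.symm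
    have h1 := ((Reg.const (K := Region Λ κ c₁ g₁) (OpLe.diag hδ h.1)).mul
      (reg_coupling hΛ)).mul (reg_word hΛ r' e' hb'.tail)
    have h2 := ((Reg.const (K := Region Λ κ c₁ g₁) (OpLe.diag zero_le_one hb.1)).mul
      (reg_coupling hΛ)).mul (ih r' e e' hb.tail hb'.tail ⟨he, hr⟩)
    refine ((h1.add h2).congr fun J _ => ?_).mono ?_
    · rw [wordMat_peel, wordMat_peel, ← Matrix.diagonal_sub]
      noncomm_ring
    · rw [List.length_cons, wordC_succ, hlen]
      exact le_of_eq (by ring)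

/-- Resolvent words are regular. -/
lemma reg_wordRes (hΛ : 0 ≤ Λ) (B : Below Γ κ c₁ g₁ c g) {m : ℕ} {d : ι → ℝ}
    {l : List (ι → ℝ)} (hb : WordBox d l) (hl : l.length ≤ m) :
    Reg (Region Λ κ c₁ g₁) (wordResC Λ Γ κ m) fun J => wordMat J d l * res c J g := by
  refine ((reg_word hΛ l d hb).mul (reg_res B)).mono ?_
  have h2 : 0 ≤ resDC Λ Γ κ := by unfold resDC; positivity
  have := one_le_resC B
  unfold wordResC
  gcongr
  · exact pow_nonneg (by linarith) _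
  · exact wordC_mono hΛ hl
  · linarith

/-- Differences of resolvent words at nearby parameters. -/
lemma reg_wordRes_sub (hΛ : 0 ≤ Λ) (B : Below Γ κ c₁ g₁ c g) (B' : Below Γ κ c₁ g₁ c' g')
    {m : ℕ} {δ : ℝ} {d d' : ι → ℝ} {l l' : List (ι → ℝ)} (hb : WordBox d l) (hb' : WordBox d' l')
    (hl : l.length ≤ m) (hcd : |c' - c| ≤ δ) (hgd : ∀ i, |g' i - g i| ≤ δ)
    (hn : WordNear δ d d' l l') :
    Reg (Region Λ κ c₁ g₁) (wordResC Λ Γ κ m * δ)
      fun J => wordMat J d' l' * res c' J g' - wordMat J d l * res c J g := by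
  have hδ : 0 ≤ δ := (abs_nonneg _).trans hcd
  refine (((reg_word_sub hΛ hδ l l' d d' hb hb' hn).mul (reg_res B')).add
    ((reg_word hΛ l d hb).mul (reg_res_sub hΛ B B' hcd hgd))).mono ?_ |>.congr fun J _ => ?_
  · have h1 := wordC_mono hΛ hl
    have h3 : 0 ≤ (resC Γ κ + resDC Λ Γ κ) * δ := by
      have := one_le_resC B
      have : 0 ≤ resDC Λ Γ κ := by unfold resDC; positivity
      positivity
    have := mul_le_mul_of_nonneg_right h1 h3
    unfold wordResC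
    linarith
  · noncomm_ring

end Vale.Agent.P150.Beta1
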