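import Vale.Agent.P150.Beta1.Resolvent.Api
import Vale.Agent.P150.Beta1.Resolvent.Reg
import Vale.Agent.P150.Beta1.Words.Moments
import Vale.Agent.P150.Beta1.SpectralEdge

/-!
# The edge condition is likely whenever the free edge holds
-/

namespace Vale.Agent.P150.Beta1

open MeasureTheory ProbabilityTheory Finset Real Function Matrix RN
open Words (dist2 OpSq Ev radSq one_le_radSq frob_coupling_le skCoupling_sub gauss_ev_compl)

variable {n : ℕ}

/-- The coupling arrays whose couplings lie in the region of `(c, g)`. -/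
def Dom (β Λ κ c : ℝ) (g : Fin n → ℝ) : Set (Fin n × Fin n → ℝ) :=
  {x | skCoupling β x ∈ Region Λ κ c g}

/-- The operator radius on the event of the words. -/
noncomputable def lam (β : ℝ) : ℝ := √(radSq β)

lemma measurableSet_dom (β Λ κ c : ℝ) (g : Fin n → ℝ) : MeasurableSet (Dom β Λ κ c g) := by
  refine IsClosed.measurableSet ?_
  rcases lt_or_ge Λ 0 with hΛ | hΛ
  · have : Dom β Λ κ c g = ∅ := by
      ext x
      simp only [Dom, Region, OpLe, Set.mem_ofPred_eq, Set.mem_empty_iff_false, iff_false]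
      rintro ⟨-, ⟨h, -⟩, -⟩
      linarith
    rw [this]
    exact isClosed_empty
  have e : Dom β Λ κ c g
      = (⋂ a : Fin n → ℝ, {x | ∑ i, (Matrix.of (skCoupling β x) *ᵥ a) i ^ 2
          ≤ Λ ^ 2 * ∑ i, a i ^ 2}) ∩ ⋂ a : Fin n → ℝ,
        {x | shiftQ c (skCoupling β x) (fun i => √(g i) * a i) ≤ (1 - κ) * ∑ i, a i ^ 2} := by
    ext x
    simp [Dom, Region, OpLe, OpBound, hΛ, skCoupling_symm β x]
  rw [e]
  have hc : ∀ (i : Fin n) (a : Fin n → ℝ),
      Continuous fun x => ∑ j, skCoupling β x i j * a j := fun i a =>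
    continuous_finsetSum _ fun j _ => (Words.skCoupling_continuous β i j).mul continuous_const
  refine (isClosed_iInter fun a => isClosed_le ?_ continuous_const).inter
    (isClosed_iInter fun a => isClosed_le ?_ continuous_const)
  · simp only [Matrix.mulVec, dotProduct, Matrix.of_apply]
    exact continuous_finsetSum _ fun i _ => (hc i a).pow 2
  · simp only [shiftQ, act]
    exact (continuous_finsetSum _ fun i _ => continuous_const.mul (hc i _)).add continuous_const

lemma dom_mono {β Λ Λ' κ κ' c : ℝ} {g : Fin n → ℝ} (hΛ : Λ ≤ Λ') (hκ : κ' ≤ κ) :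
    Dom β Λ κ c g ⊆ Dom β Λ' κ' c g := fun x hx =>
  ⟨hx.1, hx.2.1.mono hΛ, fun a => (hx.2.2 a).trans (mul_le_mul_of_nonneg_right (by linarith)
    (sum_nonneg fun i _ => sq_nonneg _))⟩

/-- Couplings are Lipschitz in the array. -/
lemma frob_coupling_sub (β : ℝ) (x y : Fin n × Fin n → ℝ) :
    frob (Matrix.of (skCoupling β y) - Matrix.of (skCoupling β x))
      ≤ √2 * |β| / √n * dist2 y x := by
  rw [frob_le_iff (mul_nonneg (by positivity) (Words.dist2_nonneg _ _)), mul_pow, div_pow,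
    mul_pow, sq_sqrt (by norm_num), sq_abs, sq_sqrt (Nat.cast_nonneg n), dist2,
    sq_sqrt (sum_nonneg fun p _ => sq_nonneg _)]
  simp only [Matrix.sub_apply, Matrix.of_apply, ← skCoupling_sub]
  exact frob_coupling_le β (y - x)

/-- A regular matrix function composed with the couplings. -/
lemma Reg.dom_sub_le {β Λ κ c a : ℝ} {g : Fin n → ℝ}
    {F : (Fin n → Fin n → ℝ) → Matrix (Fin n) (Fin n) ℝ} (h : Reg (Region Λ κ c g) a F)
    {x y : Fin n × Fin n → ℝ} (hx : x ∈ Dom β Λ κ c g) (hy : y ∈ Dom β Λ κ c g) :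
    frob (F (skCoupling β y) - F (skCoupling β x)) ≤ a * (√2 * |β|) / √n * dist2 y x := by
  refine (h.2.2 _ hx _ hy).trans ?_
  refine (mul_le_mul_of_nonneg_left (frob_coupling_sub β x y) h.1).trans_eq ?_
  ring

/-- Sets that depend on the couplings only keep their probability under symmetrisation. -/
lemma gauss_symmArray {S : Set (Fin n × Fin n → ℝ)} (hS : MeasurableSet S)
    (hinv : ∀ x : Fin n × Fin n → ℝ,
      extendUpper (fun p : UpperPairs n => x p.1) ∈ S ↔ x ∈ S) :
    gauss (Fin n × Fin n) S = gauss (Fin n × Fin n) (symmArray ⁻¹' S) := by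
  set E : Set (UpperPairs n → ℝ) := extendUpper ⁻¹' S
  have hE : MeasurableSet E := by
    refine measurableSet_preimage (measurable_pi_lambda _ fun p => ?_) hS
    simp only [extendUpper]
    split_ifs <;> fun_prop
  have pre : ∀ φ : (Fin n × Fin n → ℝ) → Fin n × Fin n → ℝ,
      φ ⁻¹' S = (fun x (p : UpperPairs n) => φ x p.1) ⁻¹' E := fun φ => by
    ext x
    simp only [E, Set.mem_preimage, hinv]
  have h1 := gauss_map_comp (κ := Fin n × Fin n) (fun p : UpperPairs n => p.1)
    Subtype.val_injective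
  let R : UpperPairs n → Fin n × Fin n → ℝ := fun p k =>
    (if k = p.1 then 1 / √2 else 0) + (if k = (p.1.2, p.1.1) then 1 / √2 else 0)
  have hR : ∀ p q, ∑ k, R p k * R q k = if p = q then 1 else 0 := by
    rintro ⟨⟨a, b⟩, hab⟩ ⟨⟨c, d⟩, hcd⟩
    have hab' : a ≠ b := ne_of_lt hab
    have hne : ¬ (a = d ∧ b = c) := fun h => by
      obtain ⟨rfl, rfl⟩ := h
      exact lt_asymm hab hcd
    rcases eq_or_ne ((a, b) : Fin n × Fin n) (c, d) with h | h
    · obtain ⟨rfl, rfl⟩ := Prod.ext_iff.1 h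
      simp [R, mul_add, sum_add_distrib, hab', hab'.symm]
      rw [← sq, inv_pow, Real.sq_sqrt (by norm_num)]
      norm_num
    · have n1 : ((c, d) : Fin n × Fin n) ≠ (a, b) := h.symm
      have n2 : ((d, c) : Fin n × Fin n) ≠ (a, b) := fun e =>
        hne ⟨(Prod.ext_iff.1 e).1.symm, (Prod.ext_iff.1 e).2.symm⟩
      have n3 : ((c, d) : Fin n × Fin n) ≠ (b, a) := fun e =>
        hne ⟨(Prod.ext_iff.1 e).2.symm, (Prod.ext_iff.1 e).1.symm⟩
      have n4 : ((d, c) : Fin n × Fin n) ≠ (b, a) := fun e =>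
        h (Prod.ext (Prod.ext_iff.1 e).2.symm (Prod.ext_iff.1 e).1.symm)
      rw [if_neg fun e => h (congrArg Subtype.val e)]
      simp only [R, mul_add, sum_add_distrib, mul_ite, mul_zero, sum_ite_eq', mem_univ, if_true,
        n1, n2, n3, n4, if_false, zero_mul, add_zero]
  have h2 := gauss_map_rowMap R hR
  have e2 : rowMap R = fun A (p : UpperPairs n) => symmArray A p.1 := by
    funext A p
    simp [rowMap, R, symmArray, add_mul, sum_add_distrib]
    ring
  rw [e2] at h2
  rw [pre symmArray, ← Measure.map_apply (by unfold symmArray; fun_prop) hE,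
    ← Set.preimage_id (s := S), pre id, ← Measure.map_apply (by fun_prop) hE]
  simp only [id_eq]
  rw [h1]
  exact congrArg (fun μ => μ E) h2.symm

/-- The quadratic form of symmetrised couplings. -/
lemma coupling_quad {β : ℝ} (hβ : 0 ≤ β) (A : Fin n × Fin n → ℝ) (y : Fin n → ℝ) :
    ∑ i, y i * act (skCoupling β (symmArray A)) y i
      = √(2 * β ^ 2 / n) * ((∑ p : Fin n × Fin n, y p.1 * y p.2 * A p)
          - ∑ i, A (i, i) * y i ^ 2) := by
  have h22 : √2 * √2 = 2 := mul_self_sqrt (by norm_num)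
  have e0 : √(2 * β ^ 2 / n) = √2 * β / √n := by
    rw [sqrt_div (by positivity), sqrt_mul (by norm_num), sqrt_sq hβ]
  have e1 : ∀ i j, y i * (skCoupling β (symmArray A) i j * y j)
      = β / √n * ((y i * y j * A (i, j) + y j * y i * A (j, i)) / √2)
        - if i = j then √2 * β / √n * (A (i, i) * y i ^ 2) else 0 := by
    intro i j
    rcases eq_or_ne i j with rfl | hij
    · rw [skCoupling_self, if_pos rfl]
      field_simp
      linear_combination (β / √n * y i ^ 2 * A (i, i)) * h22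
    · rw [skCoupling_symmArray β A hij, if_neg hij]
      ring
  simp only [act, mul_sum, e1, sum_sub_distrib, sum_ite_eq, mem_univ, if_true, e0, mul_sub]
  congr 1
  simp only [← mul_sum, ← sum_div, sum_add_distrib]
  rw [sum_comm (f := fun i j => y j * y i * A (j, i)), Fintype.sum_prod_type]
  field_simp
  linear_combination (-(β / √n * ∑ i, ∑ j, y i * y j * A (i, j))) * h22

/-- Likely set of the edge condition. -/
theorem edge_compl_le {β κ : ℝ} (hβ : 0 < β) (hκ : 0 < κ) :
    ∃ κ₁ : ℝ, 0 < κ₁ ∧ κ₁ ≤ 1 ∧ ∃ a : ℝ, 0 < a ∧ ∀ n : ℕ, 0 < n →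
      ∀ (c ν : ℝ) (g : Fin n → ℝ), EdgeAt (β ^ 2) c κ g ν → |c| * κ ≤ 2 →
        (gauss (Fin n × Fin n)).real (Dom β (lam β) κ₁ c g)ᶜ
          ≤ (2 * n + 2) * exp (-(a * n)) := by
  set D := lam β + 2 / κ
  have hD : 0 ≤ D := add_nonneg (sqrt_nonneg _) (by positivity)
  have hden : 0 < 8 * D + κ := by linarith
  set θ := κ / (8 * D + κ) with hθ
  have hθ0 : 0 < θ := div_pos hκ hden
  have hθ1 : θ ≤ 1 := (div_le_one hden).2 (by linarith)
  refine ⟨θ, hθ0, hθ1, min 2 (min ((κ / 4) ^ 2 / (8 * β ^ 2)) ((κ / 8) ^ 2 / (8 * β ^ 2))),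
    by positivity, fun n hn c ν g H hc => ?_⟩
  set a := min 2 (min ((κ / 4) ^ 2 / (8 * β ^ 2)) ((κ / 8) ^ 2 / (8 * β ^ 2)))
  have hn' : (0:ℝ) < n := Nat.cast_pos.2 hn
  set ε := min (κ / 4) (κ / (8 * β ^ 2))
  have hε : 0 < ε := lt_min (by positivity) (by positivity)
  set gt : Fin n → ℝ := fun i => max (g i) ε
  have hgt : ∀ i, 0 < gt i := fun i => hε.trans_le (le_max_right _ _)
  have hsite : ∀ i, 0 < 1 - (c + ν) * gt i ∧
      gt i / (1 - (c + ν) * gt i) ≤ g i / (1 - (c + ν) * g i) + 2 * ε := by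
    intro i
    have h0 : 0 ≤ g i / (1 - (c + ν) * g i) := div_nonneg (H.hg i) (by linarith [H.hd i])
    rcases le_or_gt ε (g i) with h | h
    · simp only [gt, max_eq_left h]
      exact ⟨by linarith [H.hd i], by linarith⟩
    · simp only [gt, max_eq_right h.le]
      have h1 : (c + ν) * ε ≤ 1 / 2 := by
        rcases le_or_gt (c + ν) 0 with hs | hs
        · linarith [mul_nonpos_of_nonpos_of_nonneg hs hε.le]
        · have h2 := mul_le_mul_of_nonneg_left (min_le_left (κ / 4) (κ / (8 * β ^ 2))) hs.le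
          linarith [H.hcν]
      refine ⟨by linarith, le_trans ?_ (le_add_of_nonneg_left h0)⟩
      rw [div_le_iff₀ (by linarith)]
      nlinarith
  have hE : -ν + β ^ 2 / n * ∑ i, 1 / ((gt i)⁻¹ - c + -ν) ≤ -(κ / 2) := by
    have e : ∀ i, 1 / ((gt i)⁻¹ - c + -ν) = gt i / (1 - (c + ν) * gt i) := fun i => by
      have hp := (hgt i).ne'
      rw [show (gt i)⁻¹ - c + -ν = (1 - (c + ν) * gt i) / gt i by field_simp; ring,
        one_div_div]
    simp only [e]
    have h1 : ∑ i, gt i / (1 - (c + ν) * gt i)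
        ≤ (∑ i, g i / (1 - (c + ν) * g i)) + n * (2 * ε) := by
      refine (sum_le_sum fun i _ => (hsite i).2).trans (le_of_eq ?_)
      rw [sum_add_distrib, sum_const, card_univ, Fintype.card_fin, nsmul_eq_mul]
    have h2 := mul_le_mul_of_nonneg_left h1 (show 0 ≤ β ^ 2 / n by positivity)
    have h3 : selfEnergy (β ^ 2) c g ν = β ^ 2 / n * ∑ i, g i / (1 - (c + ν) * g i) := by
      rw [selfEnergy, avg, Fintype.card_fin]; ring
    have h4 : β ^ 2 / n * (n * (2 * ε)) ≤ κ / 2 := by
      rw [show β ^ 2 / n * (n * (2 * ε)) = 2 * β ^ 2 * ε by field_simp]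
      calc 2 * β ^ 2 * ε ≤ 2 * β ^ 2 * (κ / (8 * β ^ 2)) :=
            mul_le_mul_of_nonneg_left (min_le_right _ _) (by positivity)
        _ ≤ _ := by field_simp; linarith
    linarith [H.hE]
  set B₁ : Set (Fin n × Fin n → ℝ) := {A | ∃ b : Fin n → ℝ, ∑ i, b i ^ 2 = 1 ∧
    -ν + β ^ 2 / n * ∑ i, 1 / ((gt i)⁻¹ - c + -ν) + κ / 4
      < defQuad (β ^ 2) (fun i => (gt i)⁻¹ - c) A b}
  set s := κ / 8 * √n / (√2 * β)
  set B₂ : Set (Fin n × Fin n → ℝ) := ⋃ i : Fin n, {A | s < |A (i, i)|}
  set S : Set (Fin n × Fin n → ℝ) := (Dom β (lam β) θ c g)ᶜ ∩ Ev β n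
  have hsub : symmArray ⁻¹' S ⊆ B₁ ∪ B₂ := by
    rintro A ⟨hA, hop⟩
    by_contra hc'
    simp only [Set.mem_union, not_or, B₂, Set.mem_iUnion, not_exists, Set.mem_ofPred_eq,
      not_lt] at hc'
    obtain ⟨hb1, hb2⟩ := hc'
    have hJ : OpLe (lam β) (Matrix.of (skCoupling β (symmArray A))) :=
      opLe_of_act (zero_le_one.trans (one_le_radSq β)) hop
    refine hA ⟨skCoupling_symm β _, hJ, ?_⟩
    refine OpBound.mono (g := gt) (c := c) ?_ hθ1 (fun i => le_max_left _ _) le_rfl
    intro b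
    set y : Fin n → ℝ := fun i => √(gt i) * b i
    set Y := ∑ i, y i ^ 2
    set Bq := ∑ i, b i ^ 2
    have hY0 : 0 ≤ Y := sum_nonneg fun i _ => sq_nonneg _
    have hBy : ∑ i, (gt i)⁻¹ * y i ^ 2 = Bq := sum_congr rfl fun i _ => by
      simp only [y]
      rw [mul_pow, sq_sqrt (hgt i).le, ← mul_assoc, inv_mul_cancel₀ (hgt i).ne', one_mul]
    have hq1 : shiftQ c (skCoupling β (symmArray A)) y ≤ D * Y := by
      have h1 := sum_mul_le_sqrt_mul_sqrt univ y fun i => act (skCoupling β (symmArray A)) y i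
      have h2 := mul_le_mul_of_nonneg_left (hJ.sqrt_le y) (sqrt_nonneg Y)
      have h3 : c * Y ≤ 2 / κ * Y := mul_le_mul_of_nonneg_right
        ((le_abs_self c).trans ((le_div_iff₀ hκ).2 hc)) hY0
      have h4 : √Y * √Y = Y := mul_self_sqrt hY0
      have h5 : ∀ i, (Matrix.of (skCoupling β (symmArray A)) *ᵥ y) i
          = act (skCoupling β (symmArray A)) y i := fun i => rfl
      simp only [h5] at h2
      have h6 : √Y * (lam β * √Y) = lam β * Y := by rw [mul_left_comm, h4]
      change (∑ i, y i * act (skCoupling β (symmArray A)) y i) + c * Y ≤ (lam β + 2 / κ) * Y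
      linarith
    have hq2 : shiftQ c (skCoupling β (symmArray A)) y ≤ Bq - κ / 8 * Y := by
      rcases hY0.eq_or_lt with hY | hY
      · have hz : ∀ i, y i = 0 := fun i => pow_eq_zero_iff two_ne_zero |>.1
          ((sum_eq_zero_iff_of_nonneg fun i _ => sq_nonneg (y i)).1 hY.symm i (mem_univ i))
        rw [← hY, mul_zero, sub_zero]
        simp [shiftQ, hz]
        positivity
      set u : Fin n → ℝ := fun i => y i / √Y
      have hu : ∑ i, u i ^ 2 = 1 := by
        simp only [u, div_pow, sq_sqrt hY.le, ← sum_div]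
        exact div_self hY.ne'
      have hedge : defQuad (β ^ 2) (fun i => (gt i)⁻¹ - c) A u ≤ -(κ / 4) := by
        by_contra h
        push Not at h
        exact hb1 ⟨u, hu, by linarith⟩
      have hdq : defQuad (β ^ 2) (fun i => (gt i)⁻¹ - c) A u * Y
          = √(2 * β ^ 2 / n) * (∑ p : Fin n × Fin n, y p.1 * y p.2 * A p) - Bq + c * Y := by
        have e : √Y * √Y = Y := mul_self_sqrt hY.le
        have e1 : ∀ p : Fin n × Fin n, √(2 * β ^ 2 / n) * (u p.1 * u p.2) * A p * Y
            = √(2 * β ^ 2 / n) * (y p.1 * y p.2 * A p) := fun p => by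
          simp only [u]
          rw [div_mul_div_comm, e]
          field_simp
        have e2 : ∀ i, ((gt i)⁻¹ - c) * u i ^ 2 * Y = (gt i)⁻¹ * y i ^ 2 - c * y i ^ 2 := fun i => by
          simp only [u]
          rw [div_pow, sq_sqrt hY.le]
          field_simp
        rw [defQuad, add_mul, neg_mul, sum_mul, sum_mul]
        simp only [e1, e2, sum_sub_distrib, ← mul_sum, hBy]
        ring
      have hdiag : -(√(2 * β ^ 2 / n) * ∑ i, A (i, i) * y i ^ 2) ≤ κ / 8 * Y := by
        rw [← mul_neg, ← sum_neg_distrib, mul_sum, mul_sum]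
        refine sum_le_sum fun i _ => ?_
        have h1 : -A (i, i) ≤ s := (neg_le_abs _).trans (hb2 i)
        have e0 : √(2 * β ^ 2 / n) * s = κ / 8 := by
          rw [sqrt_div (by positivity), sqrt_mul (by norm_num), sqrt_sq hβ.le]
          simp only [s]
          field_simp
        calc √(2 * β ^ 2 / n) * -(A (i, i) * y i ^ 2)
            = √(2 * β ^ 2 / n) * -A (i, i) * y i ^ 2 := by ring
          _ ≤ √(2 * β ^ 2 / n) * s * y i ^ 2 := mul_le_mul_of_nonneg_right
              (mul_le_mul_of_nonneg_left h1 (sqrt_nonneg _)) (sq_nonneg _)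
          _ = _ := by rw [e0]
      have h5 := mul_le_mul_of_nonneg_right hedge hY.le
      rw [shiftQ, coupling_quad hβ.le, mul_sub]
      linarith
    have hh := add_le_add (mul_le_mul_of_nonneg_left hq2 (show 0 ≤ 1 - θ by linarith))
      (mul_le_mul_of_nonneg_left hq1 hθ0.le)
    have hz : (1 - θ) * (κ / 8) = θ * D := by
      rw [hθ]
      field_simp
      ring
    have hzY : (1 - θ) * (κ / 8 * Y) = θ * (D * Y) := by rw [← mul_assoc, hz, mul_assoc]
    linarith
  have hS : MeasurableSet S :=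
    (measurableSet_dom _ _ _ _ _).compl.inter (Words.measurableSet_ev β n)
  have hinv : ∀ x : Fin n × Fin n → ℝ,
      extendUpper (fun p : UpperPairs n => x p.1) ∈ S ↔ x ∈ S := fun x => by
    simp only [S, Dom, Words.Ev, Set.mem_inter_iff, Set.mem_compl_iff, Set.mem_ofPred_eq,
      skCoupling_extendUpper]
  set μ := gauss (Fin n × Fin n)
  have hb : μ.real B₁ ≤ exp (-(a * n)) := by
    have h := edge_tail hn (show 0 < β ^ 2 by positivity) (fun i => (gt i)⁻¹ - c) (μ := -ν)
      (fun i => by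
        have := hgt i
        have h1 := (hsite i).1
        rw [show (gt i)⁻¹ - c + -ν = (1 - (c + ν) * gt i) / gt i by field_simp; ring]
        positivity) (r := κ / 4) (by positivity)
    refine (ENNReal.toReal_le_of_le_ofReal (exp_pos _).le h).trans (exp_le_exp.2 ?_)
    have := mul_le_mul_of_nonneg_right
      ((min_le_right _ _).trans (min_le_left _ _) : a ≤ (κ / 4) ^ 2 / (8 * β ^ 2)) hn'.le
    rw [neg_le_neg_iff]
    refine this.trans (le_of_eq ?_)
    ring
  have hb' : μ.real B₂ ≤ n * (2 * exp (-(a * n))) := by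
    refine (measureReal_iUnion_fintype_le _).trans ?_
    refine (sum_le_sum fun i _ => (ENNReal.toReal_le_of_le_ofReal (by positivity)
      (gauss_coord_tail (i, i) (show 0 ≤ s by positivity))).trans
      (show _ ≤ 2 * exp (-(a * n)) from ?_)).trans_eq (by simp)
    refine mul_le_mul_of_nonneg_left (exp_le_exp.2 ?_) two_pos.le
    have := mul_le_mul_of_nonneg_right
      ((min_le_right _ _).trans (min_le_right _ _) : a ≤ (κ / 8) ^ 2 / (8 * β ^ 2)) hn'.le
    rw [neg_div, neg_le_neg_iff]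
    refine this.trans (le_of_eq ?_)
    simp only [s]
    rw [show (κ / 8 * √n / (√2 * β)) ^ 2 = (κ / 8) ^ 2 * √n ^ 2 / (√2 ^ 2 * β ^ 2) by ring,
      sq_sqrt hn'.le, sq_sqrt (by norm_num)]
    ring
  have hEv : μ.real (Ev β n)ᶜ ≤ exp (-(a * n)) :=
    (gauss_ev_compl β hn).trans (exp_le_exp.2 (by
      linarith [mul_le_mul_of_nonneg_right (min_le_left _ _ : a ≤ 2) hn'.le]))
  have hcover : (Dom β (lam β) θ c g)ᶜ ⊆ S ∪ (Ev β n)ᶜ := fun x hx => by
    by_cases hxE : x ∈ Ev β n
    · exact Or.inl ⟨hx, hxE⟩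
    · exact Or.inr hxE
  refine (measureReal_mono hcover).trans ((measureReal_union_le _ _).trans ?_)
  have hSe : μ.real S = μ.real (symmArray ⁻¹' S) := by
    rw [measureReal_def, measureReal_def, gauss_symmArray hS hinv]
  rw [hSe]
  have := (measureReal_mono (μ := μ) hsub).trans (measureReal_union_le _ _)
  linarith

/-- A small move of one array entry stays in the slightly larger region. -/
lemma dom_shift {β Λ κ κ' c Γ t : ℝ} {g : Fin n → ℝ} (hg : ∀ i, 0 ≤ g i) (hgΓ : ∀ i, g i ≤ Γ)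
    (hΓ : 0 ≤ Γ) (ht : 0 ≤ t) (h1 : √2 * |β| * t ≤ 1) (h2 : √2 * |β| * t * Γ ≤ κ - κ')
    (p : Fin n × Fin n) {x : Fin n × Fin n → ℝ} (hx : x ∈ Dom β Λ κ c g) :
    update x p (x p + t) ∈ Dom β (Λ + 1) κ' c g := by
  set x' := update x p (x p + t)
  set E : Matrix (Fin n) (Fin n) ℝ :=
    Matrix.of (skCoupling β x') - Matrix.of (skCoupling β x) with hEdef
  have hs : √2 * |β| / √n * t ≤ √2 * |β| * t := by
    refine mul_le_mul_of_nonneg_right (div_le_self (by positivity) ?_) ht
    exact one_le_sqrt.2 (Nat.one_le_cast.2 (Fin.pos p.1))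
  have hfrob : frob E ≤ √2 * |β| * t := by
    refine (frob_coupling_sub β x x').trans (le_trans (le_of_eq ?_) hs)
    congr 1
    rw [dist2, sum_eq_single p (fun q _ hq => by simp [x', hq]) (by simp)]
    simp [x', sqrt_sq ht]
  have hE : OpLe (√2 * |β| * t) E := by
    refine ⟨by positivity, fun a => ?_⟩
    refine le_trans ?_ (mul_le_mul_of_nonneg_right
      (pow_le_pow_left₀ (frob_nonneg E) hfrob 2) (sum_nonneg fun i _ => sq_nonneg _))
    rw [frob_sq, sum_mul]
    exact sum_le_sum fun i _ => sum_mul_sq_le_sq_mul_sq univ (fun j => E i j) a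
  have hadd : Matrix.of (skCoupling β x') = Matrix.of (skCoupling β x) + E := by
    rw [hEdef, add_sub_cancel]
  refine ⟨skCoupling_symm β x', ?_, fun a => ?_⟩
  · rw [hadd]
    exact ((hx.2.1).add hE).mono (by linarith)
  set y : Fin n → ℝ := fun i => √(g i) * a i
  have hq : shiftQ c (skCoupling β x') y
      = shiftQ c (skCoupling β x) y + ∑ i, y i * (E *ᵥ y) i := by
    have e : ∀ i, act (skCoupling β x') y i = act (skCoupling β x) y i + (E *ᵥ y) i := fun i => by
      have := congrFun (congrArg (fun M : Matrix (Fin n) (Fin n) ℝ => M *ᵥ y) hadd) i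
      rw [Matrix.add_mulVec] at this
      exact this
    simp only [shiftQ, e, mul_add, sum_add_distrib]
    ring
  have hb : ∑ i, y i * (E *ᵥ y) i ≤ √2 * |β| * t * Γ * ∑ i, a i ^ 2 := by
    refine (sum_mul_le_sqrt_mul_sqrt univ y _).trans ?_
    refine (mul_le_mul_of_nonneg_left (hE.sqrt_le y) (sqrt_nonneg _)).trans ?_
    rw [mul_left_comm, mul_self_sqrt (sum_nonneg fun i _ => sq_nonneg _), mul_assoc _ Γ, mul_sum _ _ Γ]
    refine mul_le_mul_of_nonneg_left (sum_le_sum fun i _ => ?_) (by positivity)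
    simp only [y, mul_pow, sq_sqrt (hg i)]
    exact mul_le_mul_of_nonneg_right (hgΓ i) (sq_nonneg _)
  have h3 := mul_le_mul_of_nonneg_right h2 (sum_nonneg fun i (_ : i ∈ univ) => sq_nonneg (a i))
  have h4 := hx.2.2 a
  rw [hq]
  linarith

end Vale.Agent.P150.Beta1
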