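import Vale.Agent.P150.Beta1.Resolvent.Defs

/-!
# The fixed point of the free self-energy

Convexity of the self-energy below the edge gives the fixed point, its uniqueness in quantitative
form, and Lipschitz dependence of the free diagonal on `g` and `c`.
-/

namespace Vale.Agent.P150.Beta1

open Finset Real

variable {ι : Type*} [Fintype ι]

/-- An edge point `ν` with margin `κ` for the parameters `c` and `g`. -/
structure EdgeAt (τ c κ : ℝ) (g : ι → ℝ) (ν : ℝ) : Prop where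
  hτ : 0 ≤ τ
  hκ : 0 < κ
  hg : ∀ i, 0 ≤ g i
  hgκ : ∀ i, g i * κ ≤ 1
  hcν : (c + ν) * κ ≤ 2
  hνκ : ν * κ ≤ 1
  hd : ∀ i, (c + ν) * g i < 1
  hE : selfEnergy τ c g ν ≤ ν - κ

lemma avg_le_avg {a b : ι → ℝ} (h : ∀ i, a i ≤ b i) : avg a ≤ avg b :=
  div_le_div_of_nonneg_right (sum_le_sum fun i _ => h i) (Nat.cast_nonneg _)

lemma avg_nonneg {a : ι → ℝ} (h : ∀ i, 0 ≤ a i) : 0 ≤ avg a :=
  div_nonneg (sum_nonneg fun i _ => h i) (Nat.cast_nonneg _)

lemma abs_avg_le_forall {a : ι → ℝ} {b : ℝ} (h : ∀ i, |a i| ≤ b) (hb : 0 ≤ b) : |avg a| ≤ b := by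
  unfold avg
  rcases (Fintype.card ι).eq_zero_or_pos with h0 | h0
  · simp [h0, hb]
  rw [abs_div, abs_of_pos (show (0:ℝ) < Fintype.card ι by exact_mod_cast h0),
    div_le_iff₀ (by exact_mod_cast h0)]
  refine (abs_sum_le_sum_abs _ _).trans ?_
  calc ∑ i, |a i| ≤ ∑ _i : ι, b := sum_le_sum fun i _ => h i
    _ = _ := by simp [mul_comm]

lemma avg_sub (a b : ι → ℝ) : avg (fun i => a i - b i) = avg a - avg b := by
  simp [avg, sum_sub_distrib, sub_div]

/-- The site function of the self-energy is convex below its pole. -/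
lemma site_convex {g c x y z : ℝ} (hg : 0 ≤ g) (hxy : x ≤ y) (hyz : y ≤ z)
    (hz : (c + z) * g < 1) :
    (z - x) * (g / (1 - (c + y) * g))
      ≤ (z - y) * (g / (1 - (c + x) * g)) + (y - x) * (g / (1 - (c + z) * g)) := by
  set X := 1 - (c + x) * g with hX
  set Y := 1 - (c + y) * g with hY
  set Z := 1 - (c + z) * g with hZ
  have hZ0 : 0 < Z := by linarith
  have h1 : Z ≤ Y := by
    have := mul_le_mul_of_nonneg_right hyz hg
    linarith
  have h2 : Y ≤ X := by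
    have := mul_le_mul_of_nonneg_right hxy hg
    linarith
  have hY0 : 0 < Y := hZ0.trans_le h1
  have hX0 : 0 < X := hY0.trans_le h2
  have e : (z - y) * (g / X) + (y - x) * (g / Z) - (z - x) * (g / Y)
      = g ^ 3 * ((y - x) * (z - y) * (z - x)) / (X * Y * Z) := by
    field_simp
    simp only [hX, hY, hZ]
    ring
  have h3 : 0 ≤ g ^ 3 * ((y - x) * (z - y) * (z - x)) / (X * Y * Z) := by
    refine div_nonneg (mul_nonneg (pow_nonneg hg 3) ?_) (by positivity)
    exact mul_nonneg (mul_nonneg (by linarith) (by linarith)) (by linarith)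
  linarith

namespace EdgeAt

variable {τ c κ ν : ℝ} {g : ι → ℝ} (H : EdgeAt τ c κ g ν)

include H

lemma adm {s : ℝ} (hs : s ≤ ν) (i : ι) : (c + s) * g i < 1 :=
  lt_of_le_of_lt (mul_le_mul_of_nonneg_right (by linarith) (H.hg i)) (H.hd i)

lemma den_pos {s : ℝ} (hs : s ≤ ν) (i : ι) : 0 < 1 - (c + s) * g i := by
  linarith [H.adm hs i]

lemma energy_nonneg {s : ℝ} (hs : s ≤ ν) : 0 ≤ selfEnergy τ c g s :=
  mul_nonneg H.hτ (avg_nonneg fun i => div_nonneg (H.hg i) (H.den_pos hs i).le)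

lemma energy_mono {s t : ℝ} (hst : s ≤ t) (ht : t ≤ ν) :
    selfEnergy τ c g s ≤ selfEnergy τ c g t := by
  refine mul_le_mul_of_nonneg_left (avg_le_avg fun i => ?_) H.hτ
  refine div_le_div_of_nonneg_left (H.hg i) (H.den_pos ht i) ?_
  have := mul_le_mul_of_nonneg_right hst (H.hg i)
  linarith

lemma energy_convex {x y z : ℝ} (hxy : x ≤ y) (hyz : y ≤ z) (hz : z ≤ ν) :
    (z - x) * selfEnergy τ c g y
      ≤ (z - y) * selfEnergy τ c g x + (y - x) * selfEnergy τ c g z := by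
  have h : (z - x) * avg (fun i => g i / (1 - (c + y) * g i))
      ≤ (z - y) * avg (fun i => g i / (1 - (c + x) * g i))
        + (y - x) * avg (fun i => g i / (1 - (c + z) * g i)) := by
    simp only [avg, ← mul_div_assoc, mul_sum, ← add_div, ← sum_add_distrib]
    refine div_le_div_of_nonneg_right (sum_le_sum fun i _ => ?_) (Nat.cast_nonneg _)
    simpa only [mul_div_assoc] using site_convex (H.hg i) hxy hyz (H.adm hz i)
  have := mul_le_mul_of_nonneg_left h H.hτ
  simp only [selfEnergy]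
  linarith

lemma kappa_le_nu : κ ≤ ν := by
  linarith [H.energy_nonneg (le_refl ν), H.hE]

lemma kappa_le_one : κ ≤ 1 := by
  by_contra h
  have h1 := mul_le_mul_of_nonneg_right H.kappa_le_nu H.hκ.le
  nlinarith [H.hνκ, not_le.1 h]

lemma sigma_mem_aux : ν - κ ∈
    {s : ℝ | 0 ≤ s ∧ (∀ i, (c + s) * g i < 1) ∧ selfEnergy τ c g s ≤ s} := by
  refine ⟨by linarith [H.kappa_le_nu], fun i => H.adm (by linarith [H.hκ]) i, ?_⟩
  exact (H.energy_mono (by linarith [H.hκ]) (le_refl ν)).trans H.hE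

lemma sigma_nonneg : 0 ≤ freeSigma τ c g :=
  le_csInf ⟨_, H.sigma_mem_aux⟩ fun _ hs => hs.1

lemma sigma_le : freeSigma τ c g ≤ ν - κ :=
  csInf_le ⟨0, fun _ hs => hs.1⟩ H.sigma_mem_aux

lemma sigma_le_nu : freeSigma τ c g ≤ ν := by linarith [H.sigma_le, H.hκ]

/-- The least super-solution is the fixed point. -/
lemma sigma_eq : selfEnergy τ c g (freeSigma τ c g) = freeSigma τ c g := by
  set σ := freeSigma τ c g
  have h1 : selfEnergy τ c g σ ≤ σ := by
    refine le_csInf ⟨_, H.sigma_mem_aux⟩ fun s hs => ?_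
    rcases le_or_gt s ν with hsν | hsν
    · exact (H.energy_mono (csInf_le ⟨0, fun _ hs => hs.1⟩ hs) hsν).trans hs.2.2
    · linarith [H.energy_mono H.sigma_le_nu (le_refl ν), H.hE, H.hκ]
  refine le_antisymm h1 ?_
  have hσ := H.sigma_le_nu
  have hm : selfEnergy τ c g σ ∈
      {s : ℝ | 0 ≤ s ∧ (∀ i, (c + s) * g i < 1) ∧ selfEnergy τ c g s ≤ s} :=
    ⟨H.energy_nonneg hσ, fun i => H.adm (h1.trans hσ) i, H.energy_mono h1 hσ⟩
  exact csInf_le ⟨0, fun _ hs => hs.1⟩ hm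

/-- Every approximate fixed point below the edge is near the fixed point. -/
lemma sigma_stable {s : ℝ} (hs : s ≤ ν) :
    κ * |s - freeSigma τ c g| ≤ ν * |selfEnergy τ c g s - s| := by
  set σ := freeSigma τ c g
  have hσ := H.sigma_le_nu
  have hσ0 : 0 ≤ σ := H.sigma_nonneg
  have hE := H.hE
  have hfix : selfEnergy τ c g σ = σ := H.sigma_eq
  have hb : (ν - σ) * |selfEnergy τ c g s - s| ≤ ν * |selfEnergy τ c g s - s| :=
    mul_le_mul_of_nonneg_right (by linarith) (abs_nonneg _)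
  rcases le_or_gt σ s with h | h
  · have h1 := H.energy_convex h hs (le_refl ν)
    rw [hfix] at h1
    have h2 : (s - σ) * selfEnergy τ c g ν ≤ (s - σ) * (ν - κ) :=
      mul_le_mul_of_nonneg_left hE (by linarith)
    have h3 : (ν - σ) * (s - selfEnergy τ c g s) ≤ (ν - σ) * |selfEnergy τ c g s - s| :=
      mul_le_mul_of_nonneg_left (by rw [abs_sub_comm]; exact le_abs_self _) (by linarith)
    rw [abs_of_nonneg (by linarith : (0:ℝ) ≤ s - σ)]
    linarith
  · have h1 := H.energy_convex h.le hσ (le_refl ν)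
    rw [hfix] at h1
    have h2 : (σ - s) * selfEnergy τ c g ν ≤ (σ - s) * (ν - κ) :=
      mul_le_mul_of_nonneg_left hE (by linarith)
    have h3 : (ν - σ) * (selfEnergy τ c g s - s) ≤ (ν - σ) * |selfEnergy τ c g s - s| :=
      mul_le_mul_of_nonneg_left (le_abs_self _) (by linarith)
    rw [abs_of_neg (by linarith : s - σ < 0)]
    linarith

lemma den_ge {s : ℝ} (hs : s ≤ ν - κ / 2) (i : ι) : κ ^ 2 / 8 ≤ 1 - (c + s) * g i := by
  have hκ := H.hκ
  have hκ1 := H.kappa_le_one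
  have hsq : κ ^ 2 ≤ 1 := pow_le_one₀ hκ.le hκ1
  rcases le_or_gt ((c + s) * g i) (1 / 2) with h | h
  · linarith
  have hd := H.hd i
  have h1 : κ / 2 * g i ≤ (ν - s) * g i :=
    mul_le_mul_of_nonneg_right (by linarith) (H.hg i)
  have h2 : (c + s) * g i * κ ≤ 2 * g i := by
    have h3 : (c + s) * κ ≤ 2 := le_trans
      (mul_le_mul_of_nonneg_right (by linarith) hκ.le) H.hcν
    calc (c + s) * g i * κ = (c + s) * κ * g i := by ring
      _ ≤ _ := mul_le_mul_of_nonneg_right h3 (H.hg i)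
  have h4 : 1 / 2 * κ ≤ (c + s) * g i * κ := mul_le_mul_of_nonneg_right h.le hκ.le
  nlinarith [mul_le_mul_of_nonneg_left (h4.trans h2) hκ.le]

lemma site_le {s : ℝ} (hs : s ≤ ν - κ / 2) (i : ι) :
    g i / (1 - (c + s) * g i) ≤ 8 / κ ^ 3 := by
  have hκ := H.hκ
  rw [div_le_div_iff₀ (H.den_pos (by linarith) i) (by positivity)]
  have h1 : g i * κ ^ 3 ≤ κ ^ 2 := by
    calc g i * κ ^ 3 = g i * κ * κ ^ 2 := by ring
      _ ≤ 1 * κ ^ 2 := mul_le_mul_of_nonneg_right (H.hgκ i) (sq_nonneg κ)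
      _ = κ ^ 2 := one_mul _
  linarith [H.den_ge hs i]

lemma G_nonneg (i : ι) : 0 ≤ freeG τ c g i :=
  div_nonneg (H.hg i) (H.den_pos H.sigma_le_nu i).le

lemma G_le (i : ι) : freeG τ c g i ≤ 8 / κ ^ 3 :=
  H.site_le (by linarith [H.sigma_le, H.hκ]) i

/-- `τ avg G = σ`. -/
lemma avg_G : τ * avg (freeG τ c g) = freeSigma τ c g := H.sigma_eq

/-- The defining equation of the free diagonal. -/
lemma G_eq (i : ι) : freeG τ c g i * (1 - (c + τ * avg (freeG τ c g)) * g i) = g i := by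
  rw [H.avg_G, freeG, div_mul_cancel₀ _ (H.den_pos H.sigma_le_nu i).ne']

end EdgeAt

/-- Comparison of the site functions at two parameters. -/
lemma site_sub {g g' u u' : ℝ} (h : 1 - u * g ≠ 0) (h' : 1 - u' * g' ≠ 0) :
    g / (1 - u * g) - g' / (1 - u' * g')
      = ((g - g') + (u - u') * (g * g')) / ((1 - u * g) * (1 - u' * g')) := by
  rw [div_sub_div _ _ h h']
  congr 1
  ring

/-- Lipschitz dependence of the site functions. -/
lemma site_sub_le {τ c c' κ ν s s' : ℝ} {g g' : ι → ℝ} (H : EdgeAt τ c κ g ν)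
    (H' : EdgeAt τ c' κ g' ν) (hs : s ≤ ν - κ / 2) (hs' : s' ≤ ν - κ / 2) {δ : ℝ} (i : ι)
    (hδ : |g i - g' i| ≤ δ) :
    |g i / (1 - (c + s) * g i) - g' i / (1 - (c' + s') * g' i)|
      ≤ 64 / κ ^ 6 * (δ + |c - c'| + |s - s'|) := by
  have hκ := H.hκ
  have d1 := H.den_ge hs i
  have d2 := H'.den_ge hs' i
  have p1 : 0 < 1 - (c + s) * g i := lt_of_lt_of_le (by positivity) d1
  have p2 : 0 < 1 - (c' + s') * g' i := lt_of_lt_of_le (by positivity) d2
  rw [site_sub p1.ne' p2.ne', abs_div, abs_of_pos (mul_pos p1 p2)]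
  have hgg : g i * g' i ≤ 1 / κ ^ 2 := by
    rw [le_div_iff₀ (by positivity)]
    calc g i * g' i * κ ^ 2 = (g i * κ) * (g' i * κ) := by ring
      _ ≤ 1 * 1 := mul_le_mul (H.hgκ i) (H'.hgκ i) (mul_nonneg (H'.hg i) hκ.le) zero_le_one
      _ = 1 := one_mul _
  have hone : 1 ≤ 1 / κ ^ 2 :=
    (le_div_iff₀ (by positivity)).2 (by rw [one_mul]; exact pow_le_one₀ hκ.le H.kappa_le_one)
  have hnum : |g i - g' i + (c + s - (c' + s')) * (g i * g' i)|
      ≤ 1 / κ ^ 2 * (δ + |c - c'| + |s - s'|) := by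
    have hδ0 : 0 ≤ δ := (abs_nonneg _).trans hδ
    have h1 : |c + s - (c' + s')| ≤ |c - c'| + |s - s'| := by
      rw [show c + s - (c' + s') = (c - c') + (s - s') by ring]
      exact abs_add_le _ _
    have h2 : |(c + s - (c' + s')) * (g i * g' i)| ≤ (|c - c'| + |s - s'|) * (1 / κ ^ 2) := by
      rw [abs_mul, abs_of_nonneg (mul_nonneg (H.hg i) (H'.hg i))]
      exact mul_le_mul h1 hgg (mul_nonneg (H.hg i) (H'.hg i)) (by positivity)
    have h3 : δ ≤ 1 / κ ^ 2 * δ := le_mul_of_one_le_left hδ0 hone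
    refine (abs_add_le _ _).trans ?_
    linarith
  have hden : κ ^ 4 / 64 ≤ (1 - (c + s) * g i) * (1 - (c' + s') * g' i) := by
    have := mul_le_mul d1 d2 (by positivity) p1.le
    linarith
  calc _ ≤ 1 / κ ^ 2 * (δ + |c - c'| + |s - s'|) / (κ ^ 4 / 64) :=
        div_le_div₀ ((abs_nonneg _).trans hnum) hnum (by positivity) hden
    _ = _ := by field_simp

/-- The free diagonal is Lipschitz in the parameters. -/
theorem freeG_sub_le {τ c c' κ ν : ℝ} {g g' : ι → ℝ} (H : EdgeAt τ c κ g ν)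
    (H' : EdgeAt τ c' κ g' ν) {δ : ℝ} (hδ : ∀ i, |g i - g' i| ≤ δ) (hδ0 : 0 ≤ δ) (i : ι) :
    |freeG τ c g i - freeG τ c' g' i|
      ≤ 64 / κ ^ 6 * (1 + ν / κ * τ * (64 / κ ^ 6)) * (δ + |c - c'|) := by
  have hκ := H.hκ
  set σ := freeSigma τ c g
  set σ' := freeSigma τ c' g'
  have hs : σ ≤ ν - κ / 2 := by linarith [H.sigma_le]
  have hs' : σ' ≤ ν - κ / 2 := by linarith [H'.sigma_le]
  have he : |selfEnergy τ c g σ' - σ'| ≤ τ * (64 / κ ^ 6 * (δ + |c - c'|)) := by
    have hfix : selfEnergy τ c' g' σ' = σ' := H'.sigma_eq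
    rw [show selfEnergy τ c g σ' - σ' = selfEnergy τ c g σ' - selfEnergy τ c' g' σ' by rw [hfix],
      selfEnergy, selfEnergy, ← mul_sub, ← avg_sub, abs_mul, abs_of_nonneg H.hτ]
    refine mul_le_mul_of_nonneg_left (abs_avg_le_forall (fun j => ?_) (by positivity)) H.hτ
    have := site_sub_le H H' hs' hs' j (hδ j)
    simpa using this
  have hσ : |σ - σ'| ≤ ν / κ * τ * (64 / κ ^ 6) * (δ + |c - c'|) := by
    have h1 := H.sigma_stable (s := σ') (by linarith)
    rw [abs_sub_comm] at h1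
    have h2 := mul_le_mul_of_nonneg_left he (hκ.le.trans H.kappa_le_nu)
    rw [show ν / κ * τ * (64 / κ ^ 6) * (δ + |c - c'|)
      = ν * (τ * (64 / κ ^ 6 * (δ + |c - c'|))) / κ by ring, le_div_iff₀ hκ]
    linarith
  refine (site_sub_le H H' hs hs' i (hδ i)).trans ?_
  rw [mul_assoc]
  refine mul_le_mul_of_nonneg_left ?_ (by positivity)
  linarith

end Vale.Agent.P150.Beta1
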