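import Vale.Agent.P150.Beta1.Resolvent.Tail

/-!
# Dyadic rounding of the parameters and the chaining step
-/

namespace Vale.Agent.P150.Beta1

open MeasureTheory ProbabilityTheory Finset Real Function Matrix RN

variable {n : ℕ}

/-- Parameters of a resolvent word of a given length. -/
structure Par (n len : ℕ) where
  c : ℝ
  g : Fin n → ℝ
  w : Fin (len + 1) → Fin n → ℝ

variable {len : ℕ}

/-- The word of a parameter times its resolvent. -/
noncomputable def Par.word (θ : Par n len) (J : Fin n → Fin n → ℝ) : Matrix (Fin n) (Fin n) ℝ :=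
  wordMat J (θ.w 0) (List.ofFn fun a : Fin len => θ.w a.succ) * res θ.c J θ.g

/-- Parameters to which the concentration applies. -/
def Par.Valid (β κ : ℝ) (θ : Par n len) : Prop :=
  (∃ ν, EdgeAt (β ^ 2) θ.c κ θ.g ν) ∧ |θ.c| * κ ≤ 2 ∧ ∀ a i, |θ.w a i| ≤ 1

/-- Rounding down to the dyadic grid of level `p`. -/
noncomputable def rnd (p : ℕ) (u : ℝ) : ℝ := ⌊u * 2 ^ p⌋ / 2 ^ p

/-- Rounding of all the parameters. -/
noncomputable def Par.rnd (p : ℕ) (θ : Par n len) : Par n len :=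
  ⟨Beta1.rnd p θ.c, fun i => Beta1.rnd p (θ.g i), fun a i => Beta1.rnd p (θ.w a i)⟩

lemma rnd_le (p : ℕ) (u : ℝ) : rnd p u ≤ u := by
  rw [rnd, div_le_iff₀ (by positivity)]
  exact Int.floor_le _

lemma lt_rnd_add (p : ℕ) (u : ℝ) : u - (1 / 2) ^ p < rnd p u := by
  rw [rnd, lt_div_iff₀ (by positivity), sub_mul, ← mul_pow]
  norm_num

lemma abs_sub_rnd (p : ℕ) (u : ℝ) : |u - rnd p u| ≤ (1 / 2) ^ p := by
  rw [abs_le]
  have := rnd_le p u
  have := lt_rnd_add p u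
  have : 0 ≤ (1 / 2 : ℝ) ^ p := by positivity
  constructor <;> linarith

lemma rnd_nonneg (p : ℕ) {u : ℝ} (hu : 0 ≤ u) : 0 ≤ rnd p u :=
  div_nonneg (by exact_mod_cast Int.floor_nonneg.2 (mul_nonneg hu (by positivity))) (by positivity)

lemma abs_rnd_le (p : ℕ) {u : ℝ} (hu : |u| ≤ 1) : |rnd p u| ≤ 1 := by
  obtain ⟨h1, h2⟩ := abs_le.1 hu
  refine abs_le.2 ⟨?_, (rnd_le p u).trans h2⟩
  rw [rnd, le_div_iff₀ (by positivity)]
  have h : ((-(2 ^ p) : ℤ)) ≤ ⌊u * 2 ^ p⌋ := by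
    rw [Int.le_floor]
    push_cast
    have := mul_le_mul_of_nonneg_right h1 (show (0:ℝ) ≤ 2 ^ p by positivity)
    linarith
  have h' : ((-(2 ^ p) : ℤ) : ℝ) ≤ (⌊u * 2 ^ p⌋ : ℝ) := Int.cast_le.2 h
  push_cast at h'
  linarith

lemma abs_rnd_le_add (p : ℕ) (u : ℝ) : |rnd p u| ≤ |u| + 1 := by
  have h := abs_sub_rnd p u
  have h2 : (1 / 2 : ℝ) ^ p ≤ 1 := pow_le_one₀ (by norm_num) (by norm_num)
  have h3 := abs_sub_abs_le_abs_sub (rnd p u) u
  rw [abs_sub_comm] at h3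
  linarith

lemma rnd_rnd (p : ℕ) (u : ℝ) : rnd p (rnd (p + 1) u) = rnd p u := by
  have e : rnd (p + 1) u * 2 ^ p = (⌊u * 2 ^ p * 2⌋ : ℝ) / 2 := by
    rw [rnd, pow_succ, mul_assoc u]
    field_simp
  unfold rnd at e ⊢
  rw [e]
  congr 2
  set v := u * 2 ^ p
  refine Int.floor_eq_iff.2 ⟨?_, ?_⟩
  · rw [le_div_iff₀ two_pos]
    have h : (2 * ⌊v⌋ : ℤ) ≤ ⌊v * 2⌋ := by
      rw [Int.le_floor]
      push_cast
      linarith [Int.floor_le v]
    have h' : ((2 * ⌊v⌋ : ℤ) : ℝ) ≤ (⌊v * 2⌋ : ℝ) := Int.cast_le.2 h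
    push_cast at h'
    linarith
  · rw [div_lt_iff₀ two_pos]
    linarith [Int.floor_le (v * 2), Int.lt_floor_add_one v]

lemma Par.rnd_rnd (p : ℕ) (θ : Par n len) : (θ.rnd (p + 1)).rnd p = θ.rnd p := by
  simp only [Par.rnd, Beta1.rnd_rnd]

/-- Rounding keeps validity. -/
lemma Par.valid_rnd {β κ : ℝ} (p : ℕ) {θ : Par n len} (hv : θ.Valid β κ) (hc : |θ.c| * κ ≤ 1) :
    (θ.rnd p).Valid β κ := by
  obtain ⟨⟨ν, E⟩, -, hw⟩ := hv
  refine ⟨⟨ν, E.mono (fun i => rnd_nonneg p (E.hg i)) (fun i => rnd_le p _) (rnd_le p _)⟩, ?_,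
    fun a i => abs_rnd_le p (hw a i)⟩
  have h := mul_le_mul_of_nonneg_right (abs_rnd_le_add p θ.c) E.hκ.le
  simp only [Par.rnd]
  linarith [E.kappa_le_one]

/-- Finite index of a grid level. -/
abbrev GridIdx (n len N : ℕ) :=
  Fin N × (Fin n → Fin N) × (Fin (len + 1) → Fin n → Fin N)

/-- The grid point of an index. -/
noncomputable def decode (R p : ℕ) {N : ℕ} (z : GridIdx n len N) : Par n len :=
  ⟨(((z.1 : ℕ) : ℝ) - R * 2 ^ p) / 2 ^ p, fun i => (((z.2.1 i : ℕ) : ℝ) - R * 2 ^ p) / 2 ^ p,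
    fun a i => (((z.2.2 a i : ℕ) : ℝ) - R * 2 ^ p) / 2 ^ p⟩

lemma exists_code (R p : ℕ) {u : ℝ} (hu : |u| ≤ R) :
    ∃ v : Fin (2 * R * 2 ^ p + 1), (((v : ℕ) : ℝ) - R * 2 ^ p) / 2 ^ p = rnd p u := by
  set F := ⌊u * 2 ^ p⌋
  obtain ⟨h1, h2⟩ := abs_le.1 hu
  have h2p : (0:ℝ) ≤ 2 ^ p := by positivity
  have hlo : (-(R * 2 ^ p) : ℤ) ≤ F := by
    rw [Int.le_floor]
    push_cast
    linarith [mul_le_mul_of_nonneg_right h1 h2p]
  have hhi : F ≤ (R * 2 ^ p : ℤ) := by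
    have h := (Int.floor_le (u * 2 ^ p)).trans (mul_le_mul_of_nonneg_right h2 h2p)
    have h' : (F : ℝ) ≤ (((R : ℤ) * 2 ^ p : ℤ) : ℝ) := by push_cast; exact h
    exact Int.cast_le.1 h'
  obtain ⟨k, hk⟩ := Int.eq_ofNat_of_zero_le (show 0 ≤ F + R * 2 ^ p by linarith)
  have hk2 : (k : ℤ) ≤ ((2 * R * 2 ^ p : ℕ) : ℤ) := by push_cast; linarith
  refine ⟨⟨k, by omega⟩, ?_⟩
  have hk' : (F : ℝ) + R * 2 ^ p = (k : ℝ) := by
    have := congrArg (fun z : ℤ => (z : ℝ)) hk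
    push_cast at this
    exact this
  simp only [rnd]
  rw [← hk', add_sub_cancel_right]

lemma exists_decode (R p : ℕ) {θ : Par n len} (hc : |θ.c| ≤ R) (hg : ∀ i, |θ.g i| ≤ R)
    (hw : ∀ a i, |θ.w a i| ≤ R) :
    ∃ z : GridIdx n len (2 * R * 2 ^ p + 1), decode R p z = θ.rnd p := by
  obtain ⟨zc, hzc⟩ := exists_code R p hc
  choose zg hzg using fun i => exists_code R p (hg i)
  choose zw hzw using fun a i => exists_code R p (hw a i)
  refine ⟨(zc, zg, zw), ?_⟩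
  simp only [decode, Par.rnd, hzc, hzg, hzw]

/-- The exponential rate that beats the size of a grid level. -/
noncomputable def gridRate (m R p : ℕ) : ℝ := ((m : ℝ) + 3) * (3 * R + p + 1) + 3

lemma grid_union_le {m R p : ℕ} (hlen : len ≤ m) (hn : 1 ≤ n) :
    (Fintype.card (GridIdx n len (2 * R * 2 ^ p + 1)) : ℝ)
      * (2 * exp (-(gridRate m R p * n))) ≤ 2 * exp (-(3 * (n:ℝ))) := by
  set N := 2 * R * 2 ^ p + 1
  have hN : (N : ℝ) ≤ exp (3 * R + p + 1) := by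
    have h1 : (N : ℝ) ≤ (2 * R + 1 : ℝ) * 2 ^ p := by
      simp only [N]
      push_cast
      nlinarith [one_le_pow₀ (M₀ := ℝ) one_le_two (n := p)]
    have h2 : (2 * R + 1 : ℝ) ≤ exp (3 * R + 1) := by
      linarith [add_one_le_exp (3 * (R:ℝ) + 1), (Nat.cast_nonneg R : (0:ℝ) ≤ R)]
    have h3 : (2:ℝ) ^ p ≤ exp p := by
      rw [← mul_one (p:ℝ), exp_nat_mul]
      exact pow_le_pow_left₀ two_pos.le (by linarith [add_one_le_exp (1:ℝ)]) p
    refine h1.trans ((mul_le_mul h2 h3 (by positivity) (exp_pos _).le).trans (le_of_eq ?_))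
    rw [← exp_add]
    ring_nf
  have hcard : (Fintype.card (GridIdx n len N) : ℝ) ≤ exp (3 * R + p + 1) ^ ((m + 3) * n) := by
    simp only [Fintype.card_prod, Fintype.card_fun, Fintype.card_fin]
    push_cast
    rw [← pow_mul, ← pow_add, ← pow_succ']
    refine (pow_le_pow_right₀ (show (1:ℝ) ≤ N by simp [N]) ?_).trans
      (pow_le_pow_left₀ (Nat.cast_nonneg N) hN _)
    nlinarith
  refine (mul_le_mul_of_nonneg_right hcard (by positivity)).trans (le_of_eq ?_)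
  rw [← exp_nat_mul, mul_left_comm, ← exp_add, gridRate]
  push_cast
  ring_nf

/-- Sums of geometrically weighted linear terms. -/
lemma sum_geom_linear {K q : ℝ} (hK : 0 ≤ K) (hq : 0 ≤ q) (N : ℕ) :
    ∑ p ∈ range N, (1 / 2 : ℝ) ^ p * (K + q * p) ≤ 2 * K + 2 * q := by
  suffices h : ∑ p ∈ range N, (1 / 2 : ℝ) ^ p * (K + q * p)
      = 2 * K + 2 * q - (1 / 2 : ℝ) ^ N * (2 * K + 2 * q * (N + 1)) by
    rw [h]
    linarith [show 0 ≤ (1 / 2 : ℝ) ^ N * (2 * K + 2 * q * (N + 1)) by positivity]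
  induction N with
  | zero => simp
  | succ N ih =>
    rw [sum_range_succ, ih, pow_succ]
    push_cast
    ring

end Vale.Agent.P150.Beta1
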