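import Vale.Agent.P150.Beta1.Resolvent.Split
import Vale.Agent.P150.Beta1.Algebra.Fock

/-!
# The centres of resolvent words are their free values

The resolvent itself is identified by continuity along `t • g`, the words by induction on the
number of couplings.
-/

namespace Vale.Agent.P150.Beta1

open MeasureTheory ProbabilityTheory Finset Real Function Matrix RN
open Words (LipOn dist2)

lemma EdgeAt.mono {ι : Type*} [Fintype ι] {τ c c' κ ν : ℝ} {g g' : ι → ℝ}
    (H : EdgeAt τ c κ g ν) (hg : ∀ i, 0 ≤ g' i) (hle : ∀ i, g' i ≤ g i) (hc : c' ≤ c) :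
    EdgeAt τ c' κ g' ν := by
  have hd : ∀ i, (c' + ν) * g' i < 1 := fun i => by
    rcases le_or_gt (c' + ν) 0 with h | h
    · exact lt_of_le_of_lt (mul_nonpos_of_nonpos_of_nonneg h (hg i)) one_pos
    · exact lt_of_le_of_lt (mul_le_mul (by linarith) (hle i) (hg i) (by linarith)) (H.hd i)
  refine ⟨H.hτ, H.hκ, hg,
    fun i => (mul_le_mul_of_nonneg_right (hle i) H.hκ.le).trans (H.hgκ i),
    (mul_le_mul_of_nonneg_right (by linarith) H.hκ.le).trans H.hcν, H.hνκ, hd, le_trans ?_ H.hE⟩
  refine mul_le_mul_of_nonneg_left (avg_le_avg fun i => ?_) H.hτ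
  rw [div_le_div_iff₀ (by linarith [hd i]) (by linarith [H.hd i])]
  have h : 0 ≤ (c - c') * (g' i * g i) :=
    mul_nonneg (by linarith) (mul_nonneg (hg i) (H.hg i))
  linarith [hle i]

variable {n : ℕ}

namespace Top

variable {β κ κ₁ c ν : ℝ} {g : Fin n → ℝ} {m : ℕ} (T : Top β κ κ₁ c ν g)

include T

omit T in
/-- The centre of the averaged resolvent, times `τ`, along the parameters below the top. -/
noncomputable def selfMean (β κ₁ c : ℝ) (g g' : Fin n → ℝ) : ℝ :=
  β ^ 2 * centreAvg β κ₁ c g fun J => res c J g'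

/-- The base equation for every smaller diagonal. -/
lemma base_eq {g' : Fin n → ℝ} (hg' : ∀ i, 0 ≤ g' i) (hle : ∀ i, g' i ≤ g i) (i : Fin n) :
    |centre β κ₁ c g (fun J => res c J g') i i * (1 - (c + selfMean β κ₁ c g g') * g' i) - g' i|
      ≤ (2 * (β * (2 * lipC β κ κ₁ 0 + 2 * regC β κ κ₁ 0)
            + β ^ 2 * ((((0:ℕ):ℝ) + 1) * (2 * (regC β κ κ₁ 0 * lipC β κ κ₁ 0))))
          + β ^ 2 * ((((0:ℕ):ℝ) + 1) * ((1 + 16 * (144 + 146 ^ 4)) * lipC β κ κ₁ 0 ^ 2
            + 10 * regC β κ κ₁ 0 ^ 2))) / n * (2 / κ) := by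
  set K := outer β κ₁ c g
  have B := T.below le_rfl ((le_div_iff₀ T.edge.hκ).2 T.hc) hg' hle
  set S := fun J : Fin n → Fin n → ℝ => res c J g'
  have hS : OuterReg β κ κ₁ c g 0 S := T.reg_res' B
  have hb : WordBox (fun _ : Fin n => (1:ℝ)) ([] : List (Fin n → ℝ)) :=
    ⟨fun _ => by simp, fun e he => by simp at he⟩
  have h := T.split_est (m := 0) B hb le_rfl i
  have e1 : ∀ J : Fin n → Fin n → ℝ,
      wordMat J (fun _ : Fin n => (1:ℝ)) [] * res c J g' = res c J g' := fun J => by
    rw [wordMat_nil, Matrix.diagonal_one, Matrix.one_mul]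
  have eL : leftF c g' (fun _ : Fin n => (1:ℝ)) [] 0 = S := funext fun J => by
    rw [leftF, if_neg (by simp), e1]
  have eR : rightF c g' ([] : List (Fin n → ℝ)) 0 = S := funext fun J => by
    rw [rightF, if_neg (by simp)]
  simp only [e1, List.length_nil, zero_add, sum_range_one, eL, eR] at h
  set V := centre β κ₁ c g S i i
  set W := centre β κ₁ c g (fun J => Matrix.of J * res c J g') i i
  have hmul : OuterReg β κ κ₁ c g 0 S := hS
  have iW : IntegrableOn (fun x => (Matrix.of (skCoupling β x) * res c (skCoupling β x) g') i i)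
      K (gauss (Fin n × Fin n)) :=
    T.likely.integrableOn
      (L := 2 * ((lam β + 1 + 1) * resC (2 / κ) (κ₁ / 2)) * (√2 * |β|) / √n)
      (div_nonneg (mul_nonneg (mul_nonneg two_pos.le (mul_nonneg
        (add_nonneg (lam_add_nonneg β) zero_le_one) (sq_nonneg _))) (by positivity))
        (sqrt_nonneg _))
      fun x hx y hy =>
        (abs_apply_le_frob _ i i).trans
          (((reg_coupling (lam_add_nonneg β)).mul (reg_res B)).dom_sub_le (β := β) hy hx)
  have key : V = g' i + g' i * W + c * g' i * V := by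
    have e : ∀ x ∈ K, S (skCoupling β x) i i = g' i
        + (g' i * (Matrix.of (skCoupling β x) * res c (skCoupling β x) g') i i
          + c * g' i * S (skCoupling β x) i i) := fun x hx => by
      have h := congrFun (congrFun (T.adm B hx).res_eq i) i
      simp only [shiftMat, Matrix.mul_add, Matrix.add_mul, Matrix.mul_assoc, Matrix.smul_mul,
        Matrix.mul_smul, Matrix.one_mul, Matrix.add_apply, Matrix.smul_apply, smul_eq_mul,
        Matrix.diagonal_mul, Matrix.diagonal_apply_eq] at h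
      simp only [S]
      linarith
    calc V = cmean K fun x => g' i + (g' i * (Matrix.of (skCoupling β x)
          * res c (skCoupling β x) g') i i + c * g' i * S (skCoupling β x) i i) :=
        Likely.cmean_congr T.meas_outer e
      _ = g' i + (g' i * W + c * g' i * V) := by
        rw [T.likely.cmean_add integrableOn_const
          ((iW.const_mul _).fun_add ((T.int_entry hS i i).const_mul _)),
          T.likely.cmean_add (iW.const_mul _) ((T.int_entry hS i i).const_mul _),
          T.likely.cmean_const, Likely.cmean_mul, Likely.cmean_mul]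
        rfl
      _ = _ := by ring
  have e2 : V * (1 - (c + selfMean β κ₁ c g g') * g' i) - g' i
      = g' i * (W - β ^ 2 * (centreAvg β κ₁ c g S * V)) := by
    simp only [selfMean]
    linear_combination key
  rw [e2, abs_mul, abs_of_nonneg (hg' i), mul_comm]
  exact mul_le_mul h (B.hgΓ i) (hg' i) ((abs_nonneg _).trans h)

/-- `τ` times the averaged resolvent is continuous along `t • g`. -/
lemma selfMean_continuous :
    ContinuousOn (fun t : ℝ => selfMean β κ₁ c g fun i => t * g i) (Set.Icc 0 1) := by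
  set C := resDC (lam β + 1) (2 / κ) (κ₁ / 2) * (2 / κ)
  have hC : 0 ≤ C := by
    have := (T.parts_nonneg (m := 0)).2.2.1
    have := T.gamma_ge_one
    positivity
  refine (LipschitzOnWith.of_dist_le_mul (K := (β ^ 2 * C).toNNReal) fun s hs t ht => ?_).continuousOn
  rw [Real.coe_toNNReal _ (by positivity), Real.dist_eq, Real.dist_eq]
  have Bs := T.below le_rfl ((le_div_iff₀ T.edge.hκ).2 T.hc)
    (fun i => mul_nonneg hs.1 (T.edge.hg i)) fun i => mul_le_of_le_one_left (T.edge.hg i) hs.2
  have Bt := T.below le_rfl ((le_div_iff₀ T.edge.hκ).2 T.hc)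
    (fun i => mul_nonneg ht.1 (T.edge.hg i)) fun i => mul_le_of_le_one_left (T.edge.hg i) ht.2
  have hd := reg_res_sub (Λ := lam β + 1) (lam_add_nonneg β) Bt Bs
    (δ := |s - t| * (2 / κ)) (by
      rw [sub_self, abs_zero]
      exact mul_nonneg (abs_nonneg _) (zero_le_one.trans T.gamma_ge_one)) fun i => by
      rw [← sub_mul, abs_mul, abs_of_nonneg (T.edge.hg i)]
      exact mul_le_mul_of_nonneg_left (T.below_self.hgΓ i) (abs_nonneg _)
  simp only [selfMean]
  rw [← mul_sub, abs_mul, abs_of_nonneg (sq_nonneg β), mul_assoc (β ^ 2)]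
  refine mul_le_mul_of_nonneg_left ?_ (sq_nonneg β)
  have hsR : OuterReg β κ κ₁ c g 0 fun J => res c J fun i => s * g i := T.reg_res' Bs
  have htR : OuterReg β κ κ₁ c g 0 fun J => res c J fun i => t * g i := T.reg_res' Bt
  have hi : ∀ {r : Fin n → ℝ},
      OuterReg β κ κ₁ c g 0 (fun J => res c J r) → IntegrableOn
      (fun x => avg fun k => res c (skCoupling β x) r k k) (outer β κ₁ c g)
        (gauss (Fin n × Fin n)) := fun h => T.int_avg h
  have e : centreAvg β κ₁ c g (fun J => res c J fun i => s * g i)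
      - centreAvg β κ₁ c g (fun J => res c J fun i => t * g i)
      = cmean (outer β κ₁ c g) fun x =>
        (avg fun k => res c (skCoupling β x) (fun i => s * g i) k k)
          - avg fun k => res c (skCoupling β x) (fun i => t * g i) k k := by
    simp only [centreAvg, cmean]
    rw [integral_sub (hi hsR) (hi htR), sub_div]
  rw [e]
  refine T.likely.abs_cmean_le ((hi hsR).sub (hi htR)) fun x hx => ?_
  rw [← avg_sub]
  refine abs_avg_le_forall (fun k => ?_) (by positivity)
  refine ((hd.2.1 _ hx).abs_apply_le k k).trans (le_of_eq ?_)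
  simp only [C]
  ring

omit T in
/-- The error constant of the base equation, times `2 / κ`. -/
noncomputable def baseC (β κ κ₁ : ℝ) : ℝ :=
  (2 * (β * (2 * lipC β κ κ₁ 0 + 2 * regC β κ κ₁ 0)
      + β ^ 2 * ((((0:ℕ):ℝ) + 1) * (2 * (regC β κ κ₁ 0 * lipC β κ κ₁ 0))))
    + β ^ 2 * ((((0:ℕ):ℝ) + 1) * ((1 + 16 * (144 + 146 ^ 4)) * lipC β κ κ₁ 0 ^ 2
      + 10 * regC β κ κ₁ 0 ^ 2))) * (2 / κ)

lemma baseC_nonneg : 0 ≤ baseC β κ κ₁ := by
  have := T.one_le_regC (m := 0)
  have := T.hβ
  have := T.edge.hκ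
  simp only [baseC, lipC]
  positivity

/-- A self-mean below the edge is near the fixed point. -/
lemma self_near {g' : Fin n → ℝ} (hg' : ∀ i, 0 ≤ g' i) (hle : ∀ i, g' i ≤ g i)
    (hs : selfMean β κ₁ c g g' ≤ ν - κ / 2) :
    |selfMean β κ₁ c g g' - freeSigma (β ^ 2) c g'|
        ≤ 1 / κ ^ 2 * (β ^ 2 * (8 / κ ^ 2 * (baseC β κ κ₁ / n))) ∧
      ∀ i, |centre β κ₁ c g (fun J => res c J g') i i
          - g' i / (1 - (c + selfMean β κ₁ c g g') * g' i)| ≤ 8 / κ ^ 2 * (baseC β κ κ₁ / n) := by
  set s := selfMean β κ₁ c g g' with hsdef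
  have H := T.edge.mono hg' hle le_rfl
  have hκ := H.hκ
  have hC := T.baseC_nonneg
  have hb : ∀ i, |centre β κ₁ c g (fun J => res c J g') i i
      - g' i / (1 - (c + s) * g' i)| ≤ 8 / κ ^ 2 * (baseC β κ κ₁ / n) := fun i => by
    have d1 := H.den_ge hs i
    have d0 : 0 < 1 - (c + s) * g' i := lt_of_lt_of_le (by positivity) d1
    have h := T.base_eq hg' hle i
    rw [div_mul_eq_mul_div] at h
    rw [sub_div' d0.ne', abs_div, abs_of_pos d0]
    refine (div_le_div₀ ((abs_nonneg _).trans h) h (by positivity) d1).trans (le_of_eq ?_)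
    simp only [baseC]
    field_simp
  refine ⟨?_, hb⟩
  have hd : |selfEnergy (β ^ 2) c g' s - s| ≤ β ^ 2 * (8 / κ ^ 2 * (baseC β κ κ₁ / n)) := by
    have e : s = β ^ 2 * avg fun i => centre β κ₁ c g (fun J => res c J g') i i := by
      rw [hsdef, selfMean, T.centreAvg_eq (m := 0)
        (T.reg_res' (T.below le_rfl ((le_div_iff₀ T.edge.hκ).2 T.hc) hg' hle))]
    nth_rewrite 2 [e]
    rw [selfEnergy, ← mul_sub, ← avg_sub, abs_mul, abs_of_nonneg (sq_nonneg β)]
    refine mul_le_mul_of_nonneg_left (abs_avg_le_forall (fun i => ?_) (by positivity)) (sq_nonneg β)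
    rw [abs_sub_comm]
    exact hb i
  have h := H.sigma_stable (s := s) (by linarith)
  have h2 := (mul_le_mul_of_nonneg_right (show ν ≤ 1 / κ from (le_div_iff₀ hκ).2 H.hνκ)
    (abs_nonneg _)).trans (mul_le_mul_of_nonneg_left hd (show 0 ≤ 1 / κ by positivity))
  have h3 := (le_div_iff₀' hκ).2 (h.trans h2)
  refine h3.trans (le_of_eq ?_)
  field_simp

/-- The resolvent has the free diagonal. -/
theorem base_free (hlarge : 1 / κ ^ 2 * (β ^ 2 * (8 / κ ^ 2 * (baseC β κ κ₁ / n))) < κ / 4)
    (i : Fin n) :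
    |centre β κ₁ c g (fun J => res c J g) i i - freeG (β ^ 2) c g i|
      ≤ (8 / κ ^ 2 * baseC β κ κ₁
        + 64 / κ ^ 6 * (1 / κ ^ 2 * (β ^ 2 * (8 / κ ^ 2 * baseC β κ κ₁)))) / n := by
  have hκ := T.edge.hκ
  set f := fun t : ℝ => selfMean β κ₁ c g fun i => t * g i
  have hle1 : selfMean β κ₁ c g g ≤ ν - κ / 2 := by
    by_contra hcon
    push Not at hcon
    have f0 : f 0 = 0 := by
      simp only [f, zero_mul, selfMean, centreAvg, res]
      simp [T.likely.cmean_const, avg]
    have f1 : f 1 = selfMean β κ₁ c g g := by simp only [f, one_mul]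
    have hmem : ν - 3 * κ / 4 ∈ Set.Icc (f 0) (f 1) := by
      rw [f0, f1]
      exact ⟨by linarith [T.edge.kappa_le_nu], by linarith⟩
    obtain ⟨t, ht, hft⟩ := intermediate_value_Icc zero_le_one T.selfMean_continuous hmem
    have hg' : ∀ i, 0 ≤ t * g i := fun i => mul_nonneg ht.1 (T.edge.hg i)
    have hle : ∀ i, t * g i ≤ g i := fun i => mul_le_of_le_one_left (T.edge.hg i) ht.2
    change selfMean β κ₁ c g (fun i => t * g i) = _ at hft
    obtain ⟨h, -⟩ := T.self_near hg' hle (by rw [hft]; linarith)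
    have hs := (T.edge.mono hg' hle le_rfl).sigma_le
    rw [hft, abs_le] at h
    linarith
  obtain ⟨h1, h2⟩ := T.self_near T.edge.hg (fun _ => le_rfl) hle1
  have h3 := site_sub_le T.edge T.edge hle1
    (show freeSigma (β ^ 2) c g ≤ ν - κ / 2 by linarith [T.edge.sigma_le]) i (δ := 0) (by simp)
  rw [sub_self, abs_zero, zero_add, zero_add] at h3
  refine (abs_sub_le _ (g i / (1 - (c + selfMean β κ₁ c g g) * g i)) _).trans ?_
  refine le_trans (add_le_add (h2 i) (h3.trans
    (mul_le_mul_of_nonneg_left h1 (by positivity)))) (le_of_eq ?_)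
  ring

/-- The centred average of a pure word is the average free value. -/
theorem word_free {Cw : ℝ}
    (hgood : (gauss (Fin n × Fin n)).real {x | ¬GoodWords β m Cw (skCoupling β x)} ≤ 1 / 8)
    {e : Fin n → ℝ} {r : List (Fin n → ℝ)} (hb : WordBox e r) (hr : r.length ≤ m) :
    |centreAvg β κ₁ c g (fun J => wordMat J e r) - avg (freeVal β r.length e r)|
      ≤ (150 * lipC β κ κ₁ m + √|Cw|) / √n := by
  set μ := gauss (Fin n × Fin n)
  set K := outer β κ₁ c g
  set L := lipC β κ κ₁ m / √n with hLdef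
  set X := fun x => avg fun k => wordMat (skCoupling β x) e r k k
  have hR : OuterReg β κ κ₁ c g m fun J => wordMat J e r := T.reg_word' hb hr
  have hL : 0 < L := T.lip_pos
  have htail := T.likely.cmean_tail hL (T.lip_avg hR) (s := 4 * L) (by positivity)
  have e4 : 2 * exp (-((4 * L) ^ 2 / (4 * L ^ 2))) < 1 / 4 := by
    rw [show (4 * L) ^ 2 / (4 * L ^ 2) = 4 by field_simp]
    have h := quadratic_le_exp_of_nonneg (show (0:ℝ) ≤ 4 by norm_num)
    rw [Real.exp_neg, ← div_eq_mul_inv, div_lt_iff₀ (exp_pos _)]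
    linarith
  have hex : ∃ x, x ∈ K ∧ GoodWords β m Cw (skCoupling β x)
      ∧ |X x - cmean K X| < 4 * L + 146 * L := by
    by_contra hno
    push Not at hno
    have hsub : K ⊆ {x | ¬GoodWords β m Cw (skCoupling β x)}
        ∪ ({x | 4 * L + 146 * L ≤ |X x - cmean K X|} ∩ K) := fun x hx => by
      by_cases hgd : GoodWords β m Cw (skCoupling β x)
      · exact Or.inr ⟨hno x hx hgd, hx⟩
      · exact Or.inl hgd
    have h5 := (measureReal_mono (μ := μ) hsub).trans (measureReal_union_le _ _)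
    linarith [T.three_quarters]
  obtain ⟨x, hx, hw, hX⟩ := hex
  have hdiag := (hw.2.2.2 e r hr hb.1 hb.2).1
  have hn := T.npos
  have hA : |X x - avg (freeVal β r.length e r)| ≤ √|Cw| / √n := by
    simp only [X]
    rw [← avg_sub, avg, Fintype.card_fin, abs_div, abs_of_pos hn, div_le_iff₀ hn]
    have h := sum_mul_le_sqrt_mul_sqrt univ (fun _ : Fin n => (1:ℝ))
      (fun k => |wordMat (skCoupling β x) e r k k - freeVal β r.length e r k|)
    simp only [one_mul, one_pow, sq_abs, sum_const, card_univ, Fintype.card_fin, nsmul_eq_mul,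
      mul_one] at h
    refine ((abs_sum_le_sum_abs _ _).trans h).trans ?_
    have hb' := sqrt_le_sqrt (hdiag.trans (le_abs_self Cw))
    refine (mul_le_mul_of_nonneg_left hb' (sqrt_nonneg _)).trans (le_of_eq ?_)
    rw [div_mul_eq_mul_div, eq_div_iff (sqrt_pos.2 hn).ne', mul_right_comm,
      mul_self_sqrt hn.le, mul_comm]
  rw [centreAvg, add_div, mul_div_assoc, ← hLdef]
  refine (abs_sub_le _ (X x) _).trans (add_le_add ?_ hA)
  rw [abs_sub_comm]
  exact hX.le.trans (le_of_eq (by ring))

end Top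

/-- The centres of resolvent words are their free values, to order `1 / √n`. -/
theorem centre_resVal (β κ κ₁ Cw : ℝ) (m : ℕ) : ∀ f ≤ m, ∃ C, 0 ≤ C ∧ ∃ N : ℕ,
    ∀ n : ℕ, N ≤ n → ∀ (c ν : ℝ) (g : Fin n → ℝ), Top β κ κ₁ c ν g →
      (gauss (Fin n × Fin n)).real {x | ¬GoodWords β m Cw (skCoupling β x)} ≤ 1 / 8 →
      ∀ (d : Fin n → ℝ) (l : List (Fin n → ℝ)), WordBox d l → l.length ≤ f → ∀ i,
        |centre β κ₁ c g (fun J => wordMat J d l * res c J g) i i
          - resVal β (freeG (β ^ 2) c g) f d l i| ≤ C / √n := by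
  set A := regC β κ κ₁ m
  set D := Top.baseC β κ κ₁
  set B₀ := 8 / κ ^ 2 * D + 64 / κ ^ 6 * (1 / κ ^ 2 * (β ^ 2 * (8 / κ ^ 2 * D)))
  obtain ⟨N₀, hN₀⟩ := exists_nat_gt (1 / κ ^ 2 * (β ^ 2 * (8 / κ ^ 2 * D)) * (4 / κ))
  have hlarge : ∀ {n : ℕ} {c ν : ℝ} {g : Fin n → ℝ}, Top β κ κ₁ c ν g → N₀ ≤ n →
      1 / κ ^ 2 * (β ^ 2 * (8 / κ ^ 2 * (D / n))) < κ / 4 := fun {n c ν g} T hn => by
    have h0 : (N₀:ℝ) ≤ n := by exact_mod_cast hn
    have h1 := hN₀.trans_le h0
    have hκ := T.edge.hκ
    have := T.npos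
    rw [show 1 / κ ^ 2 * (β ^ 2 * (8 / κ ^ 2 * (D / n)))
      = 1 / κ ^ 2 * (β ^ 2 * (8 / κ ^ 2 * D)) / n by ring, div_lt_iff₀ T.npos]
    rw [← mul_div_assoc, div_lt_iff₀ hκ] at h1
    linarith
  have hbase : ∀ {n : ℕ} {c ν : ℝ} {g : Fin n → ℝ} (_T : Top β κ κ₁ c ν g), N₀ ≤ n → ∀ i,
      |centre β κ₁ c g (fun J => res c J g) i i - freeG (β ^ 2) c g i| ≤ |B₀| / √n :=
    fun {n c ν g} T hn i => by
    refine ((T.base_free (hlarge T hn) i).trans
      (div_le_div_of_nonneg_right (le_abs_self B₀) T.npos.le)).trans ?_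
    refine div_le_div_of_nonneg_left (abs_nonneg _) (sqrt_pos.2 T.npos) ?_
    exact sqrt_le_iff.2 ⟨T.npos.le, le_self_pow₀ T.one_le_n two_ne_zero⟩
  have hnil : ∀ {n : ℕ} {c ν : ℝ} {g : Fin n → ℝ} (_T : Top β κ κ₁ c ν g), N₀ ≤ n →
      ∀ (d : Fin n → ℝ), (∀ i, |d i| ≤ 1) → ∀ i,
        |centre β κ₁ c g (fun J => wordMat J d [] * res c J g) i i - d i * freeG (β ^ 2) c g i|
          ≤ |B₀| / √n := fun {n c ν g} T hn d hd i => by
    have e : centre β κ₁ c g (fun J => wordMat J d [] * res c J g) i i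
        = d i * centre β κ₁ c g (fun J => res c J g) i i := by
      simp only [centre, wordMat_nil, Matrix.diagonal_mul]
      rw [Likely.cmean_mul]
    rw [e, ← mul_sub, abs_mul]
    exact (mul_le_of_le_one_left (abs_nonneg _) (hd i)).trans (hbase T hn i)
  intro f
  induction f with
  | zero =>
    refine fun _ => ⟨|B₀|, abs_nonneg _, N₀, fun n hn c ν g T _ d l hb hl i => ?_⟩
    obtain rfl := List.length_eq_zero_iff.1 (Nat.le_zero.1 hl)
    simpa only [resVal] using hnil T hn d hb.1 i
  | succ f ih =>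
    intro hf
    obtain ⟨Cf, hCf, N, hN⟩ := ih (Nat.le_of_succ_le hf)
    set W₀ := |150 * lipC β κ κ₁ m + √(|Cw|)|
    set Sc := |2 * (β * (2 * lipC β κ κ₁ m + 2 * A) + β ^ 2 * ((m + 1) * (2 * (A * lipC β κ κ₁ m))))
      + β ^ 2 * ((m + 1) * ((1 + 16 * (144 + 146 ^ 4)) * lipC β κ κ₁ m ^ 2 + 10 * A ^ 2))|
    set P := W₀ * |A| + (|A| + W₀) * Cf + Cf * |A| + (|A| + Cf) * |B₀|
    refine ⟨|B₀| + (Sc + β ^ 2 * ((m + 1) * P)), by positivity, max N N₀,
      fun n hn c ν g T hw d l hb hl i => ?_⟩
    have hn0 : N₀ ≤ n := le_trans (le_max_right _ _) hn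
    have hsn : 0 < √(n:ℝ) := sqrt_pos.2 T.npos
    have hs1 : 1 ≤ √(n:ℝ) := one_le_sqrt.2 T.one_le_n
    rcases l with _ | ⟨e, r⟩
    · simp only [resVal]
      refine (hnil T hn0 d hb.1 i).trans (div_le_div_of_nonneg_right ?_ hsn.le)
      exact le_add_of_nonneg_right (by positivity)
    have hrf : r.length ≤ f := by simpa using hl
    have hrm : r.length ≤ m := hrf.trans (Nat.le_of_succ_le hf)
    set G := freeG (β ^ 2) c g
    set S := fun J : Fin n → Fin n → ℝ => res c J g
    have hI := hN n (le_trans (le_max_left _ _) hn) c ν g T hw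
    have hwe := hb.tail
    have e1 : centre β κ₁ c g (fun J => wordMat J d (e :: r) * res c J g) i i
        = d i * centre β κ₁ c g (fun J => Matrix.of J * (wordMat J e r * res c J g)) i i := by
      simp only [centre, wordMat_peel, Matrix.mul_assoc, Matrix.diagonal_mul]
      rw [Likely.cmean_mul]
    simp only [resVal]
    rw [e1, ← mul_sub, abs_mul]
    refine (mul_le_of_le_one_left (abs_nonneg _) (hb.1 i)).trans ?_
    have hsp := T.split_est T.below_self hwe hrm i
    set T₁ := centre β κ₁ c g (fun J => Matrix.of J * (wordMat J e r * res c J g)) i i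
    set Φ := ∑ j ∈ range (r.length + 1),
      centreAvg β κ₁ c g (leftF c g e r j) * centre β κ₁ c g (rightF c g r j) i i
    have a1 : |T₁ - β ^ 2 * Φ| ≤ Sc / √n := by
      refine (hsp.trans (div_le_div_of_nonneg_right (le_abs_self _) T.npos.le)).trans ?_
      refine div_le_div_of_nonneg_left (abs_nonneg _) hsn ?_
      exact sqrt_le_iff.2 ⟨T.npos.le, le_self_pow₀ T.one_le_n two_ne_zero⟩
    set Ψ := (∑ j ∈ range r.length, avg (freeVal β f e (r.take j))
      * resVal β G f (r.getD j 0) (r.drop (j + 1)) i) + avg (resVal β G f e r) * G i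
    have eΨ : (∑ j ∈ range r.length, β ^ 2 * avg (freeVal β f e (r.take j))
          * resVal β G f (r.getD j 0) (r.drop (j + 1)) i)
        + β ^ 2 * avg (resVal β G f e r) * G i = β ^ 2 * Ψ := by
      simp only [Ψ, mul_add, mul_sum, mul_assoc]
    have prod : ∀ (a a' b b' u v : ℝ), |a - a'| ≤ u / √n → |b - b'| ≤ v / √n → |a| ≤ |A| →
        |b| ≤ |A| → |a * b - a' * b'| ≤ (u * |A| + (|A| + u) * v) / √n := by
      intro a a' b b' u v h1 h2 ha hb'
      have hu : 0 ≤ u := by
        have h0 : 0 ≤ u / √(n:ℝ) := (abs_nonneg _).trans h1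
        have := mul_nonneg h0 hsn.le
        rwa [div_mul_cancel₀ _ hsn.ne'] at this
      have ha' : |a'| ≤ |A| + u := by
        have h3 := abs_sub_abs_le_abs_sub a' a
        rw [abs_sub_comm] at h3
        linarith [div_le_self hu hs1]
      rw [show a * b - a' * b' = (a - a') * b + a' * (b - b') by ring]
      refine (abs_add_le _ _).trans ?_
      rw [abs_mul, abs_mul, add_div, mul_div_assoc (|A| + u), mul_div_right_comm u]
      exact add_le_add (mul_le_mul h1 hb' (abs_nonneg _) ((abs_nonneg _).trans h1))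
        (mul_le_mul ha' h2 (abs_nonneg _) (by positivity))
    have hterm : ∀ j ∈ range r.length, |centreAvg β κ₁ c g (leftF c g e r j)
        * centre β κ₁ c g (rightF c g r j) i i
        - avg (freeVal β f e (r.take j)) * resVal β G f (r.getD j 0) (r.drop (j + 1)) i|
        ≤ P / √n := by
      intro j hj
      have hj' := mem_range.1 hj
      have hl' : OuterReg β κ κ₁ c g m (leftF c g e r j) := T.reg_left T.below_self hwe hrm j
      have hr' : OuterReg β κ κ₁ c g m (rightF c g r j) := T.reg_right T.below_self hwe hrm j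
      have q1 : |centreAvg β κ₁ c g (leftF c g e r j) - avg (freeVal β f e (r.take j))|
          ≤ W₀ / √n := by
        rw [show leftF c g e r j = fun J => wordMat J e (r.take j) from
          funext fun J => by rw [leftF, if_pos hj'], show freeVal β f e (r.take j)
            = freeVal β (r.take j).length e (r.take j) by
              rw [Algebra.freeVal_eq_wordFree β f e _ (by simp; omega),
                Algebra.freeVal_eq_wordFree β _ e _ le_rfl]]
        exact (T.word_free hw ⟨hwe.1, fun w hw' => hwe.2 w (List.mem_of_mem_take hw')⟩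
          (by simp; omega)).trans (div_le_div_of_nonneg_right (le_abs_self _) hsn.le)
      have q2 : |centre β κ₁ c g (rightF c g r j) i i
          - resVal β G f (r.getD j 0) (r.drop (j + 1)) i| ≤ Cf / √n := by
        rw [show rightF c g r j = fun J => wordMat J (r.getD j 0) (r.drop (j + 1)) * res c J g
          from funext fun J => by rw [rightF, if_pos hj']]
        exact hI _ _ ⟨hwe.2 _ (Top.getD_mem hj'),
          fun w hw' => hwe.2 w (List.mem_of_mem_drop hw')⟩ (by simp; omega) i
      refine (prod _ _ _ _ _ _ q1 q2 ((T.abs_centreAvg_le hl').trans (le_abs_self _))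
        ((T.abs_centre_le hr' i i).trans (le_abs_self _))).trans
        (div_le_div_of_nonneg_right ?_ hsn.le)
      simp only [P, add_assoc]
      exact add_le_add le_rfl (le_add_of_nonneg_right (by positivity))
    have hlast : |centreAvg β κ₁ c g (leftF c g e r r.length)
        * centre β κ₁ c g (rightF c g r r.length) i i - avg (resVal β G f e r) * G i|
        ≤ P / √n := by
      have hl' : OuterReg β κ κ₁ c g m fun J => wordMat J e r * res c J g :=
        T.reg_wordRes' T.below_self hwe hrm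
      have hr' : OuterReg β κ κ₁ c g m S := T.reg_res' T.below_self
      rw [show leftF c g e r r.length = fun J => wordMat J e r * res c J g from
        funext fun J => by rw [leftF, if_neg (lt_irrefl _)],
        show rightF c g r r.length = S from funext fun J => by rw [rightF, if_neg (lt_irrefl _)]]
      have q1 : |centreAvg β κ₁ c g (fun J => wordMat J e r * res c J g)
          - avg (resVal β G f e r)| ≤ Cf / √n := by
        rw [T.centreAvg_eq hl', ← avg_sub]
        exact abs_avg_le_forall (fun k => hI e r hwe hrf k) (by positivity)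
      refine (prod _ _ _ _ _ _ q1 (hbase T hn0 i) ((T.abs_centreAvg_le hl').trans (le_abs_self _))
        ((T.abs_centre_le hr' i i).trans (le_abs_self _))).trans
        (div_le_div_of_nonneg_right ?_ hsn.le)
      simp only [P]
      have h1 : 0 ≤ W₀ * |A| + (|A| + W₀) * Cf := by positivity
      linarith
    have a2 : |Φ - Ψ| ≤ (m + 1) * (P / √n) := by
      simp only [Φ, Ψ, sum_range_succ, add_sub_add_comm, ← sum_sub_distrib]
      refine (abs_add_le _ _).trans ((add_le_add ((abs_sum_le_sum_abs _ _).trans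
        (sum_le_sum hterm)) hlast).trans ?_)
      rw [sum_const, card_range, nsmul_eq_mul, add_mul, one_mul]
      have h : (r.length : ℝ) ≤ m := by exact_mod_cast hrm
      gcongr
    rw [eΨ]
    refine (abs_sub_le _ (β ^ 2 * Φ) _).trans ?_
    rw [← mul_sub, abs_mul, abs_of_nonneg (sq_nonneg β)]
    refine (add_le_add a1 (mul_le_mul_of_nonneg_left a2 (sq_nonneg β))).trans ?_
    rw [← mul_div_assoc ((m:ℝ) + 1), ← mul_div_assoc (β ^ 2), ← add_div]
    exact div_le_div_of_nonneg_right (le_add_of_nonneg_left (abs_nonneg _)) hsn.le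

end Vale.Agent.P150.Beta1
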