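import Vale.Agent.P150.Beta1.Resolvent.Cond
import Vale.Agent.P150.Beta1.Resolvent.Edge
import Vale.Agent.P150.Beta1.Words.Mean

/-!
# One integration by parts on a resolvent word

The centre of `(J Y S)_ii` splits into products of centres: the first coupling pairs with a
coupling inside the word `Y` or inside the resolvent `S`.
-/

namespace Vale.Agent.P150.Beta1

open MeasureTheory ProbabilityTheory Finset Real Function Matrix RN
open Words (LipOn dist2 skCoupling_update)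

variable {n : ℕ}

/-- Top parameters at which centres are computed: `K` is the outer likely region and the inner
one keeps finite differences inside. -/
structure Top (β κ κ₁ c ν : ℝ) (g : Fin n → ℝ) : Prop where
  hβ : 0 < β
  hκ₁ : 0 < κ₁
  hκ₁1 : κ₁ ≤ 1
  edge : EdgeAt (β ^ 2) c κ g ν
  hc : |c| * κ ≤ 2
  hn : 2 ≤ n
  rare : (gauss (Fin n × Fin n)).real (Dom β (lam β) κ₁ c g)ᶜ ≤ 1 / (n : ℝ) ^ 6
  step : √2 * β * (1 / (n : ℝ) ^ 2) ≤ 1
  step' : √2 * β * (1 / (n : ℝ) ^ 2) * (2 / κ) ≤ κ₁ - κ₁ / 2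

/-- The outer region. -/
def outer (β κ₁ c : ℝ) (g : Fin n → ℝ) : Set (Fin n × Fin n → ℝ) :=
  Dom β (lam β + 1) (κ₁ / 2) c g

/-- The regularity constant on the outer region. -/
noncomputable def regC (β κ κ₁ : ℝ) (m : ℕ) : ℝ :=
  1 + wordC (lam β + 1) m + wordResC (lam β + 1) (2 / κ) (κ₁ / 2) m
    + resC (2 / κ) (κ₁ / 2) + resDC (lam β + 1) (2 / κ) (κ₁ / 2)

/-- A regular matrix function on the outer region with the module constant. -/
abbrev OuterReg (β κ κ₁ c : ℝ) (g : Fin n → ℝ) (m : ℕ)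
    (F : (Fin n → Fin n → ℝ) → Matrix (Fin n) (Fin n) ℝ) : Prop :=
  Reg (Region (lam β + 1) (κ₁ / 2) c g) (regC β κ κ₁ m) F

/-- The centre of an entry. -/
noncomputable def centre (β κ₁ c : ℝ) (g : Fin n → ℝ)
    (F : (Fin n → Fin n → ℝ) → Matrix (Fin n) (Fin n) ℝ) (i j : Fin n) : ℝ :=
  cmean (outer β κ₁ c g) fun x => F (skCoupling β x) i j

/-- The centre of the averaged diagonal. -/
noncomputable def centreAvg (β κ₁ c : ℝ) (g : Fin n → ℝ)
    (F : (Fin n → Fin n → ℝ) → Matrix (Fin n) (Fin n) ℝ) : ℝ :=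
  cmean (outer β κ₁ c g) fun x => avg fun k => F (skCoupling β x) k k

/-- The Lipschitz constant times `√n`. -/
noncomputable def lipC (β κ κ₁ : ℝ) (m : ℕ) : ℝ := regC β κ κ₁ m * (√2 * |β| + 1)

namespace Top

variable {β κ κ₁ c ν : ℝ} {g : Fin n → ℝ} {m : ℕ}
  {F G : (Fin n → Fin n → ℝ) → Matrix (Fin n) (Fin n) ℝ} (T : Top β κ κ₁ c ν g)

include T

lemma npos : (0:ℝ) < n := by exact_mod_cast Nat.lt_of_lt_of_le two_pos T.hn

lemma one_le_n : (1:ℝ) ≤ n := by exact_mod_cast le_trans one_le_two T.hn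

lemma inner_subset : Dom β (lam β) κ₁ c g ⊆ outer β κ₁ c g :=
  dom_mono (by linarith) (by linarith [T.hκ₁])

lemma meas_outer : MeasurableSet (outer β κ₁ c g) := measurableSet_dom _ _ _ _ _

lemma rare' : (gauss (Fin n × Fin n)).real (outer β κ₁ c g)ᶜ ≤ 1 / (n : ℝ) ^ 6 :=
  (measureReal_mono (Set.compl_subset_compl.2 T.inner_subset)).trans T.rare

lemma three_quarters : 3 / 4 ≤ (gauss (Fin n × Fin n)).real (outer β κ₁ c g) := by
  have h := T.rare'
  rw [probReal_compl_eq_one_sub T.meas_outer] at h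
  have h2 : 1 / (n : ℝ) ^ 6 ≤ 1 / 4 := by
    refine div_le_div_of_nonneg_left zero_le_one (by norm_num) ?_
    calc (4:ℝ) = 2 ^ 2 := by norm_num
      _ ≤ (n:ℝ) ^ 2 := pow_le_pow_left₀ two_pos.le (by exact_mod_cast T.hn) 2
      _ ≤ _ := pow_le_pow_right₀ T.one_le_n (by norm_num)
  linarith

lemma likely : Likely (outer β κ₁ c g) := ⟨T.meas_outer, by linarith [T.three_quarters]⟩

lemma gamma_ge_one : 1 ≤ 2 / κ := by
  rw [le_div_iff₀ T.edge.hκ]
  linarith [T.edge.kappa_le_one]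

lemma below {c' : ℝ} {g' : Fin n → ℝ} (hc' : c' ≤ c) (hcΓ : |c'| ≤ 2 / κ) (hg' : ∀ i, 0 ≤ g' i)
    (hle : ∀ i, g' i ≤ g i) : Below (2 / κ) (κ₁ / 2) c g c' g' := by
  refine ⟨by linarith [T.hκ₁], by linarith [T.hκ₁1], T.gamma_ge_one, hc', hcΓ, hg', hle,
    fun i => ?_⟩
  rw [le_div_iff₀ T.edge.hκ]
  have := mul_le_mul_of_nonneg_right (hle i) T.edge.hκ.le
  linarith [T.edge.hgκ i]

lemma below_self : Below (2 / κ) (κ₁ / 2) c g c g :=
  T.below le_rfl ((le_div_iff₀ T.edge.hκ).2 T.hc) T.edge.hg fun _ => le_rfl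

omit T in
lemma lam_add_nonneg (β : ℝ) : 0 ≤ lam β + 1 := by
  have : 0 ≤ lam β := sqrt_nonneg _
  linarith

lemma parts_nonneg : 0 ≤ wordC (lam β + 1) m ∧ 0 ≤ resC (2 / κ) (κ₁ / 2) ∧
    0 ≤ resDC (lam β + 1) (2 / κ) (κ₁ / 2) ∧
    0 ≤ wordResC (lam β + 1) (2 / κ) (κ₁ / 2) m := by
  have h1 : 0 ≤ lam β + 1 := lam_add_nonneg β
  have h2 : 0 ≤ resC (2 / κ) (κ₁ / 2) := sq_nonneg _
  have h3 : 0 ≤ resDC (lam β + 1) (2 / κ) (κ₁ / 2) := by unfold resDC; positivity
  have h4 : 0 ≤ wordC (lam β + 1) m := pow_nonneg (by linarith) _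
  exact ⟨h4, h2, h3, by unfold wordResC; positivity⟩

lemma one_le_regC : 1 ≤ regC β κ κ₁ m := by
  obtain ⟨h1, h2, h3, h4⟩ := T.parts_nonneg (m := m)
  simp only [regC]
  linarith

lemma reg_word' {d : Fin n → ℝ} {l : List (Fin n → ℝ)} (hb : WordBox d l) (hl : l.length ≤ m) :
    OuterReg β κ κ₁ c g m fun J => wordMat J d l := by
  refine (reg_word (lam_add_nonneg β) l d hb).mono ((wordC_mono (lam_add_nonneg β) hl).trans ?_)
  obtain ⟨h1, h2, h3, h4⟩ := T.parts_nonneg (m := m)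
  simp only [regC]
  linarith

lemma reg_wordRes' {c' : ℝ} {g' : Fin n → ℝ} (B : Below (2 / κ) (κ₁ / 2) c g c' g')
    {d : Fin n → ℝ} {l : List (Fin n → ℝ)} (hb : WordBox d l) (hl : l.length ≤ m) :
    OuterReg β κ κ₁ c g m fun J => wordMat J d l * res c' J g' := by
  refine (reg_wordRes (lam_add_nonneg β) B hb hl).mono ?_
  obtain ⟨h1, h2, h3, h4⟩ := T.parts_nonneg (m := m)
  simp only [regC]
  linarith

lemma reg_res' {c' : ℝ} {g' : Fin n → ℝ} (B : Below (2 / κ) (κ₁ / 2) c g c' g') :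
    OuterReg β κ κ₁ c g m fun J => res c' J g' := by
  refine (reg_res B).mono ?_
  obtain ⟨h1, h2, h3, h4⟩ := T.parts_nonneg (m := m)
  simp only [regC]
  linarith

lemma lip_pos : 0 < lipC β κ κ₁ m / √n := by
  have := T.one_le_regC (m := m)
  have := T.npos
  unfold lipC
  positivity

lemma abs_entry (h : OuterReg β κ κ₁ c g m F) {x : Fin n × Fin n → ℝ}
    (hx : x ∈ outer β κ₁ c g) (i j : Fin n) : |F (skCoupling β x) i j| ≤ regC β κ κ₁ m :=
  (h.2.1 _ hx).abs_apply_le i j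

lemma abs_avg_diag (h : OuterReg β κ κ₁ c g m F) {x : Fin n × Fin n → ℝ}
    (hx : x ∈ outer β κ₁ c g) : |avg fun k => F (skCoupling β x) k k| ≤ regC β κ κ₁ m :=
  abs_avg_le_forall (fun k => T.abs_entry h hx k k) h.1

lemma lip_entry (h : OuterReg β κ κ₁ c g m F) (i j : Fin n) :
    LipOn (fun x => F (skCoupling β x) i j) (lipC β κ κ₁ m / √n) (outer β κ₁ c g) := by
  intro x hx y hy
  have h1 := h.dom_sub_le (β := β) hy hx
  refine ((abs_apply_le_frob (F (skCoupling β x) - F (skCoupling β y)) i j).trans h1).trans ?_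
  refine mul_le_mul_of_nonneg_right (div_le_div_of_nonneg_right
    (mul_le_mul_of_nonneg_left (by linarith) h.1) (sqrt_nonneg _)) (Words.dist2_nonneg _ _)

lemma lip_avg (h : OuterReg β κ κ₁ c g m F) :
    LipOn (fun x => avg fun k => F (skCoupling β x) k k) (lipC β κ κ₁ m / √n)
      (outer β κ₁ c g) := by
  intro x hx y hy
  dsimp only
  rw [← avg_sub]
  exact abs_avg_le_forall (fun k => T.lip_entry h k k x hx y hy)
    (mul_nonneg T.lip_pos.le (Words.dist2_nonneg _ _))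

lemma int_entry (h : OuterReg β κ κ₁ c g m F) (i j : Fin n) :
    IntegrableOn (fun x => F (skCoupling β x) i j) (outer β κ₁ c g) (gauss (Fin n × Fin n)) :=
  T.likely.integrableOn T.lip_pos.le (T.lip_entry h i j)

lemma int_avg (h : OuterReg β κ κ₁ c g m F) :
    IntegrableOn (fun x => avg fun k => F (skCoupling β x) k k) (outer β κ₁ c g)
      (gauss (Fin n × Fin n)) :=
  T.likely.integrableOn T.lip_pos.le (T.lip_avg h)

lemma int_mul {X Y : (Fin n × Fin n → ℝ) → ℝ} {B : ℝ}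
    (hX : IntegrableOn X (outer β κ₁ c g) (gauss (Fin n × Fin n)))
    (hY : IntegrableOn Y (outer β κ₁ c g) (gauss (Fin n × Fin n)))
    (hB : ∀ x ∈ outer β κ₁ c g, |Y x| ≤ B) :
    IntegrableOn (fun x => X x * Y x) (outer β κ₁ c g) (gauss (Fin n × Fin n)) :=
  Integrable.mul_bdd hX hY.aestronglyMeasurable
    ((ae_restrict_iff' T.meas_outer).2 (ae_of_all _ fun x hx => by
      rw [norm_eq_abs]; exact hB x hx))

lemma abs_centre_le (h : OuterReg β κ κ₁ c g m F) (i j : Fin n) :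
    |centre β κ₁ c g F i j| ≤ regC β κ κ₁ m :=
  T.likely.abs_cmean_le (T.int_entry h i j) fun _ hx => T.abs_entry h hx i j

lemma abs_centreAvg_le (h : OuterReg β κ κ₁ c g m F) :
    |centreAvg β κ₁ c g F| ≤ regC β κ κ₁ m :=
  T.likely.abs_cmean_le (T.int_avg h) fun _ hx => T.abs_avg_diag h hx

lemma centreAvg_eq (h : OuterReg β κ κ₁ c g m F) :
    centreAvg β κ₁ c g F = avg fun k => centre β κ₁ c g F k k := by
  simp only [centreAvg, centre, avg]
  rw [← T.likely.cmean_sum fun k _ => T.int_entry h k k]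
  simp only [cmean, ← div_right_comm, integral_div]

/-- The sum over the paired site of a pairing, against the product of centres. -/
theorem pairing (hP : OuterReg β κ κ₁ c g m F) (hQ : OuterReg β κ κ₁ c g m G) (i : Fin n) :
    |(∑ k ∈ univ.erase i, ((∫ x in Dom β (lam β) κ₁ c g,
          F (skCoupling β x) k k * G (skCoupling β x) i i ∂gauss (Fin n × Fin n))
        + ∫ x in Dom β (lam β) κ₁ c g,
          F (skCoupling β x) k i * G (skCoupling β x) k i ∂gauss (Fin n × Fin n))) / n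
        / (gauss (Fin n × Fin n)).real (outer β κ₁ c g)
      - centreAvg β κ₁ c g F * centre β κ₁ c g G i i|
      ≤ ((1 + 16 * (144 + 146 ^ 4)) * lipC β κ κ₁ m ^ 2 + 10 * regC β κ κ₁ m ^ 2) / n := by
  set μ := gauss (Fin n × Fin n)
  set K := outer β κ₁ c g
  set K' := Dom β (lam β) κ₁ c g
  set A := regC β κ κ₁ m
  set P := fun x k l => F (skCoupling β x) k l
  set Q := fun x k l => G (skCoupling β x) k l
  have hn := T.npos
  have iPQ : ∀ k l k' l', IntegrableOn (fun x => P x k l * Q x k' l') K μ := fun k l k' l' =>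
    T.int_mul (T.int_entry hP k l) (T.int_entry hQ k' l') fun x hx => T.abs_entry hQ hx k' l'
  have iTQ : IntegrableOn (fun x => (avg fun k => P x k k) * Q x i i) K μ :=
    T.int_mul (T.int_avg hP) (T.int_entry hQ i i) fun x hx => T.abs_entry hQ hx i i
  set R : (Fin n × Fin n → ℝ) → ℝ :=
    fun x => (∑ k, P x k i * Q x k i) - 2 * (P x i i * Q x i i)
  have hR : ∀ x ∈ K, |R x| ≤ 3 * A ^ 2 := fun x hx => by
    have h1 : |∑ k, P x k i * Q x k i| ≤ A ^ 2 := by
      refine (abs_sum_le_sum_abs _ _).trans ?_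
      refine (sum_le_sum fun k _ => show |P x k i * Q x k i|
        ≤ (P x k i ^ 2 + Q x k i ^ 2) / 2 by
          rw [abs_mul, ← sq_abs (P x k i), ← sq_abs (Q x k i)]
          linarith [two_mul_le_add_sq |P x k i| |Q x k i|]).trans ?_
      rw [← sum_div, sum_add_distrib]
      linarith [(hP.2.1 _ hx).col_le i, (hQ.2.1 _ hx).col_le i]
    have h2 : |P x i i * Q x i i| ≤ A ^ 2 := by
      rw [abs_mul, sq]
      exact mul_le_mul (T.abs_entry hP hx i i) (T.abs_entry hQ hx i i) (abs_nonneg _) hP.1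
    refine (abs_sub _ _).trans ?_
    rw [abs_mul, abs_two]
    linarith
  have iR : IntegrableOn R K μ :=
    (integrable_finsetSum _ fun k _ => iPQ k i k i).sub ((iPQ i i i i).const_mul 2)
  set U : (Fin n × Fin n → ℝ) → ℝ :=
    fun x => (avg fun k => P x k k) * Q x i i + R x / n
  have iU : IntegrableOn U K μ := iTQ.add (iR.div_const _)
  have hU : ∀ x ∈ K, |U x| ≤ 4 * A ^ 2 := fun x hx => by
    refine (abs_add_le _ _).trans ?_
    rw [abs_div, abs_of_pos hn, abs_mul]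
    have h1 := mul_le_mul (T.abs_avg_diag hP hx) (T.abs_entry hQ hx i i) (abs_nonneg _) hP.1
    have h2 : |R x| / n ≤ 3 * A ^ 2 := (div_le_self (abs_nonneg _) T.one_le_n).trans (hR x hx)
    nlinarith
  have e1 : (∑ k ∈ univ.erase i, ((∫ x in K', P x k k * Q x i i ∂μ)
      + ∫ x in K', P x k i * Q x k i ∂μ)) / n = ∫ x in K', U x ∂μ := by
    have hs : K' ⊆ K := T.inner_subset
    simp only [← integral_add ((iPQ _ _ _ _).mono_set hs) ((iPQ _ _ _ _).mono_set hs)]
    rw [← integral_finsetSum _ fun k _ =>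
      ((iPQ k k i i).mono_set hs).fun_add ((iPQ k i k i).mono_set hs), ← integral_div]
    refine setIntegral_congr_fun (measurableSet_dom _ _ _ _ _) fun x _ => ?_
    simp only [U, R, avg, Fintype.card_fin]
    rw [sum_add_distrib, sum_erase_eq_sub (mem_univ i), sum_erase_eq_sub (mem_univ i), ← sum_mul]
    ring
  have e2 : |(∫ x in K', U x ∂μ) - ∫ x in K, U x ∂μ| ≤ 4 * A ^ 2 * (1 / (n:ℝ) ^ 6) := by
    rw [abs_sub_comm, ← setIntegral_diff (measurableSet_dom _ _ _ _ _) iU T.inner_subset,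
      ← norm_eq_abs]
    refine (norm_setIntegral_le_of_norm_le_const (measure_lt_top μ _) fun x hx => by
      rw [norm_eq_abs]; exact hU x hx.1).trans ?_
    exact mul_le_mul_of_nonneg_left ((measureReal_mono fun x hx => hx.2).trans T.rare)
      (by positivity)
  have e3 : |cmean K U - centreAvg β κ₁ c g F * centre β κ₁ c g G i i|
      ≤ (1 + 16 * (144 + 146 ^ 4)) * lipC β κ κ₁ m ^ 2 / n + 3 * A ^ 2 / n := by
    rw [T.likely.cmean_add iTQ (iR.div_const _)]
    have h1 := T.likely.cmean_product T.lip_pos T.lip_pos (T.lip_avg hP) (T.lip_entry hQ i i) iTQ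
    rw [div_mul_div_comm, mul_self_sqrt hn.le, ← sq, ← mul_div_assoc] at h1
    have h2 : |cmean K fun x => R x / n| ≤ 3 * A ^ 2 / n :=
      T.likely.abs_cmean_le (iR.div_const _) fun x hx => by
        rw [abs_div, abs_of_pos hn]
        exact div_le_div_of_nonneg_right (hR x hx) hn.le
    rw [show ∀ a b z : ℝ, a + b - z = (a - z) + b from fun a b z => by ring]
    exact (abs_add_le _ _).trans (add_le_add h1 h2)
  rw [e1]
  have hP0 := T.likely.pos
  have e4 : |(∫ x in K', U x ∂μ) / μ.real K - cmean K U| ≤ 8 * A ^ 2 / (n:ℝ) ^ 6 := by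
    rw [cmean, ← sub_div, abs_div, abs_of_pos hP0, div_le_iff₀ hP0]
    have h0 : 0 ≤ 8 * A ^ 2 / (n:ℝ) ^ 6 := by positivity
    have h1 := mul_le_mul_of_nonneg_left T.three_quarters h0
    have h2 : 4 * A ^ 2 * (1 / (n:ℝ) ^ 6) = 8 * A ^ 2 / (n:ℝ) ^ 6 * (1 / 2) := by ring
    linarith
  have e5 : 8 * A ^ 2 / (n:ℝ) ^ 6 ≤ 7 * A ^ 2 / n := by
    rw [div_le_div_iff₀ (by positivity) hn]
    have h2 : 2 * (n:ℝ) ≤ (n:ℝ) ^ 6 := by
      calc 2 * (n:ℝ) ≤ n * n := mul_le_mul_of_nonneg_right (by exact_mod_cast T.hn) hn.le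
        _ = (n:ℝ) ^ 2 := by ring
        _ ≤ _ := pow_le_pow_right₀ T.one_le_n (by norm_num)
    have := mul_le_mul_of_nonneg_left h2 (show 0 ≤ 7 * A ^ 2 by positivity)
    nlinarith
  refine (abs_sub_le _ (cmean K U) _).trans ((add_le_add e4 e3).trans ?_)
  rw [add_div]
  refine le_trans (add_le_add e5 le_rfl) (le_of_eq ?_)
  ring

end Top

end Vale.Agent.P150.Beta1
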