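import Vale.Agent.P150.Beta1.Resolvent.Pairing

/-!
# The split of a resolvent word at its first coupling
-/

namespace Vale.Agent.P150.Beta1

open MeasureTheory ProbabilityTheory Finset Real Function Matrix RN
open Words (LipOn dist2 skCoupling_update)

/-- Exact product rule for the difference of a word at two couplings. -/
lemma word_diff {ι : Type*} [Fintype ι] [DecidableEq ι] (J J' : ι → ι → ℝ) :
    ∀ (r : List (ι → ℝ)) (e : ι → ℝ), wordMat J' e r - wordMat J e r
      = ∑ j ∈ range r.length, wordMat J e (r.take j) * (Matrix.of J' - Matrix.of J)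
          * wordMat J' (r.getD j 0) (r.drop (j + 1))
  | [], e => by simp [wordMat_nil]
  | f :: r, e => by
    rw [List.length_cons, sum_range_succ', wordMat_peel, wordMat_peel,
      show diagonal e * Matrix.of J' * wordMat J' f r - diagonal e * Matrix.of J * wordMat J f r
        = diagonal e * Matrix.of J * (wordMat J' f r - wordMat J f r)
          + diagonal e * (Matrix.of J' - Matrix.of J) * wordMat J' f r by noncomm_ring,
      word_diff J J' r f, Matrix.mul_sum]
    congr 1
    refine sum_congr rfl fun j _ => ?_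
    simp only [List.take_succ_cons, List.getD_cons_succ, List.drop_succ_cons, wordMat_peel,
      Matrix.mul_assoc]

variable {n : ℕ}

/-- The factors before the paired coupling: part of the word, or word times resolvent. -/
noncomputable def leftF (c : ℝ) (g e : Fin n → ℝ) (r : List (Fin n → ℝ)) (j : ℕ)
    (J : Fin n → Fin n → ℝ) : Matrix (Fin n) (Fin n) ℝ :=
  if j < r.length then wordMat J e (r.take j) else wordMat J e r * res c J g

/-- The factors after the paired coupling. -/
noncomputable def rightF (c : ℝ) (g : Fin n → ℝ) (r : List (Fin n → ℝ)) (j : ℕ)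
    (J : Fin n → Fin n → ℝ) : Matrix (Fin n) (Fin n) ℝ :=
  if j < r.length then wordMat J (r.getD j 0) (r.drop (j + 1)) * res c J g else res c J g

namespace Top

variable {β κ κ₁ c ν : ℝ} {g : Fin n → ℝ} {m : ℕ} (T : Top β κ κ₁ c ν g)

include T

lemma adm {c' : ℝ} {g' : Fin n → ℝ} (B : Below (2 / κ) (κ₁ / 2) c g c' g')
    {x : Fin n × Fin n → ℝ} (hx : x ∈ outer β κ₁ c g) :
    Adm c' (κ₁ / 2) (skCoupling β x) g' :=
  B.adm hx

lemma reg_left {c' : ℝ} {g' : Fin n → ℝ} (B : Below (2 / κ) (κ₁ / 2) c g c' g') {e : Fin n → ℝ}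
    {r : List (Fin n → ℝ)} (hb : WordBox e r) (hr : r.length ≤ m) (j : ℕ) :
    OuterReg β κ κ₁ c g m (leftF c' g' e r j) := by
  by_cases hj : j < r.length
  · exact (T.reg_word' (m := m) (d := e) (l := r.take j)
      ⟨hb.1, fun w hw => hb.2 w (List.mem_of_mem_take hw)⟩ (by simp; omega)).congr
      fun J _ => by rw [leftF, if_pos hj]
  · exact (T.reg_wordRes' B hb hr).congr fun J _ => by rw [leftF, if_neg hj]

omit T in
lemma getD_mem {r : List (Fin n → ℝ)} {j : ℕ} (hj : j < r.length) : r.getD j 0 ∈ r := by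
  rw [List.getD_eq_getElem _ _ hj]
  exact List.getElem_mem hj

lemma reg_right {c' : ℝ} {g' : Fin n → ℝ} (B : Below (2 / κ) (κ₁ / 2) c g c' g') {e : Fin n → ℝ}
    {r : List (Fin n → ℝ)} (hb : WordBox e r) (hr : r.length ≤ m) (j : ℕ) :
    OuterReg β κ κ₁ c g m (rightF c' g' r j) := by
  by_cases hj : j < r.length
  · exact (T.reg_wordRes' B (d := r.getD j 0) (l := r.drop (j + 1))
      ⟨hb.2 _ (getD_mem hj), fun w hw => hb.2 w (List.mem_of_mem_drop hw)⟩
      (by simp; omega)).congr fun J _ => by rw [rightF, if_pos hj]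
  · exact (T.reg_res' B).congr fun J _ => by rw [rightF, if_neg hj]

/-- A word times the resolvent at two points of the region. -/
lemma wordRes_diff {c' : ℝ} {g' : Fin n → ℝ} (B : Below (2 / κ) (κ₁ / 2) c g c' g')
    {x x' : Fin n × Fin n → ℝ} (hx : x ∈ outer β κ₁ c g) (hx' : x' ∈ outer β κ₁ c g)
    (e : Fin n → ℝ) (r : List (Fin n → ℝ)) :
    wordMat (skCoupling β x') e r * res c' (skCoupling β x') g'
        - wordMat (skCoupling β x) e r * res c' (skCoupling β x) g'
      = ∑ j ∈ range (r.length + 1), leftF c' g' e r j (skCoupling β x)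
          * (Matrix.of (skCoupling β x') - Matrix.of (skCoupling β x))
          * rightF c' g' r j (skCoupling β x') := by
  set J := skCoupling β x
  set J' := skCoupling β x'
  have h := res_sub (T.adm B hx) (T.adm B hx')
  rw [sub_self, Matrix.mul_zero, Matrix.zero_mul, zero_add, shiftMat, shiftMat,
    add_sub_add_right_eq_sub] at h
  rw [show wordMat J' e r * res c' J' g' - wordMat J e r * res c' J g'
      = (wordMat J' e r - wordMat J e r) * res c' J' g'
        + wordMat J e r * (res c' J' g' - res c' J g') by noncomm_ring,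
    word_diff J J' r e, h, sum_range_succ, Matrix.sum_mul]
  congr 1
  · refine sum_congr rfl fun j hj => ?_
    simp only [leftF, rightF, if_pos (mem_range.1 hj), Matrix.mul_assoc]
  · simp only [leftF, rightF, if_neg (lt_irrefl _), Matrix.mul_assoc]
    rfl

/-- One coupling times a resolvent word. -/
lemma ibp_site {c' : ℝ} {g' : Fin n → ℝ} (B : Below (2 / κ) (κ₁ / 2) c g c' g') {e : Fin n → ℝ}
    {r : List (Fin n → ℝ)} (hb : WordBox e r) (hr : r.length ≤ m) {i k : Fin n} (hki : k ≠ i) :
    |(∫ x in outer β κ₁ c g, skCoupling β x i k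
        * (wordMat (skCoupling β x) e r * res c' (skCoupling β x) g') k i
          ∂gauss (Fin n × Fin n))
      - β ^ 2 / n * ∑ j ∈ range (r.length + 1),
        ((∫ x in Dom β (lam β) κ₁ c g, leftF c' g' e r j (skCoupling β x) k k
            * rightF c' g' r j (skCoupling β x) i i ∂gauss (Fin n × Fin n))
        + ∫ x in Dom β (lam β) κ₁ c g, leftF c' g' e r j (skCoupling β x) k i
            * rightF c' g' r j (skCoupling β x) k i ∂gauss (Fin n × Fin n))|
      ≤ (β * (2 * lipC β κ κ₁ m + 2 * regC β κ κ₁ m)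
          + β ^ 2 * ((m + 1) * (2 * (regC β κ κ₁ m * lipC β κ κ₁ m)))) / (n : ℝ) ^ 2 := by
  set μ := gauss (Fin n × Fin n)
  set K := outer β κ₁ c g
  set K' := Dom β (lam β) κ₁ c g
  set t : ℝ := 1 / (n : ℝ) ^ 2
  set A := regC β κ κ₁ m
  set L := lipC β κ κ₁ m / √n
  set F := fun J : Fin n → Fin n → ℝ => wordMat J e r * res c' J g'
  have hn := T.npos
  have hsn : 0 < √(n:ℝ) := sqrt_pos.2 hn
  have hs1 : 1 ≤ √(n:ℝ) := one_le_sqrt.2 T.one_le_n
  have ht : 0 < t := by positivity
  have hβ0 := T.hβ.le
  have hF : OuterReg β κ κ₁ c g m F := T.reg_wordRes' B hb hr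
  have hA0 : 0 ≤ A := hF.1
  have hL0 : 0 ≤ L := T.lip_pos.le
  have hL' : L ≤ lipC β κ κ₁ m := div_le_self
    (by unfold lipC; have := T.one_le_regC (m := m); positivity) hs1
  obtain ⟨a, b, hab, hJ, hD⟩ : ∃ a b : Fin n, a < b ∧
      (∀ x, skCoupling β x i k = β / √n * x (a, b)) ∧
      (Matrix.single a b (1:ℝ) + Matrix.single b a (1:ℝ))
        = Matrix.single i k (1:ℝ) + Matrix.single k i (1:ℝ) := by
    rcases lt_or_gt_of_ne hki with h | h
    · exact ⟨k, i, h, fun x => by simp [skCoupling, h, h.not_gt], add_comm _ _⟩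
    · exact ⟨i, k, h, fun x => by simp [skCoupling, h], rfl⟩
  have hshift : ∀ x ∈ K', update x (a, b) (x (a, b) + t) ∈ K := fun x hx =>
    dom_shift T.edge.hg (fun q => by
      rw [le_div_iff₀ T.edge.hκ]; linarith [T.edge.hgκ q]) (zero_le_one.trans T.gamma_ge_one) ht.le
      (by rw [abs_of_pos T.hβ]; exact T.step) (by rw [abs_of_pos T.hβ]; exact T.step') _ hx
  have key := ibp_fd T.likely (measurableSet_dom β (lam β) κ₁ c g) T.inner_subset (a, b) ht hshift
    (X := fun x => F (skCoupling β x) k i) hL0 (T.lip_entry hF k i)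
    (fun x hx => T.abs_entry hF hx k i) ht
  set pr : ℕ → (Fin n × Fin n → ℝ) → ℝ := fun j x =>
    leftF c' g' e r j (skCoupling β x) k k * rightF c' g' r j (skCoupling β x) i i
      + leftF c' g' e r j (skCoupling β x) k i * rightF c' g' r j (skCoupling β x) k i
  have hdiff : ∀ x ∈ K', |(F (skCoupling β (update x (a, b) (x (a, b) + t))) k i
      - F (skCoupling β x) k i) / t - β / √n * ∑ j ∈ range (r.length + 1), pr j x|
      ≤ β / √n * ((m + 1) * (2 * (A * (L * t)))) := by
    intro x hx
    set x' := update x (a, b) (x (a, b) + t)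
    have hxK := T.inner_subset hx
    have hx'K : x' ∈ K := hshift x hx
    have hd : dist2 x' x = t := by
      rw [dist2, sum_eq_single (a, b) (fun q _ hq => by simp [x', hq]) (by simp)]
      simp [x', sqrt_sq ht.le]
    have hJ' : Matrix.of (skCoupling β x') - Matrix.of (skCoupling β x)
        = (t * (β / √n)) • (Matrix.single i k (1:ℝ) + Matrix.single k i (1:ℝ)) := by
      rw [← hD]
      ext u v
      simp only [Matrix.sub_apply, Matrix.of_apply, Matrix.smul_apply, smul_eq_mul, x',
        skCoupling_update β x hab]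
      ring
    have e1 : F (skCoupling β x') k i - F (skCoupling β x) k i
        = t * (β / √n) * ∑ j ∈ range (r.length + 1),
          (leftF c' g' e r j (skCoupling β x) k k * rightF c' g' r j (skCoupling β x') i i
            + leftF c' g' e r j (skCoupling β x) k i
              * rightF c' g' r j (skCoupling β x') k i) := by
      have h := congrFun (congrFun (T.wordRes_diff B hxK hx'K e r) k) i
      rw [Matrix.sub_apply] at h
      rw [show F (skCoupling β x') k i - F (skCoupling β x) k i = _ from h, hJ',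
        Matrix.sum_apply, mul_sum]
      refine sum_congr rfl fun j _ => ?_
      simp [Matrix.mul_apply, Matrix.single_apply, mul_add, add_mul, sum_add_distrib, ite_and,
        hki, hki.symm]
      ring
    rw [e1, mul_assoc, mul_div_cancel_left₀ _ ht.ne', ← mul_sub, ← sum_sub_distrib, abs_mul,
      abs_of_nonneg (show 0 ≤ β / √n by positivity)]
    refine mul_le_mul_of_nonneg_left ?_ (by positivity)
    refine (abs_sum_le_sum_abs _ _).trans ((sum_le_sum (g := fun _ => 2 * (A * (L * t)))
      fun j hj => ?_).trans ?_)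
    · have hl := T.reg_left B hb hr j
      have hr' := T.reg_right B hb hr j
      have q1 := T.lip_entry hr' i i x' hx'K x hxK
      have q2 := T.lip_entry hr' k i x' hx'K x hxK
      rw [hd] at q1 q2
      simp only [pr]
      rw [add_sub_add_comm, ← mul_sub, ← mul_sub, two_mul]
      refine (abs_add_le _ _).trans (add_le_add ?_ ?_) <;> rw [abs_mul]
      · exact mul_le_mul (T.abs_entry hl hxK k k) q1 (abs_nonneg _) hA0
      · exact mul_le_mul (T.abs_entry hl hxK k i) q2 (abs_nonneg _) hA0
    · rw [sum_const, card_range, nsmul_eq_mul]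
      push_cast
      gcongr
  have hint : ∀ j, IntegrableOn (pr j) K μ := fun j => by
    have hl := T.reg_left B hb hr j
    have hr' := T.reg_right B hb hr j
    exact (T.int_mul (T.int_entry hl k k) (T.int_entry hr' i i)
        fun x hx => T.abs_entry hr' hx i i).add
      (T.int_mul (T.int_entry hl k i) (T.int_entry hr' k i) fun x hx => T.abs_entry hr' hx k i)
  set Δ : (Fin n × Fin n → ℝ) → ℝ := fun x =>
    (F (skCoupling β (update x (a, b) (x (a, b) + t))) k i - F (skCoupling β x) k i) / t
  have hΔb : ∀ x ∈ K', |Δ x| ≤ L := fun x hx => by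
    have h := T.lip_entry hF k i _ (hshift x hx) x (T.inner_subset hx)
    rw [dist2, sum_eq_single (a, b) (fun q _ hq => by simp [hq]) (by simp)] at h
    simp only [update_self, add_sub_cancel_left, sqrt_sq ht.le] at h
    simp only [Δ]
    rw [abs_div, abs_of_pos ht, div_le_iff₀ ht]
    exact h
  have iS : IntegrableOn (fun x => β / √n * ∑ j ∈ range (r.length + 1), pr j x) K' μ :=
    ((integrable_finsetSum _ fun j _ => (hint j).mono_set T.inner_subset).const_mul _)
  have hΔi : IntegrableOn Δ K' μ := by
    obtain ⟨Φ, hc, -, he, -⟩ := T.likely.extension hL0 (T.lip_entry hF k i)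
    have hm : AEStronglyMeasurable (fun x => (Φ (update x (a, b) (x (a, b) + t)) - Φ x) / t)
        (μ.restrict K') :=
      (((hc.comp (continuous_id.update (a, b)
        ((continuous_apply (a, b)).add continuous_const))).sub hc).div_const t).aestronglyMeasurable
    refine (integrable_const L).mono' (hm.congr ?_)
      ((ae_restrict_iff' (measurableSet_dom _ _ _ _ _)).2
        (ae_of_all _ fun x hx => by rw [norm_eq_abs]; exact hΔb x hx))
    exact (ae_restrict_iff' (measurableSet_dom _ _ _ _ _)).2 (ae_of_all _ fun x hx => by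
      simp only [Δ, he x (T.inner_subset hx), he _ (hshift x hx)])
  have h2 : |(∫ x in K', Δ x ∂μ) - β / √n * ∫ x in K', ∑ j ∈ range (r.length + 1), pr j x ∂μ|
      ≤ β / √n * ((m + 1) * (2 * (A * (L * t)))) := by
    rw [← integral_const_mul, ← integral_sub hΔi iS, ← norm_eq_abs]
    refine (norm_setIntegral_le_of_norm_le_const (measure_lt_top μ _) fun x hx => by
      rw [norm_eq_abs]; exact hdiff x hx).trans ?_
    exact mul_le_of_le_one_right (by positivity) measureReal_le_one
  have h3 : ∫ x in K', ∑ j ∈ range (r.length + 1), pr j x ∂μ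
      = ∑ j ∈ range (r.length + 1),
        ((∫ x in K', leftF c' g' e r j (skCoupling β x) k k
            * rightF c' g' r j (skCoupling β x) i i ∂μ)
        + ∫ x in K', leftF c' g' e r j (skCoupling β x) k i
            * rightF c' g' r j (skCoupling β x) k i ∂μ) := by
    rw [integral_finsetSum _ fun j _ => (hint j).mono_set T.inner_subset]
    refine sum_congr rfl fun j _ => ?_
    have hl := T.reg_left B hb hr j
    have hr' := T.reg_right B hb hr j
    exact integral_add ((T.int_mul (T.int_entry hl k k) (T.int_entry hr' i i)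
        fun x hx => T.abs_entry hr' hx i i).mono_set T.inner_subset)
      ((T.int_mul (T.int_entry hl k i) (T.int_entry hr' k i)
        fun x hx => T.abs_entry hr' hx k i).mono_set T.inner_subset)
  rw [← h3]
  have e0 : ∫ x in K, skCoupling β x i k * F (skCoupling β x) k i ∂μ
      = β / √n * ∫ x in K, x (a, b) * F (skCoupling β x) k i ∂μ := by
    rw [← integral_const_mul]
    exact setIntegral_congr_fun T.meas_outer fun x _ => by simp only [hJ x]; ring
  rw [show (β ^ 2 / n : ℝ) = β / √n * (β / √n) by rw [div_mul_div_comm, mul_self_sqrt hn.le, sq],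
    e0, mul_assoc, ← mul_sub, abs_mul, abs_of_nonneg (show 0 ≤ β / √n by positivity)]
  have h4 : L * t + A * (t + μ.real Kᶜ / t) + L * μ.real K'ᶜ
      ≤ (2 * lipC β κ κ₁ m + 2 * A) * t := by
    have hq : μ.real Kᶜ / t ≤ t := by
      rw [div_le_iff₀ ht]
      refine T.rare'.trans ?_
      simp only [t]
      rw [div_mul_div_comm, one_mul, ← pow_add]
      exact div_le_div_of_nonneg_left zero_le_one (by positivity)
        (pow_le_pow_right₀ T.one_le_n (by norm_num))
    have hq' : μ.real K'ᶜ ≤ t := T.rare.trans (div_le_div_of_nonneg_left zero_le_one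
      (by positivity) (pow_le_pow_right₀ T.one_le_n (by norm_num)))
    have := mul_le_mul_of_nonneg_left hq hA0
    have := mul_le_mul_of_nonneg_left hq' hL0
    have := mul_le_mul_of_nonneg_right hL' ht.le
    linarith
  refine (mul_le_mul_of_nonneg_left ((abs_sub_le _ (∫ x in K', Δ x ∂μ) _).trans
    (add_le_add (key.trans h4) h2)) (by positivity)).trans ?_
  have hb' : β / √n ≤ β := div_le_self hβ0 hs1
  have h5 : (2 * lipC β κ κ₁ m + 2 * A) * t + β / √n * ((m + 1) * (2 * (A * (L * t))))
      ≤ (2 * lipC β κ κ₁ m + 2 * A) * t + β * ((m + 1) * (2 * (A * (lipC β κ κ₁ m * t)))) := by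
    gcongr
  have hlip : 0 ≤ lipC β κ κ₁ m := hL0.trans hL'
  refine (mul_le_mul hb' h5 (by positivity) hβ0).trans (le_of_eq ?_)
  simp only [t]
  ring

/-- The centre of `(J Y S)_ii` against the splits. -/
theorem split_est {c' : ℝ} {g' : Fin n → ℝ} (B : Below (2 / κ) (κ₁ / 2) c g c' g') {e : Fin n → ℝ}
    {r : List (Fin n → ℝ)} (hb : WordBox e r) (hr : r.length ≤ m) (i : Fin n) :
    |centre β κ₁ c g (fun J => Matrix.of J * (wordMat J e r * res c' J g')) i i
      - β ^ 2 * ∑ j ∈ range (r.length + 1), centreAvg β κ₁ c g (leftF c' g' e r j)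
          * centre β κ₁ c g (rightF c' g' r j) i i|
      ≤ (2 * (β * (2 * lipC β κ κ₁ m + 2 * regC β κ κ₁ m)
            + β ^ 2 * ((m + 1) * (2 * (regC β κ κ₁ m * lipC β κ κ₁ m))))
          + β ^ 2 * ((m + 1) * ((1 + 16 * (144 + 146 ^ 4)) * lipC β κ κ₁ m ^ 2
            + 10 * regC β κ κ₁ m ^ 2))) / n := by
  set μ := gauss (Fin n × Fin n)
  set K := outer β κ₁ c g
  set K' := Dom β (lam β) κ₁ c g
  set E := β * (2 * lipC β κ κ₁ m + 2 * regC β κ κ₁ m)
    + β ^ 2 * ((m + 1) * (2 * (regC β κ κ₁ m * lipC β κ κ₁ m)))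
  set C₀ := (1 + 16 * (144 + 146 ^ 4)) * lipC β κ κ₁ m ^ 2 + 10 * regC β κ κ₁ m ^ 2
  set F := fun J : Fin n → Fin n → ℝ => wordMat J e r * res c' J g'
  have hn := T.npos
  have hF : OuterReg β κ κ₁ c g m F := T.reg_wordRes' B hb hr
  have hJi : ∀ k, IntegrableOn (fun x => skCoupling β x i k * F (skCoupling β x) k i) K μ :=
    fun k => by
    refine T.int_mul ?_ (T.int_entry hF k i) fun x hx => T.abs_entry hF hx k i
    refine (integrable_const (lam β + 1)).mono'
      (Words.skCoupling_continuous β i k).aestronglyMeasurable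
      ((ae_restrict_iff' T.meas_outer).2 (ae_of_all _ fun x hx => ?_))
    rw [norm_eq_abs]
    exact hx.2.1.abs_apply_le i k
  have e1 : centre β κ₁ c g (fun J => Matrix.of J * F J) i i
      = (∑ k ∈ univ.erase i, ∫ x in K, skCoupling β x i k * F (skCoupling β x) k i ∂μ)
        / μ.real K := by
    rw [centre, cmean, ← integral_finsetSum _ fun k _ => hJi k]
    congr 1
    refine setIntegral_congr_fun T.meas_outer fun x _ => ?_
    simp only [Matrix.mul_apply, Matrix.of_apply]
    rw [← add_sum_erase _ _ (mem_univ i), skCoupling_self, zero_mul, zero_add]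
  set S : ℕ → ℝ := fun j => (∑ k ∈ univ.erase i,
    ((∫ x in K', leftF c' g' e r j (skCoupling β x) k k
        * rightF c' g' r j (skCoupling β x) i i ∂μ)
      + ∫ x in K', leftF c' g' e r j (skCoupling β x) k i
        * rightF c' g' r j (skCoupling β x) k i ∂μ)) / n / μ.real K
  have hP := T.likely.pos
  have h1 : |centre β κ₁ c g (fun J => Matrix.of J * F J) i i
      - β ^ 2 * ∑ j ∈ range (r.length + 1), S j| ≤ 2 * E / n := by
    have e2 : β ^ 2 * ∑ j ∈ range (r.length + 1), S j
        = (∑ k ∈ univ.erase i, β ^ 2 / n * ∑ j ∈ range (r.length + 1),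
          ((∫ x in K', leftF c' g' e r j (skCoupling β x) k k
              * rightF c' g' r j (skCoupling β x) i i ∂μ)
            + ∫ x in K', leftF c' g' e r j (skCoupling β x) k i
              * rightF c' g' r j (skCoupling β x) k i ∂μ)) / μ.real K := by
      simp only [S, mul_sum, sum_div]
      rw [sum_comm]
      exact sum_congr rfl fun k _ => sum_congr rfl fun j _ => by ring
    rw [e1, e2, ← sub_div, abs_div, abs_of_pos hP, div_le_iff₀ hP, ← sum_sub_distrib]
    refine (abs_sum_le_sum_abs _ _).trans ((sum_le_sum fun k hk =>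
      T.ibp_site B hb hr (ne_of_mem_erase hk)).trans ?_)
    rw [sum_const, nsmul_eq_mul]
    have hE : 0 ≤ E := by
      have := T.one_le_regC (m := m)
      have := T.hβ
      simp only [E, lipC]
      positivity
    have hcard : ((univ.erase i).card : ℝ) ≤ n := by
      exact_mod_cast (card_le_univ _).trans_eq (Fintype.card_fin n)
    refine (mul_le_mul_of_nonneg_right hcard (by positivity)).trans ?_
    rw [show (n:ℝ) * (E / (n:ℝ) ^ 2) = E / n by field_simp]
    have h0 : 0 ≤ 2 * E / n := by positivity
    have := mul_le_mul_of_nonneg_left T.likely.half h0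
    have e3 : 2 * E / n * (1 / 2) = E / n := by ring
    linarith
  have h2 : ∀ j ∈ range (r.length + 1), |S j - centreAvg β κ₁ c g (leftF c' g' e r j)
      * centre β κ₁ c g (rightF c' g' r j) i i| ≤ C₀ / n := fun j _ =>
    T.pairing (T.reg_left B hb hr j) (T.reg_right B hb hr j) i
  refine (abs_sub_le _ (β ^ 2 * ∑ j ∈ range (r.length + 1), S j) _).trans ?_
  rw [add_div]
  refine add_le_add h1 ?_
  rw [← mul_sub, ← sum_sub_distrib, abs_mul, abs_of_nonneg (sq_nonneg β), mul_div_assoc]
  refine mul_le_mul_of_nonneg_left ((abs_sum_le_sum_abs _ _).trans ((sum_le_sum h2).trans ?_))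
    (sq_nonneg β)
  rw [sum_const, card_range, nsmul_eq_mul, mul_div_assoc]
  refine mul_le_mul_of_nonneg_right ?_ (div_nonneg (by positivity) hn.le)
  exact_mod_cast Nat.add_le_add_right hr 1

end Top

end Vale.Agent.P150.Beta1
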