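import Vale.Agent.P150.Beta1.Resolvent.Means

/-!
# Tails of the matrix norms around the centres

Also: centres barely move between two likely regions, and off-diagonal centres vanish by gauge
symmetry.
-/

namespace Vale.Agent.P150.Beta1

open MeasureTheory ProbabilityTheory Finset Real Function Matrix RN
open Words (LipOn dist2)

variable {n : ℕ}

/-- The matrix of centres. -/
noncomputable def centreMat (β κ₁ c : ℝ) (g : Fin n → ℝ)
    (F : (Fin n → Fin n → ℝ) → Matrix (Fin n) (Fin n) ℝ) : Matrix (Fin n) (Fin n) ℝ :=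
  Matrix.of fun i j => centre β κ₁ c g F i j

/-- Diagonal and off-diagonal norms together. -/
noncomputable def nTot (M : Matrix (Fin n) (Fin n) ℝ) : ℝ := nDiag M + nOff M

lemma nTot_add_le (M N : Matrix (Fin n) (Fin n) ℝ) : nTot (M + N) ≤ nTot M + nTot N := by
  unfold nTot
  linarith [nDiag_add_le M N, nOff_add_le M N]

lemma nTot_nonneg (M : Matrix (Fin n) (Fin n) ℝ) : 0 ≤ nTot M :=
  add_nonneg (nDiag_nonneg M) (nOff_nonneg M)

lemma nTot_le_frob (M : Matrix (Fin n) (Fin n) ℝ) : nTot M ≤ 2 * frob M := by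
  unfold nTot
  linarith [nDiag_le_frob M, nOff_le_frob M]

lemma nTot_sub_le (M N : Matrix (Fin n) (Fin n) ℝ) : |nTot M - nTot N| ≤ 2 * frob (M - N) := by
  have h1 := nTot_add_le (M - N) N
  have h2 := nTot_add_le (N - M) M
  rw [sub_add_cancel] at h1 h2
  have h3 := nTot_le_frob (M - N)
  have h4 := nTot_le_frob (N - M)
  rw [← frob_neg (N - M), neg_sub] at h4
  rw [abs_le]
  constructor <;> linarith

lemma frob_le_of_entries {M : Matrix (Fin n) (Fin n) ℝ} {a : ℝ} (ha : 0 ≤ a)
    (h : ∀ i j, |M i j| ≤ a) : frob M ≤ n * a := by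
  rw [frob_le_iff (by positivity)]
  calc ∑ i, ∑ j, M i j ^ 2 ≤ ∑ _i : Fin n, ∑ _j : Fin n, a ^ 2 :=
        sum_le_sum fun i _ => sum_le_sum fun j _ => by
          rw [← sq_abs]; exact pow_le_pow_left₀ (abs_nonneg _) (h i j) 2
    _ = (n * a) ^ 2 := by simp [sum_const]; ring

/-- The constant of `tot_tail`. -/
noncomputable def tailC (β : ℝ) : ℝ :=
  (1 + (1 + 16 * (144 + 146 ^ 4))) * 8 * (√2 * |β| + 1)

namespace Top

variable {β κ κ₁ c ν : ℝ} {g : Fin n → ℝ} (T : Top β κ κ₁ c ν g)

include T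

/-- Tail of the norms around the matrix of centres, at any exponential rate. -/
theorem tot_tail {a : ℝ} (ha : 0 < a) {F : (Fin n → Fin n → ℝ) → Matrix (Fin n) (Fin n) ℝ}
    (hF : Reg (Region (lam β + 1) (κ₁ / 2) c g) a F) {u : ℝ} (hu : 0 ≤ u) :
    (gauss (Fin n × Fin n)).real ({x | tailC β * a * (146 + 1 + 2 * √u)
        < nTot (F (skCoupling β x) - centreMat β κ₁ c g F)} ∩ outer β κ₁ c g)
      ≤ 2 * exp (-(u * n)) := by
  set μ := gauss (Fin n × Fin n)
  set K := outer β κ₁ c g
  set L := a * (√2 * |β| + 1) / √n with hLdef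
  have hn := T.npos
  have hsn : 0 < √(n:ℝ) := sqrt_pos.2 hn
  have hL : 0 < L := by positivity
  have hK := T.likely
  set M := centreMat β κ₁ c g F
  have hfro : ∀ x ∈ K, ∀ y ∈ K, frob (F (skCoupling β x) - F (skCoupling β y)) ≤ L * dist2 x y :=
    fun x hx y hy => by
      refine (hF.dom_sub_le (β := β) hy hx).trans
        (mul_le_mul_of_nonneg_right (div_le_div_of_nonneg_right
          (mul_le_mul_of_nonneg_left (by linarith) ha.le) hsn.le) (Words.dist2_nonneg _ _))
  have hent : ∀ i j, LipOn (fun x => F (skCoupling β x) i j) L K := fun i j x hx y hy =>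
    (abs_apply_le_frob (F (skCoupling β x) - F (skCoupling β y)) i j).trans (hfro x hx y hy)
  set Z := fun x => nTot (F (skCoupling β x) - M)
  have hZ : LipOn Z (2 * L) K := fun x hx y hy => by
    refine (nTot_sub_le _ _).trans ?_
    rw [sub_sub_sub_cancel_right]
    linarith [hfro x hx y hy]
  set Zd := fun x => nDiag (F (skCoupling β x) - M)
  set Zo := fun x => nOff (F (skCoupling β x) - M)
  set C₄ : ℝ := 16 * (144 + 146 ^ 4)
  set C₂ : ℝ := 1 + C₄
  set s := √n * L with hsdef
  have hs : 0 < s := by positivity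
  have hd : ∀ x, Zd x ^ 2 = ∑ i, (F (skCoupling β x) i i - centre β κ₁ c g F i i) ^ 2 := fun x => by
    simp only [Zd, nDiag_sq, Matrix.sub_apply, M, centreMat, Matrix.of_apply]
  have ho : ∀ x, Zo x ^ 4
      ≤ ∑ i, ∑ j, (F (skCoupling β x) i j - centre β κ₁ c g F i j) ^ 4 := fun x => by
    simp only [Zo, nOff_pow, Matrix.sub_apply, M, centreMat, Matrix.of_apply]
    refine sum_le_sum fun i _ => sum_le_sum fun j _ => ?_
    split_ifs
    · positivity
    · exact le_rfl
  set U := fun x => 1 / (2 * s) * (∑ i, (F (skCoupling β x) i i - centre β κ₁ c g F i i) ^ 2)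
    + (1 / (4 * s ^ 3) * (∑ i, ∑ j, (F (skCoupling β x) i j - centre β κ₁ c g F i j) ^ 4) + 2 * s)
  have i2 : ∀ i, IntegrableOn
      (fun x => (F (skCoupling β x) i i - centre β κ₁ c g F i i) ^ 2) K μ :=
    fun i => (hK.cmean_second hL (hent i i)).1
  have i4 : ∀ i j, IntegrableOn
      (fun x => (F (skCoupling β x) i j - centre β κ₁ c g F i j) ^ 4) K μ :=
    fun i j => (hK.cmean_fourth hL (hent i j)).1
  have iS : IntegrableOn
      (fun x => ∑ i, (F (skCoupling β x) i i - centre β κ₁ c g F i i) ^ 2) K μ :=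
    integrable_finsetSum _ fun i _ => i2 i
  have iF : IntegrableOn
      (fun x => ∑ i, ∑ j, (F (skCoupling β x) i j - centre β κ₁ c g F i j) ^ 4) K μ :=
    integrable_finsetSum _ fun i _ => integrable_finsetSum _ fun j _ => i4 i j
  have iU : IntegrableOn U K μ :=
    (iS.const_mul _).add ((iF.const_mul _).add integrableOn_const)
  have hle : ∀ x, Z x ≤ U x := fun x => by
    have h1 : Zd x ≤ 1 / (2 * s) * Zd x ^ 2 + s := by
      rw [← sub_nonneg, show 1 / (2 * s) * Zd x ^ 2 + s - Zd x
        = ((Zd x - s) ^ 2 + s ^ 2) / (2 * s) by field_simp; ring]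
      positivity
    have h2 : Zo x ≤ 1 / (4 * s ^ 3) * Zo x ^ 4 + s := by
      rw [← sub_nonneg, show 1 / (4 * s ^ 3) * Zo x ^ 4 + s - Zo x
        = ((Zo x ^ 2 - s ^ 2) ^ 2 + 2 * s ^ 2 * (Zo x - s) ^ 2 + s ^ 4) / (4 * s ^ 3) by
          field_simp; ring]
      positivity
    have h3 := mul_le_mul_of_nonneg_left (hd x).le (show 0 ≤ 1 / (2 * s) by positivity)
    have h4 := mul_le_mul_of_nonneg_left (ho x) (show 0 ≤ 1 / (4 * s ^ 3) by positivity)
    simp only [Z, U, nTot]
    linarith
  have hm : cmean K Z ≤ (C₂ / 2 + C₄ / 4 + 2) * s := by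
    refine (hK.cmean_mono (hK.integrableOn (by positivity) hZ) iU fun x _ => hle x).trans ?_
    rw [hK.cmean_add (iS.const_mul _) ((iF.const_mul _).fun_add integrableOn_const),
      hK.cmean_add (iF.const_mul _) integrableOn_const, Likely.cmean_mul, Likely.cmean_mul,
      hK.cmean_const, hK.cmean_sum fun i _ => i2 i,
      hK.cmean_sum fun i _ => integrable_finsetSum _ fun j _ => i4 i j]
    simp only [fun i => hK.cmean_sum (s := univ) fun j _ => i4 i j]
    have b1 : ∑ i, cmean K (fun x => (F (skCoupling β x) i i - centre β κ₁ c g F i i) ^ 2)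
        ≤ C₂ * s ^ 2 := by
      refine (sum_le_sum fun i _ => (hK.cmean_second hL (hent i i)).2).trans (le_of_eq ?_)
      rw [sum_const, card_univ, Fintype.card_fin, nsmul_eq_mul, hsdef, mul_pow, sq_sqrt hn.le]
      ring
    have b2 : ∑ i, ∑ j, cmean K
        (fun x => (F (skCoupling β x) i j - centre β κ₁ c g F i j) ^ 4) ≤ C₄ * s ^ 4 := by
      refine (sum_le_sum fun i _ => sum_le_sum fun j _ =>
        (hK.cmean_fourth hL (hent i j)).2).trans (le_of_eq ?_)
      simp only [sum_const, card_univ, Fintype.card_fin, nsmul_eq_mul, hsdef, mul_pow]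
      rw [show √(n:ℝ) ^ 4 = (√(n:ℝ) ^ 2) ^ 2 by ring, sq_sqrt hn.le]
      ring
    have d1 := mul_le_mul_of_nonneg_left b1 (show 0 ≤ 1 / (2 * s) by positivity)
    have d2 := mul_le_mul_of_nonneg_left b2 (show 0 ≤ 1 / (4 * s ^ 3) by positivity)
    have f1 : 1 / (2 * s) * (C₂ * s ^ 2) = C₂ / 2 * s := by field_simp
    have f2 : 1 / (4 * s ^ 3) * (C₄ * s ^ 4) = C₄ / 4 * s := by field_simp
    linarith
  have ht := hK.cmean_tail (show 0 < 2 * L by positivity) hZ
    (s := 4 * L * √(u * n)) (by positivity)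
  refine le_trans (measureReal_mono ?_) (ht.trans (le_of_eq ?_))
  · rintro x ⟨hx, hxK⟩
    refine ⟨?_, hxK⟩
    simp only [Set.mem_ofPred_eq] at hx ⊢
    refine le_trans ?_ (le_abs_self _)
    have hse : s = a * (√2 * |β| + 1) := by rw [hsdef, hLdef]; field_simp
    have hLs : L ≤ s := le_mul_of_one_le_left hL.le (one_le_sqrt.2 T.one_le_n)
    have hLu : L * √(u * n) = s * √u := by rw [sqrt_mul hu, hsdef]; ring
    have htc : tailC β * a * (146 + 1 + 2 * √u) = (1 + C₂) * 8 * (147 + 2 * √u) * s := by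
      rw [hse]; simp only [tailC, C₂, C₄]; ring
    rw [htc] at hx
    have hC : 0 ≤ C₄ := by simp only [C₄]; norm_num
    have hC₂ : C₂ = 1 + C₄ := rfl
    have hus : 0 ≤ √u * s := by positivity
    have hcus : 0 ≤ C₄ * (√u * s) := by positivity
    have hcs : 0 ≤ C₄ * s := by positivity
    rw [show 4 * L * √(u * n) = 4 * (s * √u) by rw [mul_assoc, hLu]]
    rw [hC₂] at hx hm
    nlinarith
  · congr 2
    rw [mul_pow, sq_sqrt (by positivity)]
    field_simp
    ring

end Top

/-- Centres on a smaller likely region. -/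
lemma cmean_subset {ι : Type*} [Fintype ι] {K K' : Set (ι → ℝ)} (hK : Likely K)
    (hK' : Likely K') (hsub : K ⊆ K') {X : (ι → ℝ) → ℝ} (hi : IntegrableOn X K' (gauss ι))
    {A q : ℝ} (hA : ∀ x ∈ K', |X x| ≤ A) (hq : (gauss ι).real Kᶜ ≤ q) :
    |cmean K X - cmean K' X| ≤ 4 * A * q := by
  set μ := gauss ι
  obtain ⟨x₀, hx₀⟩ := hK'.nonempty
  have hA0 : 0 ≤ A := (abs_nonneg _).trans (hA x₀ hx₀)
  have hq0 : 0 ≤ q := measureReal_nonneg.trans hq
  have h1 : |(∫ x in K', X x ∂μ) - ∫ x in K, X x ∂μ| ≤ A * q := by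
    rw [← setIntegral_diff hK.meas hi hsub, ← norm_eq_abs]
    exact (norm_setIntegral_le_of_norm_le_const (measure_lt_top μ _)
      fun x hx => by rw [norm_eq_abs]; exact hA x hx.1).trans
      (mul_le_mul_of_nonneg_left ((measureReal_mono fun x hx => hx.2).trans hq) hA0)
  have h2 : |μ.real K' - μ.real K| ≤ q := by
    have := measureReal_mono (μ := μ) hsub
    have h3 := hq
    rw [probReal_compl_eq_one_sub hK.meas] at h3
    have : μ.real K' ≤ 1 := measureReal_le_one
    rw [abs_of_nonneg (by linarith)]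
    linarith
  have hP := hK.pos
  have e : cmean K X - cmean K' X = (((∫ x in K, X x ∂μ) - ∫ x in K', X x ∂μ)
      + cmean K' X * (μ.real K' - μ.real K)) / μ.real K := by
    have h4 : ∫ x in K', X x ∂μ = cmean K' X * μ.real K' :=
      (div_mul_cancel₀ _ hK'.pos.ne').symm
    have h5 : ∫ x in K, X x ∂μ = cmean K X * μ.real K := (div_mul_cancel₀ _ hP.ne').symm
    rw [h4, h5, eq_div_iff hP.ne']
    ring
  rw [e, abs_div, abs_of_pos hP, div_le_iff₀ hP]
  refine (abs_add_le _ _).trans ?_
  rw [abs_sub_comm, abs_mul]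
  have h4 := mul_le_mul (hK'.abs_cmean_le hi hA) h2 (abs_nonneg _) hA0
  have h5 := mul_le_mul_of_nonneg_left hK.half (show 0 ≤ 4 * A * q by positivity)
  linarith

/-- Off-diagonal centres of resolvent words vanish. -/
theorem centre_offdiag {β κ₁ c : ℝ} (hκ₁ : 0 < κ₁) {g : Fin n → ℝ} (hg : ∀ i, 0 ≤ g i)
    (d : Fin n → ℝ) (l : List (Fin n → ℝ)) {i j : Fin n} (hij : i ≠ j) :
    centre β κ₁ c g (fun J => wordMat J d l * res c J g) i j = 0 := by
  set μ := gauss (Fin n × Fin n)
  set K := outer β κ₁ c g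
  set s : Fin n → ℝ := fun k => if k = i then -1 else 1
  have hs : ∀ k, s k * s k = 1 := fun k => by simp only [s]; split_ifs <;> norm_num
  set R : Fin n × Fin n → Fin n × Fin n → ℝ := fun p q => if q = p then s p.1 * s p.2 else 0
  have hR : ∀ p q, ∑ k, R p k * R q k = if p = q then 1 else 0 := fun p q => by
    rcases eq_or_ne p q with rfl | h
    · simp [R, mul_mul_mul_comm, hs]
    · simp [R, h, h.symm]
  set σ : (Fin n × Fin n → ℝ) → Fin n × Fin n → ℝ := fun x p => s p.1 * s p.2 * x p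
  have hσR : rowMap R = σ := funext fun x => funext fun p => by simp [rowMap, R, σ]
  have hpres : μ.map σ = μ := hσR ▸ gauss_map_rowMap R hR
  have hσσ : ∀ x, σ (σ x) = x := fun x => funext fun p => by
    simp only [σ]
    linear_combination (s p.2 * s p.2 * x p) * hs p.1 + x p * hs p.2
  have hσm : Measurable σ := measurable_pi_lambda _ fun p => measurable_const.mul (measurable_pi_apply p)
  have hsk : ∀ x, skCoupling β (σ x) = gaugeJ s (skCoupling β x) := fun x => by
    funext u v
    simp only [skCoupling, gaugeJ, σ]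
    split_ifs <;> ring
  have hmem : ∀ x ∈ K, σ x ∈ K := fun x hx => by
    refine ⟨skCoupling_symm β (σ x), ?_, fun a => ?_⟩
    · rw [hsk x, gauge_mat]
      have hd : OpLe 1 (diagonal s) := OpLe.diag zero_le_one fun k => by
        simp only [s]; split_ifs <;> simp
      exact ((hd.mul hx.2.1).mul hd).mono (le_of_eq (by ring))
    · have h := hx.2.2 fun k => s k * a k
      have hsq : ∀ k (z : ℝ), (s k * z) ^ 2 = z ^ 2 := fun k z => by
        rw [mul_pow, sq (s k), hs, one_mul]
      simp only [hsq] at h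
      refine le_trans (le_of_eq ?_) h
      have e : ∀ k, (√(g k) * (s k * a k)) ^ 2 = (√(g k) * a k) ^ 2 := fun k => by
        rw [mul_left_comm, hsq]
      simp only [shiftQ, hsk x, gaugeJ, act, mul_sum, e]
      congr 1
      exact sum_congr rfl fun u _ => sum_congr rfl fun v _ => by ring
  have hpre : σ ⁻¹' K = K := Set.ext fun x =>
    ⟨fun h => hσσ x ▸ hmem _ h, fun h => hmem x h⟩
  set X := fun x => (wordMat (skCoupling β x) d l * res c (skCoupling β x) g) i j
  have hX : ∀ x ∈ K, X (σ x) = -X x := fun x hx => by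
    have H : Adm c (κ₁ / 2) (skCoupling β x) g := ⟨by linarith, hx.1, hg, hx.2.2⟩
    have hx' := hmem x hx
    have H' : Adm c (κ₁ / 2) (gaugeJ s (skCoupling β x)) g := by
      rw [← hsk x]
      exact ⟨by linarith, hx'.1, hg, hx'.2.2⟩
    simp only [X, hsk x]
    rw [gauge_res hs H H', gauge_word hs,
      show diagonal s * wordMat (skCoupling β x) d l * diagonal s
          * (diagonal s * res c (skCoupling β x) g * diagonal s)
        = diagonal s * wordMat (skCoupling β x) d l * (diagonal s * diagonal s)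
          * res c (skCoupling β x) g * diagonal s by simp only [Matrix.mul_assoc],
      gauge_diag_sq hs, Matrix.mul_one, Matrix.mul_diagonal]
    rw [Matrix.mul_assoc, Matrix.diagonal_mul]
    simp [s, hij.symm]
  let e : (Fin n × Fin n → ℝ) ≃ᵐ (Fin n × Fin n → ℝ) :=
    { toFun := σ, invFun := σ, left_inv := hσσ, right_inv := hσσ,
      measurable_toFun := hσm, measurable_invFun := hσm }
  have h1 : ∫ x in K, X x ∂μ = ∫ x in K, -X x ∂μ := by
    have h := MeasurePreserving.setIntegral_preimage_emb (f := σ) ⟨hσm, hpres⟩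
      e.measurableEmbedding X K
    rw [hpre] at h
    rw [← h]
    exact setIntegral_congr_fun (measurableSet_dom _ _ _ _ _) hX
  rw [integral_neg] at h1
  rw [centre, cmean, show (∫ x in K, X x ∂μ) = 0 by linarith, zero_div]

end Vale.Agent.P150.Beta1
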